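import Vale.Agent.P100.Solution

/-!
# P100: nonexistence from a pointwise certificate

If the pointwise inequality `IsCert n p q A B δ c` holds, `δ > 0`, `pq > 1`, `A + qB ≥ 0`,
`pA + B ≥ 0` and `n < 4 + 2 (A (p+1) + B (q+1)) / (pq-1)`, with `n ≥ 5`, then the Lane–Emden
system has no positive entire solution.
-/

namespace Vale.Agent.P100

open Set Filter Topology MeasureTheory
open Vale.Agent.P252 (pd)

variable {n : ℕ} {p q A B : ℝ} {u v : (Fin n → ℝ) → ℝ}

/-- The field with coefficients `c`. -/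
noncomputable def certField (p q A B : ℝ) (u v : (Fin n → ℝ) → ℝ) (c : Fin 14 → ℝ) (i : Fin n)
    (x : Fin n → ℝ) : ℝ :=
  ∑ k, c k * solField p q A B u v k i x

/-- Its weak divergence. -/
noncomputable def certDiv (p q A B : ℝ) (u v : (Fin n → ℝ) → ℝ) (c : Fin 14 → ℝ)
    (x : Fin n → ℝ) : ℝ :=
  wt A B u v x * jetDiv p q A B c (ja u x) (ja v x) (jP u x) (jP v x) (js p u v x) (js q v u x)

/-- The density controlled by a certificate. -/
noncomputable def certDensity (p q A B : ℝ) (u v : (Fin n → ℝ) → ℝ) (x : Fin n → ℝ) : ℝ :=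
  wt A B u v x * energy (ja u x) (ja v x) (jP u x) (jP v x) (js p u v x) (js q v u x)

theorem good_cert (h : IsSol p q u v) (c : Fin 14 → ℝ) :
    GoodField (certField p q A B u v c) (certDiv p q A B u v c) :=
  (GoodField.combine (fun k => good_field (A := A) (B := B) h k) c).congr (fun _ _ _ => rfl)
    fun x _ => by
      simp only [certDiv, jetDiv, solDiv, Finset.mul_sum]
      exact Finset.sum_congr rfl fun k _ => by ring

theorem wt_pos (h : IsSol p q u v) (x : Fin n → ℝ) : 0 < wt A B u v x :=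
  mul_pos (Real.rpow_pos_of_pos (h.pos_u x) _) (Real.rpow_pos_of_pos (h.pos_v x) _)

theorem js_pos (h : IsSol p q u v) (x : Fin n → ℝ) : 0 < js p u v x :=
  div_pos (Real.rpow_pos_of_pos (h.pos_v x) _) (h.pos_u x)

theorem dotv_self_nonneg (a : Fin n → ℝ) : 0 ≤ dotv a a :=
  Finset.sum_nonneg fun i _ => mul_self_nonneg (a i)

theorem dotm_self_nonneg (P : Fin n → Fin n → ℝ) : 0 ≤ dotm P P :=
  Finset.sum_nonneg fun _ _ => Finset.sum_nonneg fun _ _ => mul_self_nonneg _

theorem sq_entry_le (P : Fin n → Fin n → ℝ) (i j : Fin n) : P i j ^ 2 ≤ dotm P P := by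
  refine le_trans ?_ (Finset.single_le_sum (f := fun i => ∑ j, P i j * P i j)
    (fun i _ => Finset.sum_nonneg fun _ _ => mul_self_nonneg _) (Finset.mem_univ i))
  refine le_trans (le_of_eq (sq _)) ?_
  exact Finset.single_le_sum (f := fun j => P i j * P i j) (fun _ _ => mul_self_nonneg _)
    (Finset.mem_univ j)

/-- Every jet field is of order three in the scale `energy ^ (1/4)`. -/
theorem jetField_bound (a b : Fin n → ℝ) (P Q : Fin n → Fin n → ℝ) (s t : ℝ) (i : Fin n)
    (k : Fin 14) :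
    |jetField a b P Q s t i k| ≤ n * Real.sqrt (Real.sqrt (energy a b P Q s t)) ^ 3 := by
  set G := energy a b P Q s t with hG
  set m := Real.sqrt (Real.sqrt G) with hm
  have hn : (1 : ℝ) ≤ n := by exact_mod_cast i.pos
  have a2 := dotv_self_nonneg a
  have b2 := dotv_self_nonneg b
  have hP := dotm_self_nonneg P
  have hQ := dotm_self_nonneg Q
  have hm0 : 0 ≤ m := Real.sqrt_nonneg _
  have hm2 : m ^ 2 = Real.sqrt G := Real.sq_sqrt (Real.sqrt_nonneg _)
  have sq2 : ∀ y : ℝ, y ^ 2 ≤ G → |y| ≤ m ^ 2 := fun y hy => hm2 ▸ Real.abs_le_sqrt hy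
  have hs : |s| ≤ m ^ 2 := sq2 s (by simp only [hG, energy]; nlinarith [sq_nonneg t])
  have ht : |t| ≤ m ^ 2 := sq2 t (by simp only [hG, energy]; nlinarith [sq_nonneg s])
  have hPe : ∀ i j, |P i j| ≤ m ^ 2 := fun i j => sq2 _ (by
    have := sq_entry_le P i j
    simp only [hG, energy]; nlinarith [sq_nonneg t, sq_nonneg s])
  have hQe : ∀ i j, |Q i j| ≤ m ^ 2 := fun i j => sq2 _ (by
    have := sq_entry_le Q i j
    simp only [hG, energy]; nlinarith [sq_nonneg t, sq_nonneg s])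
  have haa : |dotv a a| ≤ m ^ 2 := sq2 _ (by simp only [hG, energy]; nlinarith [sq_nonneg t])
  have hbb : |dotv b b| ≤ m ^ 2 := sq2 _ (by simp only [hG, energy]; nlinarith [sq_nonneg t])
  have comp : ∀ w : Fin n → ℝ, |dotv w w| ≤ m ^ 2 → ∀ j, |w j| ≤ m := fun w hw j =>
    abs_le_of_sq_le_sq (le_trans (le_of_eq (sq _)) <| le_trans (Finset.single_le_sum
      (f := fun l => w l * w l) (fun l _ => mul_self_nonneg (w l)) (Finset.mem_univ j))
      ((le_abs_self _).trans hw)) hm0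
  have ha := comp a haa
  have hb := comp b hbb
  have hab : |dotv a b| ≤ m ^ 2 := by
    refine sq2 _ (le_trans (Finset.sum_mul_sq_le_sq_mul_sq Finset.univ a b) ?_)
    have e : ∀ w : Fin n → ℝ, (∑ l, w l ^ 2) = dotv w w := fun w => by simp [dotv, sq]
    rw [e, e]
    simp only [hG, energy]
    nlinarith [sq_nonneg (dotv a a - dotv b b), sq_nonneg t, sq_nonneg s]
  have fw : ∀ f w : ℝ, |f| ≤ m ^ 2 → |w| ≤ m → |f * w| ≤ n * m ^ 3 := fun f w hf hw => by
    rw [abs_mul]
    calc |f| * |w| ≤ m ^ 2 * m := mul_le_mul hf hw (abs_nonneg _) (by positivity)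
      _ ≤ n * m ^ 3 := by nlinarith [mul_le_mul_of_nonneg_right hn (pow_nonneg hm0 3)]
  have mv : ∀ (R : Fin n → Fin n → ℝ) (w : Fin n → ℝ), (∀ i j, |R i j| ≤ m ^ 2) →
      (∀ j, |w j| ≤ m) → |matv R w i| ≤ n * m ^ 3 := fun R w hR hw => by
    refine (Finset.abs_sum_le_sum_abs _ _).trans
      ((Finset.sum_le_sum fun j _ => ?_).trans_eq (by simp : (∑ _j : Fin n, m ^ 3) = _))
    rw [abs_mul, show m ^ 3 = m ^ 2 * m by ring]
    exact mul_le_mul (hR i j) (hw j) (abs_nonneg _) (by positivity)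
  fin_cases k
  exacts [fw _ _ haa (ha i), fw _ _ haa (hb i), fw _ _ hbb (ha i), fw _ _ hbb (hb i),
    fw _ _ hab (ha i), fw _ _ hab (hb i), fw _ _ hs (ha i), fw _ _ hs (hb i),
    fw _ _ ht (ha i), fw _ _ ht (hb i), mv P a hPe ha, mv P b hPe hb, mv Q a hQe ha, mv Q b hQe hb]

theorem continuousOn_certDensity (h : IsSol p q u v) :
    ContinuousOn (certDensity p q A B u v) (punctured n) := by
  have hO := isOpen_punctured (n := n)
  have ca := fun i => (contDiffOn_ja h.smooth_u h.pos_u i).continuousOn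
  have cb := fun i => (contDiffOn_ja h.smooth_v h.pos_v i).continuousOn
  have cP : ∀ {f : (Fin n → ℝ) → ℝ}, ContDiffOn ℝ 2 f (punctured n) → (∀ x, 0 < f x) →
      ∀ i j, ContinuousOn (fun x => jP f x i j) (punctured n) := fun hf hp i j =>
    (((contDiffOn_pd hO hf j).continuousOn_fderiv_of_isOpen hO le_rfl).clm_apply
      continuousOn_const).div (hf.continuousOn) fun x _ => (hp x).ne'
  have cPP := fun {f : (Fin n → ℝ) → ℝ} (hf : ContDiffOn ℝ 2 f (punctured n))
      (hp : ∀ x, 0 < f x) => continuousOn_finsetSum Finset.univ fun i _ =>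
      continuousOn_finsetSum Finset.univ fun j _ => (cP hf hp i j).mul (cP hf hp i j)
  exact (contDiffOn_wt h).continuousOn.mul (((((
    (cPP h.smooth_u h.pos_u).add (cPP h.smooth_v h.pos_v)).add
    ((continuousOn_finsetSum Finset.univ fun i _ => (ca i).mul (ca i)).pow 2)).add
    ((continuousOn_finsetSum Finset.univ fun i _ => (cb i).mul (cb i)).pow 2)).add
    ((contDiffOn_js h.smooth_u h.smooth_v h.pos_u h.pos_v).continuousOn.pow 2)).add
    ((contDiffOn_js h.smooth_v h.smooth_u h.pos_v h.pos_u).continuousOn.pow 2))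

theorem energy_ge (a b : Fin n → ℝ) (P Q : Fin n → Fin n → ℝ) (s t : ℝ) :
    s ^ 2 ≤ energy a b P Q s t ∧ t ^ 2 ≤ energy a b P Q s t := by
  have := dotm_self_nonneg P
  have := dotm_self_nonneg Q
  constructor <;> simp only [energy] <;>
    nlinarith [sq_nonneg (dotv a a), sq_nonneg (dotv b b), sq_nonneg s, sq_nonneg t]

/-- `W ≤ F ^ (κ/(κ+2))`. -/
theorem wt_le_density (h : IsSol p q u v) (hpq : 1 < p * q) (hA : 0 ≤ A + q * B)
    (hB : 0 ≤ p * A + B) (x : Fin n → ℝ) {κ : ℝ}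
    (hκ : κ = (A * (p + 1) + B * (q + 1)) / (p * q - 1)) :
    wt A B u v x ≤ certDensity p q A B u v x ^ (κ / (κ + 2)) := by
  set s := js p u v x with hs
  set t := js q v u x with ht
  set G := energy (ja u x) (ja v x) (jP u x) (jP v x) s t with hG
  set A' := (A + q * B) / (p * q - 1) with hA'
  set B' := (p * A + B) / (p * q - 1) with hB'
  have hd : 0 < p * q - 1 := by linarith
  have hA0 : 0 ≤ A' := div_nonneg hA hd.le
  have hB0 : 0 ≤ B' := div_nonneg hB hd.le
  have hsum : A' + B' = κ := by rw [hκ, hA', hB']; field_simp; ring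
  have hs0 : 0 < s := js_pos h x
  have ht0 : 0 < t := js_pos h.swap x
  obtain ⟨hsG, htG⟩ := energy_ge (ja u x) (ja v x) (jP u x) (jP v x) s t
  have hG0 : 0 < G := lt_of_lt_of_le (pow_pos hs0 2) hsG
  have hu := h.pos_u x
  have hv := h.pos_v x
  have hW : wt A B u v x = s ^ A' * t ^ B' := by
    have eA : q * B' - A' = A := by
      rw [hA', hB', ← mul_div_assoc, ← sub_div, div_eq_iff hd.ne']; ring
    have eB : p * A' - B' = B := by
      rw [hA', hB', ← mul_div_assoc, ← sub_div, div_eq_iff hd.ne']; ring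
    simp only [hs, ht, js, wt]
    rw [← eA, ← eB, Real.rpow_sub hu, Real.rpow_sub hv,
      Real.div_rpow (Real.rpow_nonneg hv.le _) hu.le,
      Real.div_rpow (Real.rpow_nonneg hu.le _) hv.le, ← Real.rpow_mul hv.le, ← Real.rpow_mul hu.le]
    ring
  have hWle : wt A B u v x ≤ Real.sqrt G ^ κ := by
    rw [hW, ← hsum, Real.rpow_add (Real.sqrt_pos.2 hG0)]
    exact mul_le_mul (Real.rpow_le_rpow hs0.le (Real.le_sqrt_of_sq_le hsG) hA0)
      (Real.rpow_le_rpow ht0.le (Real.le_sqrt_of_sq_le htG) hB0) (Real.rpow_nonneg ht0.le _)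
      (Real.rpow_nonneg (Real.sqrt_nonneg _) _)
  have hW0 := wt_pos (A := A) (B := B) h x
  have hκ0 : 0 ≤ κ := by linarith
  set θ := κ / (κ + 2) with hθ
  have h1θ : 1 - θ = 2 / (κ + 2) := by rw [hθ]; field_simp; ring
  calc wt A B u v x = wt A B u v x ^ θ * wt A B u v x ^ (1 - θ) := by
        rw [← Real.rpow_add hW0, add_sub_cancel, Real.rpow_one]
    _ ≤ wt A B u v x ^ θ * (Real.sqrt G ^ κ) ^ (1 - θ) :=
        mul_le_mul_of_nonneg_left (Real.rpow_le_rpow hW0.le hWle (by rw [h1θ]; positivity))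
          (Real.rpow_nonneg hW0.le _)
    _ = certDensity p q A B u v x ^ θ := by
        rw [certDensity, ← hG, Real.mul_rpow hW0.le hG0.le, Real.sqrt_eq_rpow,
          ← Real.rpow_mul hG0.le, ← Real.rpow_mul hG0.le]
        congr 2
        rw [h1θ, hθ]
        field_simp

/-- The data fed to the cut-off argument. -/
theorem cert_data (h : IsSol p q u v) (hpq : 1 < p * q) (hA : 0 ≤ A + q * B)
    (hB : 0 ≤ p * A + B) {δ : ℝ} {c : Fin 14 → ℝ} (hcert : IsCert n p q A B δ c) {κ : ℝ}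
    (hκ : κ = (A * (p + 1) + B * (q + 1)) / (p * q - 1)) :
    ∃ C Bd : ℝ, 0 ≤ C ∧
      (∀ x ∈ punctured n, 0 ≤ certDensity p q A B u v x) ∧
      (∀ x ∈ punctured n, sqn x ≤ 4 → wt A B u v x ≤ Bd) ∧
      (∀ x ∈ punctured n, wt A B u v x ≤ C * certDensity p q A B u v x ^ (κ / (κ + 2))) ∧
      (∀ x ∈ punctured n, ∀ i, certField p q A B u v c i x ^ 4 ≤
        C * (certDensity p q A B u v x ^ 3 * wt A B u v x)) ∧
      ∀ x ∈ punctured n, δ * certDensity p q A B u v x ≤ certDiv p q A B u v c x := by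
  obtain ⟨Bd, hBd⟩ := (isCompact_Icc (a := fun _ : Fin n => (-2 : ℝ))
    (b := fun _ => 2)).exists_bound_of_continuousOn (f := wt A B u v)
    (((h.cont_u.rpow_const fun x => Or.inl (h.pos_u x).ne').mul
      (h.cont_v.rpow_const fun x => Or.inl (h.pos_v x).ne'))).continuousOn
  set K := (∑ k, |c k|) * n with hK
  have hF0 : ∀ x, 0 ≤ certDensity p q A B u v x := fun x => mul_nonneg (wt_pos h x).le
    ((sq_nonneg _).trans (energy_ge _ _ _ _ _ _).1)
  refine ⟨max 1 (K ^ 4), Bd, le_max_of_le_left zero_le_one, fun x _ => hF0 x,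
    fun x _ hx => (le_abs_self _).trans (hBd x ?_), fun x _ => ?_, fun x _ i => ?_,
    fun x hx => ?_⟩
  · have h2 := fun i => abs_le.1 (abs_le_of_sqn_le (r := 2) (by norm_num) (by linarith) i)
    exact ⟨fun i => (h2 i).1, fun i => (h2 i).2⟩
  · exact (wt_le_density h hpq hA hB x hκ).trans
      (le_mul_of_one_le_left (Real.rpow_nonneg (hF0 x) _) (le_max_left _ _))
  · set a := ja u x
    set b := ja v x
    set P := jP u x
    set Q := jP v x
    set G := energy a b P Q (js p u v x) (js q v u x) with hG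
    have hG0 : 0 ≤ G := (sq_nonneg _).trans (energy_ge _ _ _ _ _ _).1
    set m := Real.sqrt (Real.sqrt G) with hm
    set W := wt A B u v x with hW
    have hW0 : 0 < W := wt_pos h x
    have hle : |certField p q A B u v c i x| ≤ K * (W * m ^ 3) := by
      refine (Finset.abs_sum_le_sum_abs _ _).trans ?_
      rw [hK, Finset.sum_mul, Finset.sum_mul]
      refine Finset.sum_le_sum fun k _ => ?_
      rw [abs_mul, solField, abs_mul, abs_of_pos hW0]
      exact (mul_le_mul_of_nonneg_left (mul_le_mul_of_nonneg_left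
        (jetField_bound a b P Q _ _ i k) hW0.le) (abs_nonneg _)).trans_eq (by ring)
    have hm4 : m ^ 4 = G := by
      rw [show m ^ 4 = (m ^ 2) ^ 2 by ring, Real.sq_sqrt (Real.sqrt_nonneg _), Real.sq_sqrt hG0]
    calc certField p q A B u v c i x ^ 4 = |certField p q A B u v c i x| ^ 4 := (pow4_abs _).symm
      _ ≤ (K * (W * m ^ 3)) ^ 4 := pow_le_pow_left₀ (abs_nonneg _) hle 4
      _ = K ^ 4 * ((W * m ^ 4) ^ 3 * W) := by ring
      _ ≤ max 1 (K ^ 4) * ((W * m ^ 4) ^ 3 * W) :=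
          mul_le_mul_of_nonneg_right (le_max_right _ _) (by positivity)
      _ = _ := by rw [hm4]; rfl
  · have htr : ∀ {f g : (Fin n → ℝ) → ℝ} {r : ℝ}, lap f x = -(g x ^ r) →
        ∑ i, jP f x i i = -js r f g x := fun hl => by
      rw [js, ← neg_div, ← hl]
      simp only [jP, lap, Finset.sum_div]
    have := hcert (ja u x) (ja v x) (jP u x) (jP v x) (js p u v x) (js q v u x)
      (fun i j => by simp only [jP]; rw [pd_pd_comm isOpen_punctured h.smooth_u hx])
      (fun i j => by simp only [jP]; rw [pd_pd_comm isOpen_punctured h.smooth_v hx])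
      (htr (h.eq_u x hx)) (htr (h.eq_v x hx)) (js_pos h x) (js_pos h.swap x)
    calc δ * certDensity p q A B u v x
        = wt A B u v x * (δ * energy (ja u x) (ja v x) (jP u x) (jP v x) (js p u v x)
            (js q v u x)) := by rw [certDensity]; ring
      _ ≤ _ := mul_le_mul_of_nonneg_left this (wt_pos h x).le

/-- The growth bound for any solution, from the cut-off argument. -/
theorem cert_growth (hn : 4 < n) (h : IsSol p q u v) (hpq : 1 < p * q) (hA : 0 ≤ A + q * B)
    (hB : 0 ≤ p * A + B) {δ : ℝ} (hδ : 0 < δ) {c : Fin 14 → ℝ}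
    (hcert : IsCert n p q A B δ c) :
    ∃ (M : ℕ) (A₁ A₂ : ℝ), 0 < M ∧ ∀ ρ R : ℝ, 0 < ρ → ρ ≤ 1 → 0 < R →
      ∫ x, zcut ρ R x ^ M * certDensity p q A B u v x ≤ A₁ * ρ ^ (n - 4) +
        A₂ * R ^ ((n : ℝ) - (4 + 2 * ((A * (p + 1) + B * (q + 1)) / (p * q - 1)))) := by
  set κ := (A * (p + 1) + B * (q + 1)) / (p * q - 1) with hκ
  have hκ0 : 0 ≤ κ := by
    rw [hκ]; exact div_nonneg (by nlinarith) (by linarith)
  obtain ⟨C, Bd, hC, hF0, hWB, hWF, hXF, hDF⟩ := cert_data h hpq hA hB hcert hκ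
  have := key_bound hn (θ := κ / (κ + 2)) (by positivity)
    (by rw [div_lt_one (by linarith)]; linarith) hδ hC (continuousOn_certDensity h)
    (contDiffOn_wt h).continuousOn (good_cert h c).contD (good_cert h c).contX hF0
    (fun x _ => (wt_pos h x).le) hWB hWF hXF hDF (good_cert h c).weak
  have e : 4 / (1 - κ / (κ + 2)) = 4 + 2 * κ := by
    rw [one_sub_div (by linarith : κ + 2 ≠ 0)]; field_simp; ring
  rwa [e] at this

/-- **Nonexistence from a pointwise certificate.** -/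
theorem no_solution_of_cert (hn : 4 < n) (hpq : 1 < p * q) (hA : 0 ≤ A + q * B)
    (hB : 0 ≤ p * A + B)
    (hk : (n : ℝ) < 4 + 2 * ((A * (p + 1) + B * (q + 1)) / (p * q - 1))) {δ : ℝ} (hδ : 0 < δ)
    {c : Fin 14 → ℝ} (hcert : IsCert n p q A B δ c) :
    ¬ ∃ u v : (Fin n → ℝ) → ℝ, IsSol p q u v := by
  rintro ⟨u, v, h⟩
  set κ := (A * (p + 1) + B * (q + 1)) / (p * q - 1) with hκ
  have hκ0 : 0 ≤ κ := by
    rw [hκ]; exact div_nonneg (by nlinarith) (by linarith)
  obtain ⟨C, Bd, hC, hF0, hWB, hWF, hXF, hDF⟩ := cert_data h hpq hA hB hcert hκ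
  have hk' : (n : ℝ) * (1 - κ / (κ + 2)) < 4 := by
    rw [one_sub_div (by linarith : κ + 2 ≠ 0), mul_div_assoc', div_lt_iff₀ (by linarith)]
    linarith
  have h0 := no_certificate hn (θ := κ / (κ + 2)) (by positivity)
    (by rw [div_lt_one (by linarith)]; linarith) hk' hδ hC (continuousOn_certDensity h)
    (contDiffOn_wt h).continuousOn (good_cert h c).contD (good_cert h c).contX hF0
    (fun x _ => (wt_pos h x).le) hWB hWF hXF hDF (good_cert h c).weak
  have hx : (fun _ => 1 : Fin n → ℝ) ∈ punctured n := fun he =>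
    one_ne_zero (congrFun (Set.mem_singleton_iff.1 he) ⟨0, by omega⟩)
  exact (mul_pos (wt_pos h _) (lt_of_lt_of_le (pow_pos (js_pos h _) 2)
    (energy_ge _ _ _ _ _ _).1)).ne' (h0 _ hx)

end Vale.Agent.P100
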