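import Mathlib

/-!
# P100: the polynomials of the certificate for all `n ≥ 5`

Exact expansions in `x = n - 5`, `y = r - 1`; every coefficient is positive.
-/

namespace Vale.Agent.P100.Wide

/-- The common denominator `(1 + r²)² n²`. -/
def pW (n r : ℝ) : ℝ := (1 + r ^ 2) ^ 2 * n ^ 2

/-- `pW` times the weight exponent on `u`. -/
def pA (n r : ℝ) : ℝ :=
  pW n r - 2 * r ^ 2 * (1 + r ^ 2) * n - (4 * r ^ 2 - 6 * r) * (1 + r ^ 2)

/-- `(1+r²)²` times `n` times the exponent on `v` minus one. -/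
noncomputable def pD (r : ℝ) : ℝ := 2 * (r ^ 2 * (1 + r ^ 2 - 8 / 5 * r)) - 2 * (1 + r ^ 2) ^ 2

/-- `pW` times the weight exponent on `v`. -/
noncomputable def pB (n r : ℝ) : ℝ := pW n r + pD r * n

/-- The tensor coefficient of `a ⊗ a`, cleared. -/
def pL1 (n r : ℝ) : ℝ := -pW n r - (2 * (1 + r ^ 2) - r) * (1 + r ^ 2) * n

/-- The tensor coefficient of `b ⊗ b`, cleared. -/
def pL2 (n r : ℝ) : ℝ := -pW n r - 2 * (1 + r ^ 2) * n

/-- The tensor coefficient of `a ⊗ b` next to `P`, cleared. -/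
noncomputable def pM1 (n r : ℝ) : ℝ :=
  -((2 * r + 4 / 5) * (1 + r ^ 2) * n + (3 * r ^ 2 + 3 / 2 * r) * (1 + r ^ 2) +
    2 * r ^ 2 * (1 + r ^ 2) * n + (4 * r ^ 2 - 6 * r) * (1 + r ^ 2) -
    (2 * (1 + r ^ 2) - r) * (1 + r ^ 2) * n)

/-- The tensor coefficient of `a ⊗ b` next to `Q`, cleared. -/
noncomputable def pM2 (n r : ℝ) : ℝ :=
  -(4 / 5 * r ^ 2 * (1 + r ^ 2) + 2 * r * (1 + r ^ 2 - 8 / 5 * r) - pD r - 2 * (1 + r ^ 2)) * n

/-- The multiplier of `|a|²|b|² - (a·b)²`, cleared. -/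
noncomputable def pT (n r : ℝ) : ℝ :=
  (r ^ 2 * (1 + r ^ 2) + 4 / 5 * r * (1 + r ^ 2) + (1 + r ^ 2 - 8 / 5 * r)) * n ^ 2 * pW n r

/-- The coefficient of `|a|² a`, cleared. -/
noncomputable def pC1 (n r : ℝ) : ℝ := pL1 n r - (pA n r - 2 * pW n r) / 2

/-- The coefficient of `|a|² b`, cleared. -/
noncomputable def pC2 (n r : ℝ) : ℝ := pM1 n r - pB n r / 2

/-- The coefficient of `|b|² a`, cleared. -/
noncomputable def pC3 (n r : ℝ) : ℝ := pM2 n r - pA n r / 2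

/-- The coefficient of `|b|² b`, cleared. -/
noncomputable def pC4 (n r : ℝ) : ℝ := pL2 n r - (pB n r - 2 * pW n r) / 2

/-- The denominator of the coefficient of `s b`. -/
def pGd (n r : ℝ) : ℝ := 2 * r ^ 2 * (1 + r ^ 2) ^ 2 * n * (n + 4)

/-- The numerator of the coefficient of `s b`. -/
noncomputable def pG (n r : ℝ) : ℝ :=
  (r ^ 2 - 1) * r * (1 + r ^ 2) ^ 2 * n * (n + 4) -
    (2 * r * (((2 * (1 + r ^ 2) - r) * (1 + r ^ 2) - r ^ 2 * (1 + r ^ 2) + 2 * (1 + r ^ 2) ^ 2) *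
        r ^ 2 + (4 / 5 * r ^ 2 * (1 + r ^ 2) + 2 * r * (1 + r ^ 2 - 8 / 5 * r) - pD r -
        2 * (1 + r ^ 2)) - r ^ 2 * (1 + r ^ 2)) +
      (r ^ 2 - 1) * (2 * (1 + r) * (1 + r ^ 2) ^ 2 + pD r - 2 * r ^ 3 * (1 + r ^ 2)) -
      4 * r ^ 2 * (1 + r) * (1 + r ^ 2) ^ 2) * (n + 4) +
    2 * (1 + r ^ 2) ^ 2 * (13 / 2 * r ^ 3 - 12 * r ^ 2 + 8 * r)

/-- An entry of the quartic block. -/
noncomputable def eA (n r : ℝ) : ℝ :=
  n * pC1 n r * (pA n r - 3 * pW n r) - (n - 1) * pL1 n r ^ 2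

/-- An entry of the quartic block. -/
noncomputable def eB (n r : ℝ) : ℝ :=
  n * pC4 n r * (pB n r - 3 * pW n r) - (n - 1) * pL2 n r ^ 2

/-- An entry of the quartic block. -/
noncomputable def eR (n r : ℝ) : ℝ :=
  (n * (pC1 n r * pB n r + pC2 n r * (pA n r - 2 * pW n r)) -
    2 * (n - 1) * pL1 n r * pM1 n r) / 2

/-- An entry of the quartic block. -/
noncomputable def eS (n r : ℝ) : ℝ :=
  (n * (pC3 n r * (pB n r - 2 * pW n r) + pC4 n r * pA n r) -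
    2 * (n - 1) * pL2 n r * pM2 n r) / 2

/-- An entry of the quartic block. -/
noncomputable def eV (n r : ℝ) : ℝ :=
  (n * (pC2 n r * (pB n r - pW n r) + pC3 n r * (pA n r - pW n r)) -
    n * (pM1 n r ^ 2 + pM2 n r ^ 2) / 2 - pT n r) / 2

/-- An entry of the quartic block. -/
noncomputable def eM (n r : ℝ) : ℝ :=
  pT n r - (n - 2) * (pM1 n r ^ 2 + pM2 n r ^ 2) / 2

/-- The determinant of a binary block, cleared of denominators. -/
noncomputable def sideNum (n W C₁ C₂ C₃ PA PB G Gd Pn L : ℝ) : ℝ :=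
  4 * (-(n + 2) * C₁ - (PA - 2 * W)) * (-C₃ * L * Gd + G * (PB * L + Pn * W - W * L)) * n * Gd * L -
    ((-2 * C₂ - PB) * L * Gd - Pn * W * n * Gd + G * (PA - W) * n * L) ^ 2

end Vale.Agent.P100.Wide
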