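import Vale.Agent.P100.Blocks
import Vale.Agent.P100.WideDefs

/-!
# P100: binary blocks and scaled forms shared by the certificate families
-/

namespace Vale.Agent.P100.Block

open Wide (sideNum)

/-- The determinant of a binary block. -/
noncomputable def sideVal (n A B c₁ c₂ c₃ g p : ℝ) : ℝ :=
  (-(1 + 2 / n) * c₁ - (A - 2) / n) * (-c₃ + g * (B + p - 1)) -
    ((-(2 / n) * c₂ - (B / n + p) + g * (A - 1)) / 2) ^ 2

theorem sideVal_interp (n A B c₁ c₂ c₃ g p₀ p₁ t : ℝ) :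
    sideVal n A B c₁ c₂ c₃ g ((1 - t) * p₀ + t * p₁) =
      (1 - t) * sideVal n A B c₁ c₂ c₃ g p₀ + t * sideVal n A B c₁ c₂ c₃ g p₁ +
        t * (1 - t) * ((p₁ - p₀) ^ 2 / 4) := by
  simp only [sideVal]
  ring

theorem sideVal_eq {n W C₁ C₂ C₃ PA PB G Gd Pn L : ℝ} (hn : n ≠ 0) (hW : W ≠ 0) (hG : Gd ≠ 0)
    (hL : L ≠ 0) :
    sideVal n (PA / W) (PB / W) (C₁ / W) (C₂ / W) (C₃ / W) (G / Gd) (Pn / L) =
      sideNum n W C₁ C₂ C₃ PA PB G Gd Pn L / (4 * (W * n * Gd * L) ^ 2) := by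
  simp only [sideVal, sideNum]
  field_simp
  ring

theorem sideVal_pos {n A B c₁ c₂ c₃ g p₀ p₁ p : ℝ} (h0 : 0 < sideVal n A B c₁ c₂ c₃ g p₀)
    (h1 : 0 < sideVal n A B c₁ c₂ c₃ g p₁) (hlo : p₀ ≤ p) (hhi : p ≤ p₁) :
    0 < sideVal n A B c₁ c₂ c₃ g p := by
  rcases hlo.eq_or_lt with h | h
  · rwa [← h]
  have hd : 0 < p₁ - p₀ := by linarith
  set t := (p - p₀) / (p₁ - p₀) with ht
  have ht0 : 0 ≤ t := div_nonneg (by linarith) hd.le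
  have ht1 : t ≤ 1 := (div_le_one hd).2 (by linarith)
  have hp : p = (1 - t) * p₀ + t * p₁ := by
    have : t * (p₁ - p₀) = p - p₀ := div_mul_cancel₀ _ hd.ne'
    linarith
  rw [hp, sideVal_interp]
  have h3 : 0 ≤ t * (1 - t) * ((p₁ - p₀) ^ 2 / 4) :=
    mul_nonneg (mul_nonneg ht0 (by linarith)) (by positivity)
  set m := min (sideVal n A B c₁ c₂ c₃ g p₀) (sideVal n A B c₁ c₂ c₃ g p₁)
  have e1 := mul_le_mul_of_nonneg_left (min_le_left _ _ : m ≤ _) (sub_nonneg.2 ht1)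
  have e2 := mul_le_mul_of_nonneg_left (min_le_right _ _ : m ≤ _) ht0
  linarith [lt_min h0 h1]

/-- A quadratic form of the kind left by `isCert_of_blocks`. -/
theorem form_nonneg {a b v R S M : ℝ} (ha : 0 < a) (hab : 0 < a * b - v ^ 2)
    (hd : 0 < a * M * b + 2 * R * S * v - a * S ^ 2 - b * R ^ 2 - v ^ 2 * M) (x y z : ℝ) :
    0 ≤ a * x ^ 2 + 2 * R * (x * y) + M * y ^ 2 + 2 * v * (x * z) + 2 * S * (y * z) +
      b * z ^ 2 := by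
  refine nonneg_of_mul_nonneg_right (nonneg_of_mul_nonneg_right ?_ hab) ha
  have e : (a * b - v ^ 2) * (a * (a * x ^ 2 + 2 * R * (x * y) + M * y ^ 2 + 2 * v * (x * z) +
      2 * S * (y * z) + b * z ^ 2)) = (a * b - v ^ 2) * (a * x + v * z + R * y) ^ 2 +
      ((a * b - v ^ 2) * z + (a * S - R * v) * y) ^ 2 +
      a * (a * M * b + 2 * R * S * v - a * S ^ 2 - b * R ^ 2 - v ^ 2 * M) * y ^ 2 := by ring
  rw [e]
  positivity

/-- `wForm` over a common denominator. -/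
theorem wForm_scaled {n : ℕ} (hn : 0 < n) {W PA PB L₁ L₂ M₁ M₂ T : ℝ} (hW : W ≠ 0) (x y z : ℝ) :
    wForm n (PA / W) (PB / W) ((L₁ - (PA - 2 * W) / 2) / W) ((M₁ - PB / 2) / W)
        ((M₂ - PA / 2) / W) ((L₂ - (PB - 2 * W) / 2) / W) (T / (n * W ^ 2)) x y z *
        ((n : ℝ) * W ^ 2) =
      (n * (L₁ - (PA - 2 * W) / 2) * (PA - 3 * W) - (n - 1) * L₁ ^ 2) * x ^ 2 +
      2 * ((n * ((L₁ - (PA - 2 * W) / 2) * PB + (M₁ - PB / 2) * (PA - 2 * W)) -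
        2 * (n - 1) * L₁ * M₁) / 2) * (x * y) +
      (T - (n - 2) * (M₁ ^ 2 + M₂ ^ 2) / 2) * y ^ 2 +
      2 * ((n * ((M₁ - PB / 2) * (PB - W) + (M₂ - PA / 2) * (PA - W)) -
        n * (M₁ ^ 2 + M₂ ^ 2) / 2 - T) / 2) * (x * z) +
      2 * ((n * ((M₂ - PA / 2) * (PB - 2 * W) + (L₂ - (PB - 2 * W) / 2) * PA) -
        2 * (n - 1) * L₂ * M₂) / 2) * (y * z) +
      (n * (L₂ - (PB - 2 * W) / 2) * (PB - 3 * W) - (n - 1) * L₂ ^ 2) * z ^ 2 := by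
  have : (n : ℝ) ≠ 0 := Nat.cast_ne_zero.2 (by omega)
  simp only [wForm]
  field_simp
  ring

end Vale.Agent.P100.Block
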