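import Vale.Agent.P100.Reduce

/-!
# P100: the eight-field certificate in block form

With coefficients `c₁, c₂, c₃, c₄` on `|a|²a, |a|²b, |b|²a, |b|²b`, `g, h` on `s b, t a` and `1` on
`P a, Q b`, completing two tensor squares leaves a quadratic form in `(|a|², a·b, |b|²)`, two
binary forms in `(a, b)` weighted by `s, t`, and a form in `(s, t)`.
-/

namespace Vale.Agent.P100

/-- The coefficients of the eight-field certificate. -/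
def eightCoef (c₁ c₂ c₃ c₄ g h : ℝ) : Fin 14 → ℝ :=
  ![c₁, c₂, c₃, c₄, 0, 0, 0, g, h, 0, 1, 0, 0, 1]

/-- The quadratic form left in `(|a|², a·b, |b|²)`. -/
noncomputable def wForm (n : ℕ) (A B c₁ c₂ c₃ c₄ τ x y z : ℝ) : ℝ :=
  (c₁ * (A - 3) - (1 - 1 / n) * (c₁ + (A - 2) / 2) ^ 2) * x ^ 2 +
    (c₁ * B + c₂ * (A - 2) - 2 * (1 - 1 / n) * (c₁ + (A - 2) / 2) * (c₂ + B / 2)) * (x * y) +
    (τ - (1 / 2 - 1 / n) * ((c₂ + B / 2) ^ 2 + (c₃ + A / 2) ^ 2)) * y ^ 2 +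
    (c₂ * (B - 1) + c₃ * (A - 1) - ((c₂ + B / 2) ^ 2 + (c₃ + A / 2) ^ 2) / 2 - τ) * (x * z) +
    (c₃ * (B - 2) + c₄ * A - 2 * (1 - 1 / n) * (c₄ + (B - 2) / 2) * (c₃ + A / 2)) * (y * z) +
    (c₄ * (B - 3) - (1 - 1 / n) * (c₄ + (B - 2) / 2) ^ 2) * z ^ 2

theorem binary_nonneg {n : ℕ} {m : Mon} (h : m.Real n) {P R S : ℝ} (hP : 0 < P)
    (hd : R ^ 2 ≤ P * S) : 0 ≤ P * m.a2 + 2 * R * m.ab + S * m.b2 := by
  refine nonneg_of_mul_nonneg_right ?_ hP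
  have h1 := h.vec P R
  have h2 : 0 ≤ m.b2 := by simpa using h.vec 0 1
  nlinarith [mul_nonneg (sub_nonneg.2 hd) h2]

theorem binary_nonneg' {n : ℕ} {m : Mon} (h : m.Real n) {P R S : ℝ} (hP : 0 < P)
    (hd : R ^ 2 ≤ P * S) : 0 ≤ S * m.a2 + 2 * R * m.ab + P * m.b2 := by
  refine nonneg_of_mul_nonneg_right ?_ hP
  have h1 := h.vec R P
  have h2 : 0 ≤ m.a2 := by simpa using h.vec 1 0
  nlinarith [mul_nonneg (sub_nonneg.2 hd) h2]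

theorem Mon.Real.ab_sq_le {n : ℕ} {m : Mon} (h : m.Real n) : m.ab ^ 2 ≤ m.a2 * m.b2 := by
  have h2 : ∀ z : ℝ, 0 ≤ m.b2 * (z * z) + 2 * m.ab * z + m.a2 := fun z => by
    have := h.vec 1 z
    linarith
  have := discrim_le_zero h2
  simp only [discrim] at this
  linarith

/-- `|M°|²` for `M = x₁ P + x₂ Q + x₃ a⊗a + x₄ b⊗b + x₅ sym (a⊗b)`, `M°` its traceless part. -/
noncomputable def defect (n : ℕ) (m : Mon) (x₁ x₂ x₃ x₄ x₅ : ℝ) : ℝ :=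
  x₁ ^ 2 * m.PP + 2 * (x₁ * x₂) * m.PQ + x₂ ^ 2 * m.QQ + 2 * (x₁ * x₃) * m.aPa +
    2 * (x₁ * x₄) * m.bPb + 2 * (x₁ * x₅) * m.aPb + 2 * (x₂ * x₃) * m.aQa +
    2 * (x₂ * x₄) * m.bQb + 2 * (x₂ * x₅) * m.aQb + x₃ ^ 2 * m.a2 ^ 2 + x₄ ^ 2 * m.b2 ^ 2 +
    2 * (x₃ * x₄) * m.ab ^ 2 + 2 * (x₃ * x₅) * (m.a2 * m.ab) +
    2 * (x₄ * x₅) * (m.b2 * m.ab) + x₅ ^ 2 / 2 * (m.a2 * m.b2 + m.ab ^ 2) -
    (-x₁ * m.s - x₂ * m.t + x₃ * m.a2 + x₄ * m.b2 + x₅ * m.ab) ^ 2 / n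

theorem defect_nonneg {n : ℕ} (hn : 0 < n) {m : Mon} (hm : m.Real n) (x₁ x₂ x₃ x₄ x₅ : ℝ) :
    0 ≤ defect n m x₁ x₂ x₃ x₄ x₅ := by
  rw [defect, sub_nonneg, div_le_iff₀' (Nat.cast_pos.2 hn)]
  exact hm.tensor x₁ x₂ x₃ x₄ x₅

/-- The pure quartic defect is controlled by `|a|⁴ + |b|⁴`. -/
theorem defect_quartic {n : ℕ} (hn : 0 < n) {m : Mon} (hm : m.Real n) (la ma lb mb : ℝ) :
    defect n m 0 0 la 0 ma ≤ (2 * la ^ 2 + 2 * ma ^ 2) * (m.a2 ^ 2 + m.b2 ^ 2) ∧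
      defect n m 0 0 0 lb mb ≤ (2 * lb ^ 2 + 2 * mb ^ 2) * (m.a2 ^ 2 + m.b2 ^ 2) := by
  have hab := hm.ab_sq_le
  have hx : 2 * (m.a2 * m.b2) ≤ m.a2 ^ 2 + m.b2 ^ 2 := by nlinarith [sq_nonneg (m.a2 - m.b2)]
  have hn' : (0 : ℝ) < n := Nat.cast_pos.2 hn
  have d1 := defect_nonneg hn hm 0 0 la 0 (-ma)
  have d2 := defect_nonneg hn hm 0 0 0 lb (-mb)
  simp only [defect] at d1 d2 ⊢
  have t1 : 0 ≤ (la * m.a2) ^ 2 / (n : ℝ) + (ma * m.ab) ^ 2 / n := by positivity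
  have t2 : 0 ≤ (lb * m.b2) ^ 2 / (n : ℝ) + (mb * m.ab) ^ 2 / n := by positivity
  constructor
  · linear_combination d1 + 2 * t1 + ma ^ 2 * hab + ma ^ 2 * hx + ma ^ 2 * sq_nonneg m.a2 +
      ma ^ 2 * sq_nonneg m.b2 + 2 * la ^ 2 * sq_nonneg m.b2
  · linear_combination d2 + 2 * t2 + mb ^ 2 * hab + mb ^ 2 * hx + mb ^ 2 * sq_nonneg m.a2 +
      mb ^ 2 * sq_nonneg m.b2 + 2 * lb ^ 2 * sq_nonneg m.a2

theorem eight_eq (n : ℕ) (p q A B c₁ c₂ c₃ c₄ g h τ : ℝ) (m : Mon) :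
    ∑ k, eightCoef c₁ c₂ c₃ c₄ g h k * m.divs p q A B k =
      defect n m 1 0 (c₁ + (A - 2) / 2) 0 (c₂ + B / 2) +
        defect n m 0 1 0 (c₄ + (B - 2) / 2) (c₃ + A / 2) +
        wForm n A B c₁ c₂ c₃ c₄ τ m.a2 m.ab m.b2 + τ * (m.a2 * m.b2 - m.ab ^ 2) +
        m.s * ((-(1 + 2 / n) * c₁ - (A - 2) / n) * m.a2 +
          2 * ((-(2 / n) * c₂ - (B / n + p) + g * (A - 1)) / 2) * m.ab +
            (-c₃ + g * (B + p - 1)) * m.b2) +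
        m.t * ((-c₂ + h * (A + q - 1)) * m.a2 +
          2 * ((-(2 / n) * c₃ + h * (B - 1) - (A / n + q)) / 2) * m.ab +
            (-(1 + 2 / n) * c₄ - (B - 2) / n) * m.b2) +
        ((m.s ^ 2 + m.t ^ 2) / n - (g + h) * (m.s * m.t)) := by
  simp only [Fin.sum_univ_succ, Fin.sum_univ_zero, eightCoef, Mon.divs, wForm, defect,
    Matrix.cons_val_zero, Matrix.cons_val_succ]
  ring

theorem energy_le {n : ℕ} (hn : 0 < n) {m : Mon} (hm : m.Real n) {la ma lb mb C : ℝ}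
    (hC : 4 * (la ^ 2 + ma ^ 2 + lb ^ 2 + mb ^ 2) + 4 ≤ C) :
    m.energy ≤ 2 * defect n m 1 0 la 0 ma + 2 * defect n m 0 1 0 lb mb +
      C * (m.a2 ^ 2 + m.b2 ^ 2) + C * (m.s ^ 2 + m.t ^ 2) := by
  have hn1 : 1 / (n : ℝ) ≤ 1 := by
    rw [div_le_one (Nat.cast_pos.2 hn)]; exact_mod_cast hn
  have d1 := defect_nonneg hn hm 1 0 (2 * la) 0 (2 * ma)
  have d2 := defect_nonneg hn hm 0 1 0 (2 * lb) (2 * mb)
  obtain ⟨q1, q2⟩ := defect_quartic hn hm la ma lb mb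
  have hC' : 4 * (la ^ 2 + ma ^ 2) + 4 * (lb ^ 2 + mb ^ 2) + 1 ≤ C := by linarith
  have h1 := mul_le_mul_of_nonneg_right hC' (show 0 ≤ m.a2 ^ 2 + m.b2 ^ 2 by positivity)
  have hC1 : 1 + 1 / (n : ℝ) ≤ C := by
    linarith [sq_nonneg la, sq_nonneg ma, sq_nonneg lb, sq_nonneg mb]
  have h2 := mul_le_mul_of_nonneg_right hC1 (show 0 ≤ m.s ^ 2 + m.t ^ 2 by positivity)
  simp only [Mon.energy, defect] at d1 d2 q1 q2 h1 h2 ⊢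
  linear_combination d1 + d2 + 2 * q1 + 2 * q2 + h1 + h2

/-- The block conditions give a certificate. -/
theorem isCert_of_blocks {n : ℕ} (hn : 0 < n) {p q A B c₁ c₂ c₃ c₄ g h ε τ : ℝ} (hε : 0 < ε)
    (hτ : 0 ≤ τ)
    (hW : ∀ x y z : ℝ, ε * (x ^ 2 + z ^ 2) ≤ wForm n A B c₁ c₂ c₃ c₄ τ x y z)
    (hP : 0 < -(1 + 2 / n) * c₁ - (A - 2) / n)
    (hPd : ((-(2 / n) * c₂ - (B / n + p) + g * (A - 1)) / 2) ^ 2 ≤
      (-(1 + 2 / n) * c₁ - (A - 2) / n) * (-c₃ + g * (B + p - 1)))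
    (hQ : 0 < -(1 + 2 / n) * c₄ - (B - 2) / n)
    (hQd : ((-(2 / n) * c₃ + h * (B - 1) - (A / n + q)) / 2) ^ 2 ≤
      (-(1 + 2 / n) * c₄ - (B - 2) / n) * (-c₂ + h * (A + q - 1)))
    (hst : ∀ s t : ℝ, 0 < s → 0 < t → ε * (s ^ 2 + t ^ 2) ≤ (s ^ 2 + t ^ 2) / n - (g + h) * (s * t)) :
    ∃ δ : ℝ, 0 < δ ∧ IsCert n p q A B δ (eightCoef c₁ c₂ c₃ c₄ g h) := by
  set la := c₁ + (A - 2) / 2
  set ma := c₂ + B / 2
  set lb := c₄ + (B - 2) / 2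
  set mb := c₃ + A / 2
  set C := 4 * (la ^ 2 + ma ^ 2 + lb ^ 2 + mb ^ 2) + 4 with hC
  have hC0 : 0 < C := by positivity
  refine ⟨min (1 / 2) (ε / C), lt_min (by norm_num) (by positivity), isCert_of_mon fun m hm => ?_⟩
  set δ := min (1 / 2) (ε / C)
  have hδ0 : 0 ≤ δ := (lt_min (by norm_num) (by positivity)).le
  have hδ1 : δ ≤ 1 / 2 := min_le_left _ _
  have hδC : δ * C ≤ ε := (le_div_iff₀ hC0).1 (min_le_right _ _)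
  rw [eight_eq n p q A B c₁ c₂ c₃ c₄ g h τ m]
  linarith [mul_le_mul_of_nonneg_left (energy_le hn hm hC.ge) hδ0,
    mul_le_mul_of_nonneg_right hδ1 (add_nonneg (defect_nonneg hn hm 1 0 la 0 ma)
      (defect_nonneg hn hm 0 1 0 lb mb)),
    mul_le_mul_of_nonneg_right hδC (show 0 ≤ m.a2 ^ 2 + m.b2 ^ 2 by positivity),
    mul_le_mul_of_nonneg_right hδC (show 0 ≤ m.s ^ 2 + m.t ^ 2 by positivity),
    hW m.a2 m.ab m.b2, hst m.s m.t hm.s_pos hm.t_pos,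
    mul_nonneg hm.s_pos.le (binary_nonneg hm hP hPd),
    mul_nonneg hm.t_pos.le (binary_nonneg' hm hQ hQd),
    mul_nonneg hτ (sub_nonneg.2 hm.ab_sq_le)]

end Vale.Agent.P100
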