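import Vale.Agent.P100.Jet

/-!
# P100: a certificate inequality in scalar invariants

The jet enters `jetDiv` through fourteen scalar invariants. `tensor_sq` is the source of their
inequalities: `(tr M)² ≤ n |M|²` for `M = x₁ P + x₂ Q + x₃ a⊗a + x₄ b⊗b + x₅ sym (a⊗b)`.
-/

namespace Vale.Agent.P100

variable {n : ℕ}

/-- The scalar invariants of a jet. -/
structure Mon where
  (PP PQ QQ aPa aPb bPb aQa aQb bQb a2 b2 ab s t : ℝ)

/-- The invariants of a given jet. -/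
def Mon.ofJet (a b : Fin n → ℝ) (P Q : Fin n → Fin n → ℝ) (s t : ℝ) : Mon :=
  ⟨dotm P P, dotm P Q, dotm Q Q, dotv a (matv P a), dotv a (matv P b), dotv b (matv P b),
    dotv a (matv Q a), dotv a (matv Q b), dotv b (matv Q b), dotv a a, dotv b b, dotv a b, s, t⟩

/-- The quantity controlled by a certificate, in invariants. -/
def Mon.energy (m : Mon) : ℝ := m.PP + m.QQ + m.a2 ^ 2 + m.b2 ^ 2 + m.s ^ 2 + m.t ^ 2

/-- The fourteen divergences in invariants. -/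
def Mon.divs (p q A B : ℝ) (m : Mon) : Fin 14 → ℝ :=
  ![(A - 3) * m.a2 ^ 2 + B * (m.a2 * m.ab) + 2 * m.aPa - m.s * m.a2,
    (A - 2) * (m.a2 * m.ab) + (B - 1) * (m.a2 * m.b2) + 2 * m.aPb - m.t * m.a2,
    (A - 1) * (m.a2 * m.b2) + (B - 2) * (m.b2 * m.ab) + 2 * m.aQb - m.s * m.b2,
    A * (m.b2 * m.ab) + (B - 3) * m.b2 ^ 2 + 2 * m.bQb - m.t * m.b2,
    (A - 2) * (m.a2 * m.ab) + (B - 1) * m.ab ^ 2 + m.aPb + m.aQa - m.s * m.ab,
    (A - 1) * m.ab ^ 2 + (B - 2) * (m.b2 * m.ab) + m.bPb + m.aQb - m.t * m.ab,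
    (A - 2) * (m.s * m.a2) + (B + p) * (m.s * m.ab) - m.s ^ 2,
    (A - 1) * (m.s * m.ab) + (B + p - 1) * (m.s * m.b2) - m.s * m.t,
    (A + q - 1) * (m.t * m.a2) + (B - 1) * (m.t * m.ab) - m.s * m.t,
    (A + q) * (m.t * m.ab) + (B - 2) * (m.t * m.b2) - m.t ^ 2,
    m.PP + (A - 2) * m.aPa + B * m.aPb - p * (m.s * m.ab),
    m.PQ + (A - 1) * m.aPb + (B - 1) * m.bPb - p * (m.s * m.b2),
    m.PQ + (A - 1) * m.aQa + (B - 1) * m.aQb - q * (m.t * m.a2),
    m.QQ + A * m.aQb + (B - 2) * m.bQb - q * (m.t * m.ab)]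

/-- What one knows about the invariants of a jet. -/
structure Mon.Real (n : ℕ) (m : Mon) : Prop where
  tensor : ∀ x₁ x₂ x₃ x₄ x₅ : ℝ,
    (-x₁ * m.s - x₂ * m.t + x₃ * m.a2 + x₄ * m.b2 + x₅ * m.ab) ^ 2 ≤
      n * (x₁ ^ 2 * m.PP + 2 * (x₁ * x₂) * m.PQ + x₂ ^ 2 * m.QQ + 2 * (x₁ * x₃) * m.aPa +
        2 * (x₁ * x₄) * m.bPb + 2 * (x₁ * x₅) * m.aPb + 2 * (x₂ * x₃) * m.aQa +
        2 * (x₂ * x₄) * m.bQb + 2 * (x₂ * x₅) * m.aQb + x₃ ^ 2 * m.a2 ^ 2 + x₄ ^ 2 * m.b2 ^ 2 +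
        2 * (x₃ * x₄) * m.ab ^ 2 + 2 * (x₃ * x₅) * (m.a2 * m.ab) +
        2 * (x₄ * x₅) * (m.b2 * m.ab) + x₅ ^ 2 / 2 * (m.a2 * m.b2 + m.ab ^ 2))
  vec : ∀ y z : ℝ, 0 ≤ y ^ 2 * m.a2 + 2 * (y * z) * m.ab + z ^ 2 * m.b2
  s_pos : 0 < m.s
  t_pos : 0 < m.t

theorem dotv_comm (x y : Fin n → ℝ) : dotv x y = dotv y x :=
  Finset.sum_congr rfl fun i _ => mul_comm _ _

theorem dotv_matv_symm {P : Fin n → Fin n → ℝ} (hP : ∀ i j, P i j = P j i) (x y : Fin n → ℝ) :
    dotv y (matv P x) = dotv x (matv P y) := by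
  simp only [dotv, matv, Finset.mul_sum]
  rw [Finset.sum_comm]
  exact Finset.sum_congr rfl fun i _ => Finset.sum_congr rfl fun j _ => by rw [hP j i]; ring

theorem dotv_sub' (x y w : Fin n → ℝ) : dotv (fun i => x i - y i) w = dotv x w - dotv y w := by
  simp [dotv, sub_mul, Finset.sum_sub_distrib]

theorem dotv_add' (x y w : Fin n → ℝ) : dotv (fun i => x i + y i) w = dotv x w + dotv y w := by
  simp [dotv, add_mul, Finset.sum_add_distrib]

theorem dotv_smul' (r : ℝ) (x w : Fin n → ℝ) : dotv (fun i => r * x i) w = r * dotv x w := by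
  simp [dotv, Finset.mul_sum, mul_assoc]

theorem jetDivs_eq (p q A B : ℝ) (a b : Fin n → ℝ) {P Q : Fin n → Fin n → ℝ} (s t : ℝ)
    (hP : ∀ i j, P i j = P j i) (hQ : ∀ i j, Q i j = Q j i) (k : Fin 14) :
    jetDivs p q A B a b P Q s t k = (Mon.ofJet a b P Q s t).divs p q A B k := by
  have e1 := dotv_matv_symm hP a b
  have e2 := dotv_matv_symm hQ a b
  have c0 := dotv_comm b a
  have cm : ∀ (R : Fin n → Fin n → ℝ) (x y : Fin n → ℝ),
      dotv (matv R x) y = dotv y (matv R x) := fun R x y => dotv_comm _ _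
  have cmm : dotm Q P = dotm P Q := by simp [dotm, mul_comm]
  fin_cases k <;>
    simp [jetDivs, Mon.divs, Mon.ofJet, divFW, dotv_sub', dotv_add', dotv_smul', cm, e1, e2,
      c0, cmm] <;> ring

theorem ofJet_real (a b : Fin n → ℝ) {P Q : Fin n → Fin n → ℝ} {s t : ℝ}
    (hP : ∀ i j, P i j = P j i) (hQ : ∀ i j, Q i j = Q j i) (hPt : ∑ i, P i i = -s)
    (hQt : ∑ i, Q i i = -t) (hs : 0 < s) (ht : 0 < t) : (Mon.ofJet a b P Q s t).Real n where
  s_pos := hs
  t_pos := ht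
  vec y z := by
    have h : dotv (fun i => y * a i + z * b i) (fun i => y * a i + z * b i) =
        y ^ 2 * dotv a a + 2 * (y * z) * dotv a b + z ^ 2 * dotv b b := by
      simp only [dotv, Finset.mul_sum, ← Finset.sum_add_distrib]
      exact Finset.sum_congr rfl fun i _ => by ring
    exact le_of_le_of_eq (Finset.sum_nonneg fun i _ => mul_self_nonneg _) h
  tensor x₁ x₂ x₃ x₄ x₅ := by
    set M : Fin n → Fin n → ℝ := fun i j => x₁ * P i j + x₂ * Q i j + x₃ * (a i * a j) +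
      x₄ * (b i * b j) + x₅ / 2 * (a i * b j + b i * a j) with hM
    have tr : (∑ i, M i i) =
        -x₁ * s - x₂ * t + x₃ * dotv a a + x₄ * dotv b b + x₅ * dotv a b := by
      rw [show -x₁ * s - x₂ * t = x₁ * (∑ i, P i i) + x₂ * ∑ i, Q i i by rw [hPt, hQt]; ring]
      simp only [hM, dotv, Finset.mul_sum, ← Finset.sum_add_distrib]
      exact Finset.sum_congr rfl fun i _ => by ring
    have cs : (∑ i, M i i) ^ 2 ≤ n * dotm M M := by
      refine (sq_sum_le_card_mul_sum_sq (s := Finset.univ) (f := fun i => M i i)).trans ?_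
      rw [Finset.card_univ, Fintype.card_fin]
      refine mul_le_mul_of_nonneg_left (Finset.sum_le_sum fun i _ => ?_) (Nat.cast_nonneg n)
      exact (sq (M i i)).le.trans (Finset.single_le_sum (f := fun j => M i j * M i j)
        (fun j _ => mul_self_nonneg _) (Finset.mem_univ i))
    have eM : dotm M M = x₁ ^ 2 * dotm P P + 2 * (x₁ * x₂) * dotm P Q + x₂ ^ 2 * dotm Q Q +
        2 * (x₁ * x₃) * dotv a (matv P a) + 2 * (x₁ * x₄) * dotv b (matv P b) +
        x₁ * x₅ * (dotv a (matv P b) + dotv b (matv P a)) +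
        2 * (x₂ * x₃) * dotv a (matv Q a) + 2 * (x₂ * x₄) * dotv b (matv Q b) +
        x₂ * x₅ * (dotv a (matv Q b) + dotv b (matv Q a)) +
        x₃ ^ 2 * (dotv a a * dotv a a) + x₄ ^ 2 * (dotv b b * dotv b b) +
        2 * (x₃ * x₄) * (dotv a b * dotv a b) +
        x₃ * x₅ * (dotv a a * dotv a b + dotv a b * dotv a a) +
        x₄ * x₅ * (dotv b b * dotv a b + dotv a b * dotv b b) +
        x₅ ^ 2 / 4 * (dotv a a * dotv b b + dotv b b * dotv a a + 2 * (dotv a b * dotv a b)) := by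
      simp only [hM, dotm, dotv, matv, Finset.sum_mul, Finset.mul_sum, mul_add,
        ← Finset.sum_add_distrib]
      exact Finset.sum_congr rfl fun i _ => Finset.sum_congr rfl fun j _ => by ring
    rw [dotv_matv_symm hP a b, dotv_matv_symm hQ a b] at eM
    rw [tr] at cs
    refine cs.trans_eq ?_
    rw [eM]
    simp only [Mon.ofJet]
    ring

/-- A certificate only has to be checked on invariants. -/
theorem isCert_of_mon {p q A B δ : ℝ} {c : Fin 14 → ℝ}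
    (h : ∀ m : Mon, m.Real n → δ * m.energy ≤ ∑ k, c k * m.divs p q A B k) :
    IsCert n p q A B δ c := fun a b P Q s t hP hQ hPt hQt hs ht => by
  simpa [jetDiv, energy, Mon.energy, Mon.ofJet, jetDivs_eq p q A B a b s t hP hQ] using
    h _ (ofJet_real a b hP hQ hPt hQt hs ht)

end Vale.Agent.P100
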