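import Vale.Agent.P100.Assembly
import Vale.Agent.P100.Reduce

/-!
# P100: certificates at the four corners of a box of exponents in dimension seven

Machine-generated rational certificates for `A = 11/16`, `B = 1`.
-/

namespace Vale.Agent.P100.Box7

/-- The coefficients of the field. -/
noncomputable def coef : Fin 14 → ℝ :=
  ![(-211 / 500), (-5709 / 10000), (-8411 / 10000), (-519 / 1250), (-4373 / 10000), (223 / 5000), (201 / 2000), 1, (-4457 / 5000), (803 / 10000), (3907 / 5000), (1237 / 2500), 0, (4767 / 5000)]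

theorem corner0 (m : Mon) (h : m.Real 7) :
    (107 / 500000) * m.energy ≤ ∑ k, coef k * m.divs (41 / 10) (43 / 50) (11 / 16) 1 k := by
  simp only [Fin.sum_univ_succ, Fin.sum_univ_zero, coef, Mon.divs, Mon.energy,
    Matrix.cons_val_zero, Matrix.cons_val_succ]
  linear_combination (156171 / 1400000) * (h.tensor 1 (3169 / 10000) (-11971 / 10000) (143 / 5000) (-6099 / 10000)) +
    (437223 / 3500000) * (h.tensor 0 1 (443 / 5000) (-257 / 250) (-389 / 1000)) +
    (1523 / 1750000) * (h.tensor 0 0 1 (401 / 2500) (-2587 / 2000)) +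
    (2731 / 875000) * (h.tensor 0 0 0 1 (-7991 / 10000)) +
    (13353 / 7000000) * (h.tensor 0 0 0 0 1) +
    (4613 / 1000000) * sq_nonneg (1 * m.a2 + (2521 / 10000) * m.b2 + (-5793 / 5000) * m.ab + (393 / 1250) * m.s + (-4069 / 5000) * m.t) +
    (3523 / 200000) * sq_nonneg (1 * m.b2 + (-8607 / 10000) * m.ab + (-1721 / 10000) * m.s + (93 / 200) * m.t) +
    (6243 / 500000) * sq_nonneg (1 * m.ab + (407 / 1000) * m.s + (-10573 / 10000) * m.t) +
    (301 / 40000) * sq_nonneg (1 * m.s + (-17961 / 10000) * m.t) +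
    (32 / 3125) * sq_nonneg (1 * m.t) +
    (138543 / 250000) * (mul_nonneg h.s_pos.le (h.vec 1 (-22033 / 10000))) +
    (221021 / 1000000) * (mul_nonneg h.s_pos.le (h.vec 0 1)) +
    (38219 / 250000) * (mul_nonneg h.t_pos.le (h.vec 1 (-18579 / 10000))) +
    (47473 / 1000000) * (mul_nonneg h.t_pos.le (h.vec 0 1)) +
    (5061 / 1000000) * (mul_nonneg h.s_pos.le h.t_pos.le) +
    (105899 / 14000000000) * (h.tensor 1 (-1) 0 0 0) +
    (64459 / 14000000000) * (h.tensor 1 0 (-1) 0 0) +
    (32453 / 7000000000) * (h.tensor 1 0 0 (-1) 0) +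
    (161929 / 14000000000) * (h.tensor 1 0 0 0 1) +
    (2000204929 / 140000000000000) * (h.tensor 0 1 1 0 0) +
    (466663557 / 70000000000000) * (h.tensor 0 1 0 (-1) 0) +
    (245958001 / 140000000000000) * (h.tensor 0 1 0 0 1) +
    (37855297603 / 350000000000000) * sq_nonneg (1 * m.a2 + 1 * m.b2) +
    (7264065073 / 70000000000000) * sq_nonneg (1 * m.a2 + (-1) * m.ab) +
    (1837923 / 35000000000) * sq_nonneg (1 * m.a2 + 1 * m.s) +
    (664171 / 35000000000) * sq_nonneg (1 * m.a2 + (-1) * m.t) +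
    (9551091573 / 350000000000000) * sq_nonneg (1 * m.b2 + 1 * m.ab) +
    (20003739219 / 350000000000000) * sq_nonneg (1 * m.b2 + 1 * m.s) +
    (6142649353 / 175000000000000) * sq_nonneg (1 * m.b2 + 1 * m.t) +
    (122723152591 / 700000000000000) * sq_nonneg (1 * m.ab + (-1) * m.s) +
    (16418243419 / 350000000000000) * sq_nonneg (1 * m.ab + (-1) * m.t) +
    (3170310389 / 350000000000000) * sq_nonneg (1 * m.s + (-1) * m.t) +
    (264807 / 14000000000) * (h.tensor 1 0 0 0 0) +
    (88189041 / 5600000000000) * (h.tensor 0 1 0 0 0) +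
    (35029204821 / 87500000000000) * sq_nonneg (1 * m.a2) +
    (68244504947 / 140000000000000) * sq_nonneg (1 * m.b2) +
    (128509325367 / 350000000000000) * sq_nonneg (1 * m.ab) +
    (207298183 / 10937500000000) * sq_nonneg (1 * m.s) +
    (29144216947 / 140000000000000) * sq_nonneg (1 * m.t)

theorem corner1 (m : Mon) (h : m.Real 7) :
    (679 / 2500000) * m.energy ≤ ∑ k, coef k * m.divs (41 / 10) (22 / 25) (11 / 16) 1 k := by
  simp only [Fin.sum_univ_succ, Fin.sum_univ_zero, coef, Mon.divs, Mon.energy,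
    Matrix.cons_val_zero, Matrix.cons_val_succ]
  linear_combination (156171 / 1400000) * (h.tensor 1 (3169 / 10000) (-11971 / 10000) (143 / 5000) (-6099 / 10000)) +
    (437223 / 3500000) * (h.tensor 0 1 (443 / 5000) (-257 / 250) (-389 / 1000)) +
    (5867 / 7000000) * (h.tensor 0 0 1 (284 / 625) (-17611 / 10000)) +
    (21047 / 7000000) * (h.tensor 0 0 0 1 (-6391 / 10000)) +
    (223 / 218750) * (h.tensor 0 0 0 0 1) +
    (961 / 200000) * sq_nonneg (1 * m.a2 + (597 / 1250) * m.b2 + (-3373 / 5000) * m.ab + (7573 / 10000) * m.s + (-19259 / 10000) * m.t) +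
    (3319 / 200000) * sq_nonneg (1 * m.b2 + (-582 / 625) * m.ab + (-2279 / 10000) * m.s + (6013 / 10000) * m.t) +
    (2609 / 200000) * sq_nonneg (1 * m.ab + (519 / 1000) * m.s + (-6629 / 5000) * m.t) +
    (3439 / 1000000) * sq_nonneg (1 * m.s + (-233 / 250) * m.t) +
    (2801 / 500000) * sq_nonneg (1 * m.t) +
    (274897 / 500000) * (mul_nonneg h.s_pos.le (h.vec 1 (-11121 / 5000))) +
    (95117 / 500000) * (mul_nonneg h.s_pos.le (h.vec 0 1)) +
    (2282 / 15625) * (mul_nonneg h.t_pos.le (h.vec 1 (-19741 / 10000))) +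
    (1171 / 125000) * (mul_nonneg h.t_pos.le (h.vec 0 1)) +
    (503 / 100000) * (mul_nonneg h.s_pos.le h.t_pos.le) +
    (105899 / 14000000000) * (h.tensor 1 (-1) 0 0 0) +
    (64459 / 14000000000) * (h.tensor 1 0 (-1) 0 0) +
    (32453 / 7000000000) * (h.tensor 1 0 0 (-1) 0) +
    (161929 / 14000000000) * (h.tensor 1 0 0 0 1) +
    (2000204929 / 140000000000000) * (h.tensor 0 1 1 0 0) +
    (466663557 / 70000000000000) * (h.tensor 0 1 0 (-1) 0) +
    (245958001 / 140000000000000) * (h.tensor 0 1 0 0 1) +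
    (153312618271 / 1400000000000000) * sq_nonneg (1 * m.a2 + 1 * m.b2) +
    (7343579073 / 70000000000000) * sq_nonneg (1 * m.a2 + (-1) * m.ab) +
    (742179 / 14000000000) * sq_nonneg (1 * m.a2 + 1 * m.s) +
    (267207 / 14000000000) * sq_nonneg (1 * m.a2 + (-1) * m.t) +
    (4532576037 / 175000000000000) * sq_nonneg (1 * m.b2 + 1 * m.ab) +
    (3128901791 / 175000000000000) * sq_nonneg (1 * m.b2 + 1 * m.s) +
    (3648720779 / 87500000000000) * sq_nonneg (1 * m.b2 + 1 * m.t) +
    (11016069609 / 70000000000000) * sq_nonneg (1 * m.ab + (-1) * m.s) +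
    (706234453 / 14000000000000) * sq_nonneg (1 * m.ab + (-1) * m.t) +
    (15269347 / 1750000000000) * sq_nonneg (1 * m.s + (-1) * m.t) +
    (149607 / 14000000000) * (h.tensor 1 0 0 0 0) +
    (42109041 / 5600000000000) * (h.tensor 0 1 0 0 0) +
    (68098675611 / 200000000000000) * sq_nonneg (1 * m.a2) +
    (647195190377 / 1400000000000000) * sq_nonneg (1 * m.b2) +
    (269025239367 / 700000000000000) * sq_nonneg (1 * m.ab) +
    (3768090383 / 350000000000000) * sq_nonneg (1 * m.s) +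
    (44924622069 / 350000000000000) * sq_nonneg (1 * m.t)

theorem corner2 (m : Mon) (h : m.Real 7) :
    (167 / 625000) * m.energy ≤ ∑ k, coef k * m.divs (43 / 10) (43 / 50) (11 / 16) 1 k := by
  simp only [Fin.sum_univ_succ, Fin.sum_univ_zero, coef, Mon.divs, Mon.energy,
    Matrix.cons_val_zero, Matrix.cons_val_succ]
  linear_combination (156171 / 1400000) * (h.tensor 1 (3169 / 10000) (-11971 / 10000) (143 / 5000) (-6099 / 10000)) +
    (437223 / 3500000) * (h.tensor 0 1 (443 / 5000) (-257 / 250) (-389 / 1000)) +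
    (6117 / 7000000) * (h.tensor 0 0 1 (683 / 5000) (-6233 / 5000)) +
    (21979 / 7000000) * (h.tensor 0 0 0 1 (-8079 / 10000)) +
    (6721 / 3500000) * (h.tensor 0 0 0 0 1) +
    (4591 / 1000000) * sq_nonneg (1 * m.a2 + (2599 / 10000) * m.b2 + (-2423 / 2000) * m.ab + (13 / 2500) * m.s + (-317 / 1000) * m.t) +
    (17523 / 1000000) * sq_nonneg (1 * m.b2 + (-8559 / 10000) * m.ab + (-403 / 5000) * m.s + (851 / 2500) * m.t) +
    (12507 / 1000000) * sq_nonneg (1 * m.ab + (1491 / 5000) * m.s + (-9741 / 10000) * m.t) +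
    (1869 / 200000) * sq_nonneg (1 * m.s + (-18307 / 10000) * m.t) +
    (9663 / 1000000) * sq_nonneg (1 * m.t) +
    (22281 / 40000) * (mul_nonneg h.s_pos.le (h.vec 1 (-23123 / 10000))) +
    (15801 / 500000) * (mul_nonneg h.s_pos.le (h.vec 0 1)) +
    (148279 / 1000000) * (mul_nonneg h.t_pos.le (h.vec 1 (-959 / 500))) +
    (16489 / 500000) * (mul_nonneg h.t_pos.le (h.vec 0 1)) +
    (57 / 12500) * (mul_nonneg h.s_pos.le h.t_pos.le) +
    (105899 / 14000000000) * (h.tensor 1 (-1) 0 0 0) +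
    (64459 / 14000000000) * (h.tensor 1 0 (-1) 0 0) +
    (32453 / 7000000000) * (h.tensor 1 0 0 (-1) 0) +
    (161929 / 14000000000) * (h.tensor 1 0 0 0 1) +
    (2000204929 / 140000000000000) * (h.tensor 0 1 1 0 0) +
    (466663557 / 70000000000000) * (h.tensor 0 1 0 (-1) 0) +
    (245958001 / 140000000000000) * (h.tensor 0 1 0 0 1) +
    (303871388203 / 2800000000000000) * sq_nonneg (1 * m.a2 + 1 * m.b2) +
    (7320824073 / 70000000000000) * sq_nonneg (1 * m.a2 + (-1) * m.ab) +
    (1836313 / 35000000000) * sq_nonneg (1 * m.a2 + 1 * m.s) +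
    (134321 / 7000000000) * sq_nonneg (1 * m.a2 + (-1) * m.t) +
    (2713355311 / 100000000000000) * sq_nonneg (1 * m.b2 + 1 * m.ab) +
    (25111048873 / 1400000000000000) * sq_nonneg (1 * m.b2 + 1 * m.s) +
    (3496024111 / 70000000000000) * sq_nonneg (1 * m.b2 + 1 * m.t) +
    (56831897467 / 350000000000000) * sq_nonneg (1 * m.ab + (-1) * m.s) +
    (18501457377 / 350000000000000) * sq_nonneg (1 * m.ab + (-1) * m.t) +
    (2774531509 / 350000000000000) * sq_nonneg (1 * m.s + (-1) * m.t) +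
    (158407 / 14000000000) * (h.tensor 1 0 0 0 0) +
    (45629041 / 5600000000000) * (h.tensor 0 1 0 0 0) +
    (969809266893 / 2800000000000000) * sq_nonneg (1 * m.a2) +
    (1281592152307 / 2800000000000000) * sq_nonneg (1 * m.b2) +
    (524667520703 / 1400000000000000) * sq_nonneg (1 * m.ab) +
    (15918767783 / 1400000000000000) * sq_nonneg (1 * m.s) +
    (43046873619 / 350000000000000) * sq_nonneg (1 * m.t)

theorem corner3 (m : Mon) (h : m.Real 7) :
    (2323 / 10000000) * m.energy ≤ ∑ k, coef k * m.divs (43 / 10) (22 / 25) (11 / 16) 1 k := by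
  simp only [Fin.sum_univ_succ, Fin.sum_univ_zero, coef, Mon.divs, Mon.energy,
    Matrix.cons_val_zero, Matrix.cons_val_succ]
  linear_combination (156171 / 1400000) * (h.tensor 1 (3169 / 10000) (-11971 / 10000) (143 / 5000) (-6099 / 10000)) +
    (437223 / 3500000) * (h.tensor 0 1 (443 / 5000) (-257 / 250) (-389 / 1000)) +
    (629 / 1000000) * (h.tensor 0 0 1 (3769 / 5000) (-8897 / 5000)) +
    (421 / 140000) * (h.tensor 0 0 0 1 (-6587 / 10000)) +
    (171 / 218750) * (h.tensor 0 0 0 0 1) +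
    (303 / 50000) * sq_nonneg (1 * m.a2 + (6163 / 10000) * m.b2 + (-4441 / 5000) * m.ab + (-443 / 5000) * m.s + (-11227 / 10000) * m.t) +
    (14281 / 1000000) * sq_nonneg (1 * m.b2 + (-8607 / 10000) * m.ab + (-67 / 5000) * m.s + (1707 / 5000) * m.t) +
    (7439 / 500000) * sq_nonneg (1 * m.ab + (1389 / 2000) * m.s + (-16053 / 10000) * m.t) +
    (209 / 62500) * sq_nonneg (1 * m.s + (-2163 / 2000) * m.t) +
    (473 / 125000) * sq_nonneg (1 * m.t) +
    (558147 / 1000000) * (mul_nonneg h.s_pos.le (h.vec 1 (-4637 / 2000))) +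
    (97 / 12500) * (mul_nonneg h.s_pos.le (h.vec 0 1)) +
    (35287 / 250000) * (mul_nonneg h.t_pos.le (h.vec 1 (-10153 / 5000))) +
    (3129 / 500000) * (mul_nonneg h.t_pos.le (h.vec 0 1)) +
    (359 / 250000) * (mul_nonneg h.s_pos.le h.t_pos.le) +
    (105899 / 14000000000) * (h.tensor 1 (-1) 0 0 0) +
    (64459 / 14000000000) * (h.tensor 1 0 (-1) 0 0) +
    (32453 / 7000000000) * (h.tensor 1 0 0 (-1) 0) +
    (161929 / 14000000000) * (h.tensor 1 0 0 0 1) +
    (2000204929 / 140000000000000) * (h.tensor 0 1 1 0 0) +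
    (466663557 / 70000000000000) * (h.tensor 0 1 0 (-1) 0) +
    (245958001 / 140000000000000) * (h.tensor 0 1 0 0 1) +
    (21707903531 / 200000000000000) * sq_nonneg (1 * m.a2 + 1 * m.b2) +
    (7331379073 / 70000000000000) * sq_nonneg (1 * m.a2 + (-1) * m.ab) +
    (365787 / 7000000000) * sq_nonneg (1 * m.a2 + 1 * m.s) +
    (34079 / 1750000000) * sq_nonneg (1 * m.a2 + (-1) * m.t) +
    (4635204309 / 175000000000000) * sq_nonneg (1 * m.b2 + 1 * m.ab) +
    (12059513119 / 280000000000000) * sq_nonneg (1 * m.b2 + 1 * m.s) +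
    (9178278243 / 175000000000000) * sq_nonneg (1 * m.b2 + 1 * m.t) +
    (60316971843 / 350000000000000) * sq_nonneg (1 * m.ab + (-1) * m.s) +
    (19588239857 / 350000000000000) * sq_nonneg (1 * m.ab + (-1) * m.t) +
    (3105555769 / 350000000000000) * sq_nonneg (1 * m.s + (-1) * m.t) +
    (32601 / 2000000000) * (h.tensor 1 0 0 0 0) +
    (73549041 / 5600000000000) * (h.tensor 0 1 0 0 0) +
    (533630022831 / 1400000000000000) * sq_nonneg (1 * m.a2) +
    (11641379813 / 25000000000000) * sq_nonneg (1 * m.b2) +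
    (127175810333 / 350000000000000) * sq_nonneg (1 * m.ab) +
    (22832605113 / 1400000000000000) * sq_nonneg (1 * m.s) +
    (445690571 / 2800000000000) * sq_nonneg (1 * m.t)

end Vale.Agent.P100.Box7
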