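import Vale.Agent.P100.Box7

/-!
# P100: a box of exponents in dimension seven

`IsCert` is affine in `(p, q)` for fixed `A`, `B`, `c`, so four corners give the box.
-/

namespace Vale.Agent.P100

theorem Mon.divs_affine (p₀ p₁ q₀ q₁ A B σ τ : ℝ) (m : Mon) (k : Fin 14) :
    m.divs ((1 - σ) * p₀ + σ * p₁) ((1 - τ) * q₀ + τ * q₁) A B k =
      (1 - σ) * (1 - τ) * m.divs p₀ q₀ A B k + (1 - σ) * τ * m.divs p₀ q₁ A B k +
        σ * (1 - τ) * m.divs p₁ q₀ A B k + σ * τ * m.divs p₁ q₁ A B k := by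
  fin_cases k <;> simp [Mon.divs] <;> ring

theorem Mon.Real.energy_nonneg {n : ℕ} {m : Mon} (hn : 0 < n) (h : m.Real n) : 0 ≤ m.energy := by
  have hn' : (0 : ℝ) < n := Nat.cast_pos.2 hn
  have h1 := h.tensor 1 0 0 0 0
  have h2 := h.tensor 0 1 0 0 0
  have e1 : 0 ≤ m.PP := nonneg_of_mul_nonneg_right (by nlinarith : (0 : ℝ) ≤ n * m.PP) hn'
  have e2 : 0 ≤ m.QQ := nonneg_of_mul_nonneg_right (by nlinarith : (0 : ℝ) ≤ n * m.QQ) hn'
  simp only [Mon.energy]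
  positivity

theorem isCert_box {n : ℕ} (hn : 0 < n) {p₀ p₁ q₀ q₁ A B δ : ℝ} {c : Fin 14 → ℝ}
    (h00 : ∀ m : Mon, m.Real n → δ * m.energy ≤ ∑ k, c k * m.divs p₀ q₀ A B k)
    (h01 : ∀ m : Mon, m.Real n → δ * m.energy ≤ ∑ k, c k * m.divs p₀ q₁ A B k)
    (h10 : ∀ m : Mon, m.Real n → δ * m.energy ≤ ∑ k, c k * m.divs p₁ q₀ A B k)
    (h11 : ∀ m : Mon, m.Real n → δ * m.energy ≤ ∑ k, c k * m.divs p₁ q₁ A B k)
    {p q : ℝ} (hp : p ∈ Set.Icc p₀ p₁) (hq : q ∈ Set.Icc q₀ q₁) (hp' : p₀ < p₁) (hq' : q₀ < q₁) :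
    IsCert n p q A B δ c := by
  refine isCert_of_mon fun m hm => ?_
  set σ := (p - p₀) / (p₁ - p₀) with hσ
  set τ := (q - q₀) / (q₁ - q₀) with hτ
  have hσ0 : 0 ≤ σ := div_nonneg (by linarith [hp.1]) (by linarith)
  have hτ0 : 0 ≤ τ := div_nonneg (by linarith [hq.1]) (by linarith)
  have hσ1 : σ ≤ 1 := (div_le_one (by linarith)).2 (by linarith [hp.2])
  have hτ1 : τ ≤ 1 := (div_le_one (by linarith)).2 (by linarith [hq.2])
  have hσd : σ * (p₁ - p₀) = p - p₀ := div_mul_cancel₀ _ (by linarith)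
  have hτd : τ * (q₁ - q₀) = q - q₀ := div_mul_cancel₀ _ (by linarith)
  rw [show p = (1 - σ) * p₀ + σ * p₁ by linarith,
    show q = (1 - τ) * q₀ + τ * q₁ by linarith]
  have s0 := sub_nonneg.2 hσ1
  have t0 := sub_nonneg.2 hτ1
  have a := mul_le_mul_of_nonneg_left (h00 m hm) (mul_nonneg s0 t0)
  have b := mul_le_mul_of_nonneg_left (h01 m hm) (mul_nonneg s0 hτ0)
  have d := mul_le_mul_of_nonneg_left (h10 m hm) (mul_nonneg hσ0 t0)
  have e := mul_le_mul_of_nonneg_left (h11 m hm) (mul_nonneg hσ0 hτ0)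
  calc δ * m.energy = (1 - σ) * (1 - τ) * (δ * m.energy) + (1 - σ) * τ * (δ * m.energy) +
        σ * (1 - τ) * (δ * m.energy) + σ * τ * (δ * m.energy) := by ring
    _ ≤ _ := add_le_add (add_le_add (add_le_add a b) d) e
    _ = _ := by
      simp only [Finset.mul_sum, ← Finset.sum_add_distrib, Mon.divs_affine]
      exact Finset.sum_congr rfl fun k _ => by ring

namespace Box7

theorem weaken {x δ₀ δ₁ y : ℝ} (hx : 0 ≤ x) (hd : δ₀ ≤ δ₁) (h : δ₁ * x ≤ y) : δ₀ * x ≤ y :=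
  (mul_le_mul_of_nonneg_right hd hx).trans h

theorem isCert_box7 {p q : ℝ} (hp : p ∈ Set.Icc (41 / 10 : ℝ) (43 / 10))
    (hq : q ∈ Set.Icc (43 / 50 : ℝ) (22 / 25)) :
    IsCert 7 p q (11 / 16) 1 (107 / 500000) coef := by
  refine isCert_box (by norm_num) corner0 (fun m h => ?_) (fun m h => ?_) (fun m h => ?_)
    hp hq (by norm_num) (by norm_num)
  · exact weaken (h.energy_nonneg (by norm_num)) (by norm_num) (corner1 m h)
  · exact weaken (h.energy_nonneg (by norm_num)) (by norm_num) (corner2 m h)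
  · exact weaken (h.energy_nonneg (by norm_num)) (by norm_num) (corner3 m h)

/-- No positive entire solution of the Lane–Emden system for the exponents of the box. -/
theorem no_solution {p q : ℝ} (hp : p ∈ Set.Icc (41 / 10 : ℝ) (43 / 10))
    (hq : q ∈ Set.Icc (43 / 50 : ℝ) (22 / 25)) :
    ¬ ∃ u v : (Fin 7 → ℝ) → ℝ, IsSol p q u v := by
  have hpq : 1 < p * q := by nlinarith [hp.1, hq.1]
  refine no_solution_of_cert (by norm_num) hpq (by linarith [hq.1]) (by linarith [hp.1]) ?_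
    (by norm_num) (isCert_box7 hp hq)
  have h : (3 / 2 : ℝ) < (11 / 16 * (p + 1) + 1 * (q + 1)) / (p * q - 1) := by
    rw [lt_div_iff₀ (by linarith)]
    nlinarith [hp.1, hp.2, hq.1, hq.2, mul_le_mul hp.2 hq.2 (by linarith [hq.1]) (by norm_num)]
  push_cast
  linarith

end Box7

end Vale.Agent.P100
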