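import Vale.Agent.P252.B.Div

/-!
# P100: from a divergence certificate to nonexistence

A field `X` on `ℝⁿ ∖ {0}` whose weak divergence dominates a density `F ≥ 0`, with `|X|⁴ ≲ F³ W`
and `W ≲ F ^ θ`, forces `F = 0` as soon as `4 < n < 4 / (1 - θ)` and `W` is bounded near the
origin. Only cut-offs are used.
-/

namespace Vale.Agent.P100

open Set Filter Topology MeasureTheory
open Vale.Agent.P252 (pd)

variable {n : ℕ}

/-- The space without the origin. -/
def punctured (n : ℕ) : Set (Fin n → ℝ) := {0}ᶜ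

theorem isOpen_punctured : IsOpen (punctured n) := isOpen_compl_singleton

/-- The squared Euclidean norm. -/
def sqn (x : Fin n → ℝ) : ℝ := ∑ i, x i ^ 2

theorem sqn_nonneg (x : Fin n → ℝ) : 0 ≤ sqn x := Finset.sum_nonneg fun _ _ => sq_nonneg _

theorem abs_le_of_sqn_le {x : Fin n → ℝ} {r : ℝ} (hr : 0 ≤ r) (h : sqn x ≤ r ^ 2) (i : Fin n) :
    |x i| ≤ r :=
  abs_le_of_sq_le_sq ((Finset.single_le_sum (f := fun j => x j ^ 2) (fun _ _ => sq_nonneg _)
    (Finset.mem_univ i)).trans h) hr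

theorem sqn_pos {x : Fin n → ℝ} (hx : x ∈ punctured n) : 0 < sqn x := by
  refine (sqn_nonneg x).lt_of_ne fun h => hx ?_
  refine Set.mem_singleton_iff.2 (funext fun i => ?_)
  simpa using (Finset.sum_eq_zero_iff_of_nonneg fun _ _ => sq_nonneg _).1 h.symm i
    (Finset.mem_univ i)

theorem contDiff_sqn : ContDiff ℝ 1 (sqn (n := n)) := by
  have h : ∀ j : Fin n, ContDiff ℝ 1 fun x : Fin n → ℝ => x j ^ 2 := fun j => by fun_prop
  exact ContDiff.sum (s := Finset.univ) fun j _ => h j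

theorem pd_sqn (x : Fin n → ℝ) (i : Fin n) : pd i sqn x = 2 * x i := by
  have h : HasFDerivAt (sqn (n := n))
      (∑ j, (2 * x j) • ContinuousLinearMap.proj (R := ℝ) (φ := fun _ : Fin n => ℝ) j) x := by
    refine HasFDerivAt.fun_sum fun j _ => ?_
    have := (ContinuousLinearMap.proj (R := ℝ) (φ := fun _ : Fin n => ℝ) j).hasFDerivAt.pow
      (x := x) 2
    simpa using this
  simp [pd, h.fderiv, Pi.single_apply]

theorem smoothTransition_C1 : ContDiff ℝ 1 Real.smoothTransition :=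
  Real.smoothTransition.contDiff

/-- The inner cut-off: zero for `sqn x ≤ ρ²`, one for `sqn x ≥ 2ρ²`. -/
noncomputable def inner' (ρ : ℝ) (x : Fin n → ℝ) : ℝ :=
  Real.smoothTransition (sqn x / ρ ^ 2 - 1)

/-- The outer cut-off: one for `sqn x ≤ R²`, zero for `sqn x ≥ 2R²`. -/
noncomputable def outer' (R : ℝ) (x : Fin n → ℝ) : ℝ :=
  Real.smoothTransition (2 - sqn x / R ^ 2)

theorem deriv_transition_eq_zero {t : ℝ} (h : t ≤ 0 ∨ 1 ≤ t) :
    deriv Real.smoothTransition t = 0 := by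
  rcases h with h | h
  · refine IsLocalMin.deriv_eq_zero (Eventually.of_forall fun s => ?_)
    rw [Real.smoothTransition.zero_of_nonpos h]
    exact Real.smoothTransition.nonneg s
  · refine IsLocalMax.deriv_eq_zero (Eventually.of_forall fun s => ?_)
    rw [Real.smoothTransition.one_of_one_le h]
    exact Real.smoothTransition.le_one s

theorem deriv_transition_bdd : ∃ T : ℝ, 0 ≤ T ∧ ∀ t, |deriv Real.smoothTransition t| ≤ T := by
  obtain ⟨T, hT⟩ := isCompact_Icc.exists_bound_of_continuousOn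
    (s := Icc (0 : ℝ) 1) (smoothTransition_C1.continuous_deriv le_rfl).continuousOn
  refine ⟨max T 0, le_max_right _ _, fun t => ?_⟩
  by_cases ht : t ∈ Icc (0 : ℝ) 1
  · exact (hT t ht).trans (le_max_left _ _)
  · rw [deriv_transition_eq_zero ((not_and_or.1 ht).imp (fun h => (not_le.1 h).le)
      fun h => (not_le.1 h).le), abs_zero]
    exact le_max_right _ _

theorem contDiff_inner' (ρ : ℝ) : ContDiff ℝ 1 (inner' (n := n) ρ) :=
  smoothTransition_C1.comp ((contDiff_sqn.div_const _).sub contDiff_const)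

theorem contDiff_outer' (R : ℝ) : ContDiff ℝ 1 (outer' (n := n) R) :=
  smoothTransition_C1.comp (contDiff_const.sub (contDiff_sqn.div_const _))

theorem pd_inner' (ρ : ℝ) (x : Fin n → ℝ) (i : Fin n) :
    pd i (inner' ρ) x = deriv Real.smoothTransition (sqn x / ρ ^ 2 - 1) * (2 * x i / ρ ^ 2) := by
  have h1 : HasFDerivAt (fun y => sqn y / ρ ^ 2 - 1) ((ρ ^ 2)⁻¹ • fderiv ℝ sqn x) x := by
    simpa [div_eq_mul_inv, mul_comm] using
      (((contDiff_sqn.differentiable one_ne_zero) x).hasFDerivAt.const_mul (ρ ^ 2)⁻¹).sub_const 1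
  have h2 := ((smoothTransition_C1.differentiable one_ne_zero)
    (sqn x / ρ ^ 2 - 1)).hasDerivAt.comp_hasFDerivAt x h1
  have : fderiv ℝ sqn x (Pi.single i 1) = 2 * x i := pd_sqn x i
  rw [pd, show inner' ρ = Real.smoothTransition ∘ fun y => sqn y / ρ ^ 2 - 1 from rfl, h2.fderiv]
  simp [this, div_eq_inv_mul]

theorem pd_outer' (R : ℝ) (x : Fin n → ℝ) (i : Fin n) :
    pd i (outer' R) x =
      -(deriv Real.smoothTransition (2 - sqn x / R ^ 2) * (2 * x i / R ^ 2)) := by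
  have h1 : HasFDerivAt (fun y => 2 - sqn y / R ^ 2) (-((R ^ 2)⁻¹ • fderiv ℝ sqn x)) x := by
    simpa [div_eq_mul_inv, mul_comm] using
      (((contDiff_sqn.differentiable one_ne_zero) x).hasFDerivAt.const_mul (R ^ 2)⁻¹).const_sub 2
  have h2 := ((smoothTransition_C1.differentiable one_ne_zero)
    (2 - sqn x / R ^ 2)).hasDerivAt.comp_hasFDerivAt x h1
  have : fderiv ℝ sqn x (Pi.single i 1) = 2 * x i := pd_sqn x i
  rw [pd, show outer' R = Real.smoothTransition ∘ fun y => 2 - sqn y / R ^ 2 from rfl, h2.fderiv]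
  simp [this, div_eq_inv_mul]

theorem slope_bound {T r s : ℝ} {x : Fin n → ℝ} {i : Fin n} (hr : 0 < r) (hT : |s| ≤ T)
    (hT0 : 0 ≤ T) (hx : sqn x ≤ (2 * r) ^ 2) : |s * (2 * x i / r ^ 2)| ≤ 4 * T / r := by
  rw [abs_mul, abs_div, abs_mul, abs_two, abs_of_pos (by positivity : 0 < r ^ 2)]
  calc |s| * (2 * |x i| / r ^ 2) ≤ T * (2 * (2 * r) / r ^ 2) := by
        gcongr
        exact abs_le_of_sqn_le (by linarith) hx i
    _ = 4 * T / r := by field_simp; ring

theorem pd_inner'_bound {T : ℝ} (hT0 : 0 ≤ T) (hT : ∀ t, |deriv Real.smoothTransition t| ≤ T)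
    {ρ : ℝ} (hρ : 0 < ρ) (x : Fin n → ℝ) (i : Fin n) :
    |pd i (inner' ρ) x| ≤ 4 * T / ρ ∧ (4 * ρ ^ 2 < sqn x → pd i (inner' ρ) x = 0) := by
  rw [pd_inner']
  have h0 : 2 * ρ ^ 2 ≤ sqn x → deriv Real.smoothTransition (sqn x / ρ ^ 2 - 1) = 0 := fun h =>
    deriv_transition_eq_zero (Or.inr (by rw [le_sub_iff_add_le, le_div_iff₀ (by positivity)]; linarith))
  refine ⟨?_, fun h => by simp [h0 (by nlinarith)]⟩
  by_cases h : 2 * ρ ^ 2 ≤ sqn x
  · simp [h0 h]; positivity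
  · exact slope_bound hρ (hT _) hT0 (by nlinarith)

theorem pd_outer'_bound {T : ℝ} (hT0 : 0 ≤ T) (hT : ∀ t, |deriv Real.smoothTransition t| ≤ T)
    {R : ℝ} (hR : 0 < R) (x : Fin n → ℝ) (i : Fin n) :
    |pd i (outer' R) x| ≤ 4 * T / R ∧ (4 * R ^ 2 < sqn x → pd i (outer' R) x = 0) := by
  rw [pd_outer', abs_neg, neg_eq_zero]
  have h0 : 2 * R ^ 2 ≤ sqn x → deriv Real.smoothTransition (2 - sqn x / R ^ 2) = 0 := fun h =>
    deriv_transition_eq_zero (Or.inl (by rw [sub_nonpos, le_div_iff₀ (by positivity)]; linarith))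
  refine ⟨?_, fun h => by simp [h0 (by nlinarith)]⟩
  by_cases h : 2 * R ^ 2 ≤ sqn x
  · simp [h0 h]; positivity
  · exact slope_bound hR (hT _) hT0 (by nlinarith)

theorem integrable_of_zero_off {Ω K : Set (Fin n → ℝ)} {f : (Fin n → ℝ) → ℝ}
    (hf : ContinuousOn f Ω) (hK : IsCompact K) (hKΩ : K ⊆ Ω) (h0 : ∀ x ∉ K, f x = 0) :
    Integrable f :=
  ((hf.mono hKΩ).integrableOn_compact hK).integrable_of_forall_notMem_eq_zero h0

/-- A bounded function living on the ball of radius `2 r` has integral at most `b (4 r)ⁿ`. -/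
theorem integral_le_box {f : (Fin n → ℝ) → ℝ} {r b : ℝ} (hr : 0 < r)
    (hb : ∀ x, sqn x ≤ (2 * r) ^ 2 → f x ≤ b) (hb0 : 0 ≤ b)
    (h0 : ∀ x, (2 * r) ^ 2 < sqn x → f x = 0) (hf : Integrable f) :
    ∫ x, f x ≤ b * (4 * r) ^ n := by
  set B : Set (Fin n → ℝ) := Icc (fun _ => -(2 * r)) (fun _ => 2 * r) with hB
  have hBvol : (volume B).toReal = (4 * r) ^ n := by
    rw [hB, Real.volume_Icc_pi_toReal (fun i => by linarith)]
    simp only [Finset.prod_const, Finset.card_univ, Fintype.card_fin]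
    congr 1; ring
  have hBm : MeasurableSet B := measurableSet_Icc
  have hBfin : volume B ≠ ⊤ := (isCompact_Icc.measure_lt_top).ne
  calc ∫ x, f x ≤ ∫ x, B.indicator (fun _ => b) x := by
        refine integral_mono hf ((integrableOn_const hBfin).integrable_indicator hBm)
          fun x => ?_
        by_cases hx : sqn x ≤ (2 * r) ^ 2
        · have : x ∈ B := ⟨fun i => (abs_le.1 (abs_le_of_sqn_le (by linarith) hx i)).1,
            fun i => (abs_le.1 (abs_le_of_sqn_le (by linarith) hx i)).2⟩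
          rw [Set.indicator_of_mem this]
          exact hb x hx
        · rw [h0 x (not_le.1 hx)]
          exact Set.indicator_nonneg (fun _ _ => hb0) x
    _ = b * (4 * r) ^ n := by
        rw [integral_indicator hBm, setIntegral_const, smul_eq_mul, Measure.real, hBvol, mul_comm]

theorem fourth_young {a P Q e : ℝ} (he : 0 < e) (hP : 0 ≤ P) (hQ : 0 ≤ Q)
    (h : a ^ 4 ≤ P ^ 3 * Q) : |a| ≤ e * P + (e ^ 3)⁻¹ * Q := by
  have hA : 0 ≤ e * P := by positivity
  have hB : 0 ≤ (e ^ 3)⁻¹ * Q := by positivity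
  refine (pow_le_pow_iff_left₀ (abs_nonneg a) (add_nonneg hA hB) (n := 4) (by norm_num)).1 ?_
  have hab : (e * P) ^ 3 * ((e ^ 3)⁻¹ * Q) = P ^ 3 * Q := by field_simp
  calc |a| ^ 4 = a ^ 4 := (show Even 4 by decide).pow_abs a
    _ ≤ (e * P) ^ 3 * ((e ^ 3)⁻¹ * Q) := h.trans_eq hab.symm
    _ ≤ (e * P + (e ^ 3)⁻¹ * Q) ^ 4 := by
        rw [pow_succ (e * P + (e ^ 3)⁻¹ * Q) 3]
        exact mul_le_mul (pow_le_pow_left₀ hA (le_add_of_nonneg_right hB) 3)
          (le_add_of_nonneg_left hA) hB (by positivity)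

theorem theta_young {θ : ℝ} (h0 : 0 ≤ θ) (h1 : θ < 1) {e : ℝ} (he : 0 < e) :
    ∃ c : ℝ, 0 ≤ c ∧ ∀ x y : ℝ, 0 ≤ x → 0 ≤ y →
      x ^ θ * y ^ (1 - θ) ≤ e * x + c * y := by
  refine ⟨(1 - θ) * (e ^ (-(θ / (1 - θ)))), by positivity [sub_nonneg.2 h1.le], fun x y hx hy => ?_⟩
  have hE : 0 < e ^ (-(θ / (1 - θ))) := Real.rpow_pos_of_pos he _
  have h := Real.geom_mean_le_arith_mean2_weighted h0 (sub_nonneg.2 h1.le)
    (mul_nonneg he.le hx) (mul_nonneg hE.le hy) (by ring)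
  have e0 : e ^ θ * (e ^ (-(θ / (1 - θ)))) ^ (1 - θ) = 1 := by
    rw [← Real.rpow_mul he.le, ← Real.rpow_add he]
    have : θ + -(θ / (1 - θ)) * (1 - θ) = 0 := by
      rw [neg_mul, div_mul_cancel₀ _ (sub_pos.2 h1).ne']; ring
    rw [this, Real.rpow_zero]
  rw [Real.mul_rpow he.le hx, Real.mul_rpow hE.le hy] at h
  calc x ^ θ * y ^ (1 - θ)
      = e ^ θ * (e ^ (-(θ / (1 - θ)))) ^ (1 - θ) * (x ^ θ * y ^ (1 - θ)) := by rw [e0, one_mul]
    _ = e ^ θ * x ^ θ * ((e ^ (-(θ / (1 - θ)))) ^ (1 - θ) * y ^ (1 - θ)) := by ring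
    _ ≤ θ * (e * x) + (1 - θ) * (e ^ (-(θ / (1 - θ))) * y) := h
    _ ≤ e * x + (1 - θ) * e ^ (-(θ / (1 - θ))) * y := by
        nlinarith [mul_nonneg he.le hx]

theorem pow4_nonneg (t : ℝ) : 0 ≤ t ^ 4 := (show Even 4 by decide).pow_nonneg t

theorem pow4_abs (t : ℝ) : |t| ^ 4 = t ^ 4 := (show Even 4 by decide).pow_abs t

/-- The integral inequality got from one weak divergence identity. -/
theorem first_step {Ω K : Set (Fin n → ℝ)} (hK : IsCompact K) (hKΩ : K ⊆ Ω)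
    {δ C e : ℝ} (hC : 0 ≤ C) (he : 0 < e) {M : ℕ} (hM : 5 ≤ M)
    {F W D : (Fin n → ℝ) → ℝ} {X : Fin n → (Fin n → ℝ) → ℝ}
    (hF : ContinuousOn F Ω) (hW : ContinuousOn W Ω) (hD : ContinuousOn D Ω)
    (hX : ∀ i, ContinuousOn (X i) Ω) (hF0 : ∀ x ∈ Ω, 0 ≤ F x) (hW0 : ∀ x ∈ Ω, 0 ≤ W x)
    (hXF : ∀ x ∈ Ω, ∀ i, X i x ^ 4 ≤ C * (F x ^ 3 * W x))
    (hDF : ∀ x ∈ Ω, δ * F x ≤ D x)
    (hdiv : ∀ η : (Fin n → ℝ) → ℝ, ContDiff ℝ 1 η → HasCompactSupport η →
      tsupport η ⊆ Ω → ∫ x, (η x * D x + ∑ i, pd i η x * X i x) = 0)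
    {z : (Fin n → ℝ) → ℝ} (hz : ContDiff ℝ 1 z) (hz0 : ∀ x, 0 ≤ z x)
    (hzK : ∀ x ∉ K, z x = 0) :
    δ * (∫ x, z x ^ M * F x) ≤ M * (n * e * (∫ x, z x ^ M * F x) +
      (e ^ 3)⁻¹ * C * ∑ i, ∫ x, z x ^ (M - 4) * pd i z x ^ 4 * W x) := by
  have hpd : ∀ i x, pd i (fun y => z y ^ M) x = M * z x ^ (M - 1) * pd i z x := fun i x => by
    simp only [pd]
    rw [fderiv_fun_pow M ((hz.differentiable one_ne_zero) x)]
    simp
  have hzc : ∀ j : ℕ, ContinuousOn (fun x => z x ^ j) Ω := fun j =>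
    (hz.continuous.pow j).continuousOn
  have h0 : ∀ j : ℕ, 0 < j → ∀ x ∉ K, z x ^ j = 0 := fun j hj x hx => by
    rw [hzK x hx, zero_pow (by omega)]
  have iF : Integrable fun x => z x ^ M * F x :=
    integrable_of_zero_off ((hzc M).mul hF) hK hKΩ fun x hx => by
      rw [h0 M (by omega) x hx, zero_mul]
  have iD : Integrable fun x => z x ^ M * D x :=
    integrable_of_zero_off ((hzc M).mul hD) hK hKΩ fun x hx => by
      rw [h0 M (by omega) x hx, zero_mul]
  have iX : ∀ i, Integrable fun x => pd i (fun y => z y ^ M) x * X i x := fun i => by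
    refine integrable_of_zero_off (ContinuousOn.mul ?_ (hX i)) hK hKΩ fun x hx => ?_
    · exact (Vale.Agent.P252.continuous_pd (hz.pow M) i).continuousOn
    · rw [hpd, h0 _ (by omega) x hx, mul_zero, zero_mul, zero_mul]
  have iW : ∀ i, Integrable fun x => z x ^ (M - 4) * pd i z x ^ 4 * W x := fun i =>
    integrable_of_zero_off (((hzc _).mul ((Vale.Agent.P252.continuous_pd hz i).pow 4).continuousOn).mul hW)
      hK hKΩ fun x hx => by rw [h0 _ (by omega) x hx, zero_mul, zero_mul]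
  have hint := hdiv (fun y => z y ^ M) (hz.pow M)
    (HasCompactSupport.intro hK fun x hx => h0 M (by omega) x hx)
    ((closure_minimal (fun x (hx : z x ^ M ≠ 0) => by_contra fun h => hx (h0 M (by omega) x h))
      hK.isClosed).trans hKΩ)
  rw [integral_add iD (integrable_finsetSum _ fun i _ => iX i),
    integral_finsetSum _ fun i _ => iX i] at hint
  have s1 : ∀ i x, -(pd i (fun y => z y ^ M) x * X i x) ≤
      (M : ℝ) * (e * (z x ^ M * F x) + (e ^ 3)⁻¹ * C * (z x ^ (M - 4) * pd i z x ^ 4 * W x)) := by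
    intro i x
    by_cases hx : x ∈ K
    · have hxΩ := hKΩ hx
      refine (neg_le_abs _).trans ?_
      rw [hpd, mul_assoc (M : ℝ), mul_assoc (M : ℝ), abs_mul,
        abs_of_nonneg (Nat.cast_nonneg M)]
      refine mul_le_mul_of_nonneg_left ?_ (Nat.cast_nonneg M)
      rw [mul_assoc ((e ^ 3)⁻¹)]
      refine fourth_young he (mul_nonneg (pow_nonneg (hz0 x) _) (hF0 x hxΩ))
        (mul_nonneg hC (mul_nonneg (mul_nonneg (pow_nonneg (hz0 x) _) (pow4_nonneg _))
          (hW0 x hxΩ))) ?_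
      have hp : (z x ^ (M - 1)) ^ 4 = (z x ^ M) ^ 3 * z x ^ (M - 4) := by
        rw [← pow_mul, ← pow_mul, ← pow_add]; congr 1; omega
      calc (z x ^ (M - 1) * pd i z x * X i x) ^ 4
          = (z x ^ M) ^ 3 * z x ^ (M - 4) * pd i z x ^ 4 * X i x ^ 4 := by rw [← hp]; ring
        _ ≤ (z x ^ M) ^ 3 * z x ^ (M - 4) * pd i z x ^ 4 * (C * (F x ^ 3 * W x)) :=
            mul_le_mul_of_nonneg_left (hXF x hxΩ i) (mul_nonneg (mul_nonneg
              (pow_nonneg (pow_nonneg (hz0 x) _) _) (pow_nonneg (hz0 x) _)) (pow4_nonneg _))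
        _ = _ := by ring
    · simp [hpd, h0 _ (by omega : 0 < M - 1) x hx, h0 M (by omega) x hx,
        h0 _ (by omega : 0 < M - 4) x hx]
  have hD' : δ * (∫ x, z x ^ M * F x) ≤ ∫ x, z x ^ M * D x := by
    rw [← integral_const_mul]
    refine integral_mono (iF.const_mul δ) iD fun x => ?_
    by_cases hx : x ∈ K
    · calc δ * (z x ^ M * F x) = z x ^ M * (δ * F x) := by ring
        _ ≤ _ := mul_le_mul_of_nonneg_left (hDF x (hKΩ hx)) (pow_nonneg (hz0 x) _)
    · simp [h0 M (by omega) x hx]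
  have hXi : ∀ i, -(∫ x, pd i (fun y => z y ^ M) x * X i x) ≤
      (M : ℝ) * (e * (∫ x, z x ^ M * F x) +
        (e ^ 3)⁻¹ * C * ∫ x, z x ^ (M - 4) * pd i z x ^ 4 * W x) := fun i => by
    rw [← integral_neg, ← integral_const_mul, ← integral_const_mul,
      ← integral_add (iF.const_mul e) ((iW i).const_mul _), ← integral_const_mul]
    exact integral_mono (iX i).neg
      (((iF.const_mul e).add ((iW i).const_mul ((e ^ 3)⁻¹ * C))).const_mul (M : ℝ)) (s1 i)
  have h3 := Finset.sum_le_sum (s := Finset.univ) fun i _ => hXi i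
  rw [Finset.sum_neg_distrib, ← Finset.mul_sum, Finset.sum_add_distrib, ← Finset.mul_sum,
    Finset.sum_const, Finset.card_univ, Fintype.card_fin, nsmul_eq_mul] at h3
  calc δ * (∫ x, z x ^ M * F x) ≤ ∫ x, z x ^ M * D x := hD'
    _ = -∑ i, ∫ x, pd i (fun y => z y ^ M) x * X i x := by linarith
    _ ≤ _ := h3.trans_eq (by rw [← Finset.mul_sum]; ring)

/-- The second Young step for one cut-off factor. -/
theorem outer_pointwise {θ C e c : ℝ} (hθ1 : θ < 1) (hC : 0 ≤ C)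
    (hy : ∀ x y : ℝ, 0 ≤ x → 0 ≤ y → x ^ θ * y ^ (1 - θ) ≤ e * x + c * y) {M : ℕ} (hM : 5 ≤ M)
    (hMk : 4 / (1 - θ) ≤ (M : ℝ)) {z s F W : ℝ} (hz0 : 0 ≤ z) (hz1 : z ≤ 1) (hF : 0 ≤ F)
    (hW : W ≤ C * F ^ θ) :
    z ^ (M - 4) * s ^ 4 * W ≤ C * (e * (z ^ M * F) + c * |s| ^ (4 / (1 - θ))) := by
  have h1θ : 0 < 1 - θ := sub_pos.2 hθ1
  refine (mul_le_mul_of_nonneg_left hW (mul_nonneg (pow_nonneg hz0 _) (pow4_nonneg s))).trans ?_
  rw [mul_left_comm]
  refine mul_le_mul_of_nonneg_left ?_ hC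
  refine le_trans ?_ (hy _ _ (mul_nonneg (pow_nonneg hz0 _) hF)
    (Real.rpow_nonneg (abs_nonneg s) _))
  rw [Real.mul_rpow (pow_nonneg hz0 _) hF, ← Real.rpow_mul (abs_nonneg s),
    show 4 / (1 - θ) * (1 - θ) = ((4 : ℕ) : ℝ) by rw [div_mul_cancel₀ _ h1θ.ne']; norm_num,
    Real.rpow_natCast, pow4_abs]
  have key : z ^ (M - 4) ≤ (z ^ M) ^ θ := by
    rw [← Real.rpow_natCast z M, ← Real.rpow_mul hz0, ← Real.rpow_natCast z (M - 4)]
    have hM4 : (0 : ℝ) < ((M - 4 : ℕ) : ℝ) := by exact_mod_cast (show 0 < M - 4 by omega)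
    rcases eq_or_lt_of_le hz0 with h | h
    · rw [← h, Real.zero_rpow hM4.ne']
      exact Real.rpow_nonneg le_rfl _
    · refine Real.rpow_le_rpow_of_exponent_ge h hz1 ?_
      rw [div_le_iff₀ h1θ] at hMk
      rw [Nat.cast_sub (show 4 ≤ M by omega)]
      push_cast
      linarith
  calc z ^ (M - 4) * s ^ 4 * F ^ θ ≤ (z ^ M) ^ θ * s ^ 4 * F ^ θ :=
        mul_le_mul_of_nonneg_right (mul_le_mul_of_nonneg_right key (pow4_nonneg s))
          (Real.rpow_nonneg hF θ)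
    _ = _ := by ring

/-- Fourth power of the derivative of a product of two cut-offs. -/
theorem fourth_of_product {a b p q : ℝ} (ha : 0 ≤ a) (ha1 : a ≤ 1) (hb : 0 ≤ b) (hb1 : b ≤ 1) :
    (a * q + b * p) ^ 4 ≤ 8 * (p ^ 4 + q ^ 4) := by
  have h := add_pow_le (abs_nonneg (a * q)) (abs_nonneg (b * p)) 4
  have h1 : |a * q| ^ 4 ≤ q ^ 4 := by
    rw [pow4_abs, mul_pow]
    exact mul_le_of_le_one_left (pow4_nonneg q) (pow_le_one₀ ha ha1)
  have h2 : |b * p| ^ 4 ≤ p ^ 4 := by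
    rw [pow4_abs, mul_pow]
    exact mul_le_of_le_one_left (pow4_nonneg p) (pow_le_one₀ hb hb1)
  have h3 : (a * q + b * p) ^ 4 ≤ (|a * q| + |b * p|) ^ 4 := by
    rw [← pow4_abs]; exact pow_le_pow_left₀ (abs_nonneg _) (abs_add_le _ _) 4
  norm_num [-abs_mul] at h
  linarith

/-- The product cut-off. -/
noncomputable def zcut (ρ R : ℝ) (x : Fin n → ℝ) : ℝ := inner' ρ x * outer' R x

/-- The annulus carrying it. -/
def annulus (n : ℕ) (ρ R : ℝ) : Set (Fin n → ℝ) := {x | ρ ^ 2 ≤ sqn x ∧ sqn x ≤ 2 * R ^ 2}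

theorem zcut_props {ρ R : ℝ} (hρ : 0 < ρ) (hR : 0 < R) :
    IsCompact (annulus n ρ R) ∧ annulus n ρ R ⊆ punctured n ∧
      (∀ x ∉ annulus n ρ R, zcut ρ R x = 0) ∧ ContDiff ℝ 1 (zcut (n := n) ρ R) ∧
      ∀ x : Fin n → ℝ, 0 ≤ zcut ρ R x ∧ zcut ρ R x ≤ 1 := by
  refine ⟨?_, fun x hx h0 => ?_, fun x hx => ?_, (contDiff_inner' ρ).mul (contDiff_outer' R),
    fun x => ⟨mul_nonneg (Real.smoothTransition.nonneg _) (Real.smoothTransition.nonneg _),
      mul_le_one₀ (Real.smoothTransition.le_one _) (Real.smoothTransition.nonneg _)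
        (Real.smoothTransition.le_one _)⟩⟩
  · refine (isCompact_Icc (a := fun _ : Fin n => -(2 * R)) (b := fun _ => 2 * R)).of_isClosed_subset
      ((isClosed_le continuous_const contDiff_sqn.continuous).inter
        (isClosed_le contDiff_sqn.continuous continuous_const)) fun x hx => ?_
    have h := fun i => abs_le.1 (abs_le_of_sqn_le (by linarith : (0 : ℝ) ≤ 2 * R)
      (by nlinarith [hx.2] : sqn x ≤ (2 * R) ^ 2) i)
    exact ⟨fun i => (h i).1, fun i => (h i).2⟩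
  · have : sqn x = 0 := by rw [Set.mem_singleton_iff.1 h0]; simp [sqn]
    nlinarith [hx.1, this, pow_pos hρ 2]
  · rcases not_and_or.1 hx with h | h
    · have : inner' ρ x = 0 := Real.smoothTransition.zero_of_nonpos (by
        rw [sub_nonpos, div_le_one (by positivity)]; linarith)
      simp [zcut, this]
    · have : outer' R x = 0 := Real.smoothTransition.zero_of_nonpos (by
        rw [sub_nonpos, le_div_iff₀ (by positivity)]; linarith)
      simp [zcut, this]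

/-- The right-hand side of the first step, for the product cut-off. -/
theorem second_step {θ C B T e c : ℝ} (hθ1 : θ < 1) (hC : 0 ≤ C) (hT0 : 0 ≤ T)
    (hT : ∀ t, |deriv Real.smoothTransition t| ≤ T)
    (hy : ∀ x y : ℝ, 0 ≤ x → 0 ≤ y → x ^ θ * y ^ (1 - θ) ≤ e * x + c * y) (hc : 0 ≤ c)
    {M : ℕ} (hM : 5 ≤ M) (hMk : 4 / (1 - θ) ≤ (M : ℝ))
    {F W : (Fin n → ℝ) → ℝ} (hF : ContinuousOn F (punctured n))
    (hW : ContinuousOn W (punctured n)) (hF0 : ∀ x ∈ punctured n, 0 ≤ F x)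
    (hW0 : ∀ x ∈ punctured n, 0 ≤ W x) (hWB : ∀ x ∈ punctured n, sqn x ≤ 4 → W x ≤ B)
    (hWF : ∀ x ∈ punctured n, W x ≤ C * F x ^ θ) {ρ R : ℝ} (hρ : 0 < ρ) (hρ1 : ρ ≤ 1)
    (hR : 0 < R) (i : Fin n) :
    ∫ x, zcut ρ R x ^ (M - 4) * pd i (zcut ρ R) x ^ 4 * W x ≤
      8 * ((4 * T / ρ) ^ 4 * |B| * (4 * ρ) ^ n) +
        8 * C * (e * (∫ x, zcut ρ R x ^ M * F x) +
          c * ((4 * T / R) ^ (4 / (1 - θ)) * (4 * R) ^ n)) := by
  obtain ⟨hKc, hKΩ, hzK, hz, hz01⟩ := zcut_props (n := n) hρ hR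
  set K := annulus n ρ R with hK
  set k := 4 / (1 - θ) with hk
  have hk0 : 0 ≤ k := div_nonneg (by norm_num) (sub_nonneg.2 hθ1.le)
  have hpa := fun x => pd_inner'_bound (n := n) hT0 hT hρ x i
  have hpb := fun x => pd_outer'_bound (n := n) hT0 hT hR x i
  have hpdz : ∀ x, pd i (zcut ρ R) x =
      inner' ρ x * pd i (outer' R) x + outer' R x * pd i (inner' ρ) x := fun x => by
    simp [pd, fderiv_fun_mul (((contDiff_inner' (n := n) ρ).differentiable one_ne_zero) x)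
      (((contDiff_outer' (n := n) R).differentiable one_ne_zero) x),
      show zcut (n := n) ρ R = fun y => inner' ρ y * outer' R y from rfl]
  have h0 : ∀ j : ℕ, 0 < j → ∀ x ∉ K, zcut ρ R x ^ j = 0 := fun j hj x hx => by
    rw [hzK x hx, zero_pow (by omega)]
  set P := fun x => zcut ρ R x ^ (M - 4) * pd i (inner' ρ) x ^ 4 * W x with hP
  set Q := K.indicator fun y => |pd i (outer' R) y| ^ k with hQ
  have iF : Integrable fun x => zcut ρ R x ^ M * F x :=
    integrable_of_zero_off ((hz.continuous.pow M).continuousOn.mul hF) hKc hKΩ fun x hx => by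
      rw [h0 M (by omega) x hx, zero_mul]
  have iP : Integrable P := integrable_of_zero_off
    (((hz.continuous.pow (M - 4)).continuousOn.mul
      ((Vale.Agent.P252.continuous_pd (contDiff_inner' ρ) i).pow 4).continuousOn).mul hW) hKc hKΩ
    fun x hx => by simp [hP, h0 _ (by omega : 0 < M - 4) x hx]
  have iQ : Integrable Q :=
    ((((Vale.Agent.P252.continuous_pd (contDiff_outer' R) i).abs).rpow_const
      fun _ => Or.inr hk0).continuousOn.integrableOn_compact hKc).integrable_indicator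
      hKc.measurableSet
  have iW : Integrable fun x => zcut ρ R x ^ (M - 4) * pd i (zcut ρ R) x ^ 4 * W x :=
    integrable_of_zero_off (((hz.continuous.pow (M - 4)).continuousOn.mul
      ((Vale.Agent.P252.continuous_pd hz i).pow 4).continuousOn).mul hW) hKc hKΩ
      fun x hx => by rw [h0 _ (by omega : 0 < M - 4) x hx, zero_mul, zero_mul]
  have hpt : ∀ x, zcut ρ R x ^ (M - 4) * pd i (zcut ρ R) x ^ 4 * W x ≤
      8 * P x + 8 * C * (e * (zcut ρ R x ^ M * F x) + c * Q x) := by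
    intro x
    by_cases hx : x ∈ K
    · have hxΩ := hKΩ hx
      obtain ⟨hz0, hz1⟩ := hz01 x
      have h9 := outer_pointwise hθ1 hC hy hM hMk (s := pd i (outer' R) x) hz0 hz1 (hF0 x hxΩ)
        (hWF x hxΩ)
      have h10 := mul_le_mul_of_nonneg_left
        (fourth_of_product (p := pd i (inner' ρ) x) (q := pd i (outer' R) x)
          (Real.smoothTransition.nonneg (sqn x / ρ ^ 2 - 1)) (Real.smoothTransition.le_one _)
          (Real.smoothTransition.nonneg (2 - sqn x / R ^ 2)) (Real.smoothTransition.le_one _))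
        (mul_nonneg (pow_nonneg hz0 (M - 4)) (hW0 x hxΩ))
      rw [hpdz]
      simp only [hP, hQ, Set.indicator_of_mem hx]
      simp only [inner', outer'] at h10 h9 ⊢
      linarith
    · simp [hP, hQ, Set.indicator_of_notMem hx, h0 _ (by omega : 0 < M - 4) x hx,
        h0 M (by omega) x hx]
  have hPle : ∫ x, P x ≤ (4 * T / ρ) ^ 4 * |B| * (4 * ρ) ^ n := by
    refine integral_le_box hρ (fun x hx => ?_) (by positivity) (fun x hx => ?_) iP
    · simp only [hP]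
      by_cases hxK : x ∈ K
      · have h1 : pd i (inner' ρ) x ^ 4 ≤ (4 * T / ρ) ^ 4 := by
          rw [← pow4_abs]; exact pow_le_pow_left₀ (abs_nonneg _) (hpa x).1 4
        have h2 : W x ≤ |B| := (hWB x (hKΩ hxK) (by nlinarith)).trans (le_abs_self B)
        calc zcut ρ R x ^ (M - 4) * pd i (inner' ρ) x ^ 4 * W x
            ≤ 1 * (4 * T / ρ) ^ 4 * |B| :=
              mul_le_mul (mul_le_mul (pow_le_one₀ (hz01 x).1 (hz01 x).2) h1 (pow4_nonneg _)
                zero_le_one) h2 (hW0 x (hKΩ hxK)) (by positivity)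
          _ = _ := by ring
      · simp [h0 _ (by omega : 0 < M - 4) x hxK]; positivity
    · simp [hP, (hpa x).2 (by linarith)]
  have hQle : ∫ x, Q x ≤ (4 * T / R) ^ k * (4 * R) ^ n := by
    refine integral_le_box hR (fun x _ => ?_) (by positivity) (fun x hx => ?_) iQ
    · simp only [hQ]
      by_cases hxK : x ∈ K
      · rw [Set.indicator_of_mem hxK]
        exact Real.rpow_le_rpow (abs_nonneg _) (hpb x).1 hk0
      · rw [Set.indicator_of_notMem hxK]; positivity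
    · simp only [hQ]
      refine Set.indicator_of_notMem (fun h => ?_) _
      nlinarith [h.2]
  have h : ∫ x, zcut ρ R x ^ (M - 4) * pd i (zcut ρ R) x ^ 4 * W x ≤
      ∫ x, (8 * P x + 8 * C * (e * (zcut ρ R x ^ M * F x) + c * Q x)) :=
    integral_mono iW ((iP.const_mul 8).add
      (((iF.const_mul e).add (iQ.const_mul c)).const_mul (8 * C))) hpt
  have iG : Integrable fun x => 8 * C * (e * (zcut ρ R x ^ M * F x) + c * Q x) :=
    ((iF.const_mul e).add (iQ.const_mul c)).const_mul (8 * C)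
  rw [integral_add (iP.const_mul 8) iG, integral_const_mul,
    integral_const_mul, integral_add (iF.const_mul e) (iQ.const_mul c), integral_const_mul,
    integral_const_mul] at h
  exact h.trans (add_le_add (mul_le_mul_of_nonneg_left hPle (by norm_num))
    (mul_le_mul_of_nonneg_left (add_le_add le_rfl (mul_le_mul_of_nonneg_left hQle hc))
      (by positivity)))

/-- Both steps together. -/
theorem key_bound (hn : 4 < n) {θ δ C B : ℝ} (hθ0 : 0 ≤ θ) (hθ1 : θ < 1) (hδ : 0 < δ)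
    (hC : 0 ≤ C) {F W D : (Fin n → ℝ) → ℝ} {X : Fin n → (Fin n → ℝ) → ℝ}
    (hF : ContinuousOn F (punctured n)) (hW : ContinuousOn W (punctured n))
    (hD : ContinuousOn D (punctured n)) (hX : ∀ i, ContinuousOn (X i) (punctured n))
    (hF0 : ∀ x ∈ punctured n, 0 ≤ F x) (hW0 : ∀ x ∈ punctured n, 0 ≤ W x)
    (hWB : ∀ x ∈ punctured n, sqn x ≤ 4 → W x ≤ B)
    (hWF : ∀ x ∈ punctured n, W x ≤ C * F x ^ θ)
    (hXF : ∀ x ∈ punctured n, ∀ i, X i x ^ 4 ≤ C * (F x ^ 3 * W x))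
    (hDF : ∀ x ∈ punctured n, δ * F x ≤ D x)
    (hdiv : ∀ η : (Fin n → ℝ) → ℝ, ContDiff ℝ 1 η → HasCompactSupport η →
      tsupport η ⊆ punctured n → ∫ x, (η x * D x + ∑ i, pd i η x * X i x) = 0) :
    ∃ (M : ℕ) (A₁ A₂ : ℝ), 0 < M ∧ ∀ ρ R : ℝ, 0 < ρ → ρ ≤ 1 → 0 < R →
      ∫ x, zcut ρ R x ^ M * F x ≤ A₁ * ρ ^ (n - 4) + A₂ * R ^ ((n : ℝ) - 4 / (1 - θ)) := by
  obtain ⟨T, hT0, hT⟩ := deriv_transition_bdd
  set k : ℝ := 4 / (1 - θ) with hk_def
  set M : ℕ := ⌈k⌉₊ + 5 with hM_def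
  have hMk : k ≤ (M : ℝ) := by rw [hM_def]; push_cast; linarith [Nat.le_ceil k]
  have hM0 : (0 : ℝ) < M := by rw [hM_def]; positivity
  have hn0 : (0 : ℝ) < n := by exact_mod_cast (show 0 < n by omega)
  set e : ℝ := δ / (2 * (M : ℝ) * n) with he_def
  have he : 0 < e := by positivity
  set C₁ : ℝ := 2 * M / δ * ((e ^ 3)⁻¹ * C) with hC₁_def
  have hC₁ : 0 ≤ C₁ := by positivity
  set e₂ : ℝ := 1 / (2 * (8 * C₁ * C * n) + 1) with he₂_def
  obtain ⟨c₂, hc₂, hy₂⟩ := theta_young hθ0 hθ1 (show 0 < e₂ by positivity)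
  refine ⟨M, 2 * (8 * C₁ * n) * ((4 * T) ^ 4 * |B| * (4 : ℝ) ^ n),
    2 * (8 * C₁ * C * n) * c₂ * ((4 * T) ^ k * (4 : ℝ) ^ n), by omega,
    fun ρ R hρ hρ1 hR => ?_⟩
  obtain ⟨hKc, hKΩ, hzK, hz, hz01⟩ := zcut_props (n := n) hρ hR
  set I := ∫ x, zcut (n := n) ρ R x ^ M * F x with hI
  set J := ∑ i, ∫ x, zcut (n := n) ρ R x ^ (M - 4) * pd i (zcut ρ R) x ^ 4 * W x with hJ
  have h1 : δ * I ≤ M * (n * e * I + (e ^ 3)⁻¹ * C * J) :=
    first_step hKc hKΩ hC he (by omega) hF hW hD hX hF0 hW0 hXF hDF hdiv hz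
      (fun x => (hz01 x).1) hzK
  have hMe : (M : ℝ) * (n * e * I) = δ / 2 * I := by rw [he_def]; field_simp
  have hIJ : I ≤ C₁ * J := by
    have h4 : δ / 2 * I ≤ M * ((e ^ 3)⁻¹ * C * J) := by rw [mul_add] at h1; linarith
    calc I = 2 / δ * (δ / 2 * I) := by field_simp
      _ ≤ 2 / δ * (M * ((e ^ 3)⁻¹ * C * J)) := mul_le_mul_of_nonneg_left h4 (by positivity)
      _ = C₁ * J := by rw [hC₁_def]; ring
  have hJle : J ≤ n * (8 * ((4 * T / ρ) ^ 4 * |B| * (4 * ρ) ^ n) +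
      8 * C * (e₂ * I + c₂ * ((4 * T / R) ^ k * (4 * R) ^ n))) := by
    refine (Finset.sum_le_sum fun i _ => second_step hθ1 hC hT0 hT hy₂ hc₂ (by omega) hMk hF hW
      hF0 hW0 hWB hWF hρ hρ1 hR i).trans_eq ?_
    simp [hI, hk_def, mul_add]
  have hI0 : 0 ≤ I := integral_nonneg fun x => by
    by_cases hx : x ∈ annulus n ρ R
    · exact mul_nonneg (pow_nonneg (hz01 x).1 _) (hF0 x (hKΩ hx))
    · simp [hzK x hx, hM_def]
  have h5 : 8 * C₁ * C * n * e₂ * I ≤ I / 2 := by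
    have hpos : 0 ≤ 8 * C₁ * C * n := by positivity
    have : 8 * C₁ * C * n * e₂ ≤ 1 / 2 := by
      rw [he₂_def, mul_one_div, div_le_iff₀ (by positivity)]; linarith
    nlinarith [mul_le_mul_of_nonneg_right this hI0]
  have h6 := hIJ.trans (mul_le_mul_of_nonneg_left hJle hC₁)
  have e1 : (4 * T / ρ) ^ 4 * |B| * (4 * ρ) ^ n
      = (4 * T) ^ 4 * |B| * (4 : ℝ) ^ n * ρ ^ (n - 4) := by
    rw [div_pow, mul_pow (4 : ℝ) ρ, show ρ ^ n = ρ ^ 4 * ρ ^ (n - 4) by
      rw [← pow_add]; congr 1; omega]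
    field_simp
  have e2 : (4 * T / R) ^ k * (4 * R) ^ n
      = (4 * T) ^ k * (4 : ℝ) ^ n * R ^ ((n : ℝ) - k) := by
    rw [Real.div_rpow (by positivity) hR.le, mul_pow (4 : ℝ) R, Real.rpow_sub hR,
      Real.rpow_natCast]
    ring
  rw [e1, e2] at h6
  linarith [h6, h5]

/-- **Nonexistence from a divergence certificate.** -/
theorem no_certificate (hn : 4 < n) {θ δ C B : ℝ} (hθ0 : 0 ≤ θ) (hθ1 : θ < 1)
    (hk : (n : ℝ) * (1 - θ) < 4) (hδ : 0 < δ) (hC : 0 ≤ C)
    {F W D : (Fin n → ℝ) → ℝ} {X : Fin n → (Fin n → ℝ) → ℝ}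
    (hF : ContinuousOn F (punctured n)) (hW : ContinuousOn W (punctured n))
    (hD : ContinuousOn D (punctured n)) (hX : ∀ i, ContinuousOn (X i) (punctured n))
    (hF0 : ∀ x ∈ punctured n, 0 ≤ F x) (hW0 : ∀ x ∈ punctured n, 0 ≤ W x)
    (hWB : ∀ x ∈ punctured n, sqn x ≤ 4 → W x ≤ B)
    (hWF : ∀ x ∈ punctured n, W x ≤ C * F x ^ θ)
    (hXF : ∀ x ∈ punctured n, ∀ i, X i x ^ 4 ≤ C * (F x ^ 3 * W x))
    (hDF : ∀ x ∈ punctured n, δ * F x ≤ D x)
    (hdiv : ∀ η : (Fin n → ℝ) → ℝ, ContDiff ℝ 1 η → HasCompactSupport η →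
      tsupport η ⊆ punctured n → ∫ x, (η x * D x + ∑ i, pd i η x * X i x) = 0) :
    ∀ x ∈ punctured n, F x = 0 := by
  intro x₀ hx₀
  by_contra hne
  have hFx : 0 < F x₀ := (hF0 x₀ hx₀).lt_of_ne (Ne.symm hne)
  obtain ⟨M, A₁, A₂, hM, key⟩ :=
    key_bound hn hθ0 hθ1 hδ hC hF hW hD hX hF0 hW0 hWB hWF hXF hDF hdiv
  set k : ℝ := 4 / (1 - θ) with hk_def
  have hnk : (n : ℝ) < k := by rw [hk_def, lt_div_iff₀ (sub_pos.2 hθ1)]; exact hk
  obtain ⟨d, hd, hdF⟩ := Metric.continuousAt_iff.1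
    (hF.continuousAt (isOpen_punctured.mem_nhds hx₀)) (F x₀ / 2) (by linarith)
  have hs0 := sqn_pos hx₀
  obtain ⟨d', hd', hds⟩ := Metric.continuousAt_iff.1
    ((contDiff_sqn (n := n)).continuous.continuousAt (x := x₀)) (sqn x₀ / 2) (by linarith)
  obtain ⟨d'', hd'', hdΩ⟩ := Metric.isOpen_iff.1 isOpen_punctured x₀ hx₀
  set r := min d (min d' d'') / 2 with hr_def
  have hr : 0 < r := by positivity
  set U := Metric.closedBall x₀ r with hU_def
  have hUb : ∀ x ∈ U, dist x x₀ < d ∧ dist x x₀ < d' ∧ dist x x₀ < d'' := fun x hx => by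
    have h : dist x x₀ ≤ min d (min d' d'') / 2 := Metric.mem_closedBall.1 hx
    have := min_le_left d (min d' d'')
    have := min_le_right d (min d' d'')
    have := min_le_left d' d''
    have := min_le_right d' d''
    refine ⟨?_, ?_, ?_⟩ <;> linarith
  have hUvol : 0 < (volume U).toReal :=
    ENNReal.toReal_pos (Metric.measure_closedBall_pos volume x₀ hr).ne'
      (isCompact_closedBall x₀ r).measure_lt_top.ne
  set m := F x₀ / 2 * (volume U).toReal with hm_def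
  have hm : 0 < m := by positivity
  have l1 : Tendsto (fun ρ : ℝ => A₁ * ρ ^ (n - 4)) (𝓝[>] 0) (𝓝 0) := by
    have : Tendsto (fun ρ : ℝ => A₁ * ρ ^ (n - 4)) (𝓝 0) (𝓝 (A₁ * 0 ^ (n - 4))) :=
      (continuous_const.mul (continuous_pow _)).tendsto 0
    rw [zero_pow (by omega), mul_zero] at this
    exact this.mono_left nhdsWithin_le_nhds
  have l2 : Tendsto (fun R : ℝ => A₂ * R ^ ((n : ℝ) - k)) atTop (𝓝 0) := by
    have := (tendsto_rpow_neg_atTop (show 0 < k - n by linarith)).const_mul A₂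
    simpa [neg_sub] using this
  have l3 : Tendsto (fun ρ : ℝ => 4 * ρ ^ 2) (𝓝[>] 0) (𝓝 0) := by
    have : Tendsto (fun ρ : ℝ => 4 * ρ ^ 2) (𝓝 0) (𝓝 0) := by
      simpa [Pi.mul_apply] using (((continuous_pow 2 : Continuous fun a : ℝ => a ^ 2)).const_mul (4:ℝ)).tendsto 0
    exact this.mono_left nhdsWithin_le_nhds
  obtain ⟨ρ, hρm, hρ0, hρ1, hρs⟩ := ((l1.eventually (eventually_lt_nhds (half_pos hm))).and
    ((eventually_mem_nhdsWithin (s := Ioi (0:ℝ))).and
      ((eventually_nhdsWithin_of_eventually_nhds (eventually_le_nhds zero_lt_one)).and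
        (l3.eventually (eventually_lt_nhds hs0))))).exists
  obtain ⟨R, hRm, hR0, hRs⟩ := ((l2.eventually (eventually_lt_nhds (half_pos hm))).and
    ((eventually_gt_atTop 0).and (((tendsto_pow_atTop two_ne_zero).eventually
      (eventually_ge_atTop (2 * sqn x₀)))))).exists
  obtain ⟨hKc, hKΩ, hzK, hz, hz01⟩ := zcut_props (n := n) hρ0 hR0
  have hone : ∀ x ∈ U, zcut ρ R x = 1 := fun x hx => by
    have h := abs_lt.1 (by simpa [Real.dist_eq] using hds (hUb x hx).2.1)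
    have hρ0' : 0 < ρ ^ 2 := pow_pos hρ0 2
    have e1 : inner' ρ x = 1 := Real.smoothTransition.one_of_one_le (by
      rw [le_sub_iff_add_le, le_div_iff₀ hρ0']; linarith)
    have e2 : outer' R x = 1 := Real.smoothTransition.one_of_one_le (by
      rw [le_sub_iff_add_le, ← le_sub_iff_add_le', div_le_iff₀ (by positivity)]; linarith)
    rw [zcut, e1, e2, one_mul]
  have hint : Integrable fun x => zcut ρ R x ^ M * F x :=
    integrable_of_zero_off ((hz.continuous.pow M).continuousOn.mul hF) hKc hKΩ fun x hx => by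
      rw [hzK x hx, zero_pow (by omega), zero_mul]
  have hnn : ∀ x, 0 ≤ zcut ρ R x ^ M * F x := fun x => by
    by_cases hx : x ∈ annulus n ρ R
    · exact mul_nonneg (pow_nonneg (hz01 x).1 _) (hF0 x (hKΩ hx))
    · rw [hzK x hx, zero_pow (by omega), zero_mul]
  have hlow : m ≤ ∫ x, zcut ρ R x ^ M * F x := by
    calc m = ∫ _ in U, F x₀ / 2 := by
          rw [setIntegral_const, smul_eq_mul, Measure.real, hm_def, mul_comm]
      _ ≤ ∫ x in U, zcut ρ R x ^ M * F x := by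
          refine setIntegral_mono_on
            (integrableOn_const (isCompact_closedBall x₀ r).measure_lt_top.ne)
            hint.integrableOn measurableSet_closedBall fun x hx => ?_
          rw [hone x hx, one_pow, one_mul]
          have := abs_lt.1 (by simpa [Real.dist_eq] using hdF (hUb x hx).1)
          linarith
      _ ≤ _ := setIntegral_le_integral hint (Eventually.of_forall hnn)
  have := key ρ R hρ0 hρ1 hR0
  linarith

end Vale.Agent.P100
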