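import Mathlib

/-!
# P100: the pointwise expression of a certificate

At a point of a solution put `a = Du/u`, `b = Dv/v`, `P = D²u/u`, `Q = D²v/v`, `s = v^p/u`,
`t = u^q/v`, so that `tr P = -s` and `tr Q = -t`. A certificate is a combination of fourteen
fields `W Y`, `W = u^A v^B`; `jetDiv` is its divergence divided by `W`.
-/

namespace Vale.Agent.P100

variable {n : ℕ}

/-- The dot product. -/
def dotv (x y : Fin n → ℝ) : ℝ := ∑ i, x i * y i

/-- The product of a matrix and a vector. -/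
def matv (P : Fin n → Fin n → ℝ) (x : Fin n → ℝ) (i : Fin n) : ℝ := ∑ j, P i j * x j

/-- The Frobenius product. -/
def dotm (P Q : Fin n → Fin n → ℝ) : ℝ := ∑ i, ∑ j, P i j * Q i j

/-- The quantity controlled by a certificate. -/
def energy (a b : Fin n → ℝ) (P Q : Fin n → Fin n → ℝ) (s t : ℝ) : ℝ :=
  dotm P P + dotm Q Q + dotv a a ^ 2 + dotv b b ^ 2 + s ^ 2 + t ^ 2

/-- The fourteen fields: `f w` for `f = |a|², |b|², a·b, s, t` and `w = a, b`, then
`P a, P b, Q a, Q b`. -/
def jetField (a b : Fin n → ℝ) (P Q : Fin n → Fin n → ℝ) (s t : ℝ) (i : Fin n) : Fin 14 → ℝ :=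
  ![dotv a a * a i, dotv a a * b i, dotv b b * a i, dotv b b * b i, dotv a b * a i,
    dotv a b * b i, s * a i, s * b i, t * a i, t * b i,
    matv P a i, matv P b i, matv Q a i, matv Q b i]

/-- Divergence over `W` of `W f w`, given `∇f` and `div w`. -/
def divFW (A B : ℝ) (a b : Fin n → ℝ) (f : ℝ) (df w : Fin n → ℝ) (dw : ℝ) : ℝ :=
  f * (A * dotv a w + B * dotv b w) + dotv df w + f * dw

/-- The divergences over `W` of the fourteen fields. -/
def jetDivs (p q A B : ℝ) (a b : Fin n → ℝ) (P Q : Fin n → Fin n → ℝ) (s t : ℝ) : Fin 14 → ℝ :=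
  let da : ℝ := -s - dotv a a
  let db : ℝ := -t - dotv b b
  let g1 : Fin n → ℝ := fun i => 2 * (matv P a i - dotv a a * a i)
  let g2 : Fin n → ℝ := fun i => 2 * (matv Q b i - dotv b b * b i)
  let g3 : Fin n → ℝ := fun i => matv P b i + matv Q a i - dotv a b * (a i + b i)
  let g4 : Fin n → ℝ := fun i => s * (p * b i - a i)
  let g5 : Fin n → ℝ := fun i => t * (q * a i - b i)
  ![divFW A B a b (dotv a a) g1 a da, divFW A B a b (dotv a a) g1 b db,
    divFW A B a b (dotv b b) g2 a da, divFW A B a b (dotv b b) g2 b db,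
    divFW A B a b (dotv a b) g3 a da, divFW A B a b (dotv a b) g3 b db,
    divFW A B a b s g4 a da, divFW A B a b s g4 b db,
    divFW A B a b t g5 a da, divFW A B a b t g5 b db,
    dotm P P + (A - 2) * dotv a (matv P a) + B * dotv b (matv P a) - p * (s * dotv b a),
    dotm P Q + (A - 1) * dotv a (matv P b) + (B - 1) * dotv b (matv P b) - p * (s * dotv b b),
    dotm Q P + (A - 1) * dotv a (matv Q a) + (B - 1) * dotv b (matv Q a) - q * (t * dotv a a),
    dotm Q Q + A * dotv a (matv Q b) + (B - 2) * dotv b (matv Q b) - q * (t * dotv a b)]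

/-- The divergence over `W` of the field with coefficients `c`. -/
def jetDiv (p q A B : ℝ) (c : Fin 14 → ℝ) (a b : Fin n → ℝ) (P Q : Fin n → Fin n → ℝ)
    (s t : ℝ) : ℝ :=
  ∑ k, c k * jetDivs p q A B a b P Q s t k

/-- The certificate condition. -/
def IsCert (n : ℕ) (p q A B δ : ℝ) (c : Fin 14 → ℝ) : Prop :=
  ∀ (a b : Fin n → ℝ) (P Q : Fin n → Fin n → ℝ) (s t : ℝ),
    (∀ i j, P i j = P j i) → (∀ i j, Q i j = Q j i) → ∑ i, P i i = -s → ∑ i, Q i i = -t →
    0 < s → 0 < t → δ * energy a b P Q s t ≤ jetDiv p q A B c a b P Q s t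

end Vale.Agent.P100
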