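import Vale.Agent.P100.Weak
import Vale.Agent.P100.Jet

/-!
# P100: weak divergence identities for the fields of a certificate along a solution

For a positive solution of `-Δu = v^p`, `-Δv = u^q` off the origin, of class `C²`, each of the
fourteen fields `W Y` has weak divergence `W` times the expression `jetDivs`.
-/

namespace Vale.Agent.P100

open Set Filter Topology MeasureTheory
open Vale.Agent.P252 (pd continuous_pd)

variable {n : ℕ} {p q A B : ℝ} {u v : (Fin n → ℝ) → ℝ}

/-- A positive entire solution of the Lane–Emden system. -/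
structure IsSol (p q : ℝ) (u v : (Fin n → ℝ) → ℝ) : Prop where
  smooth_u : ContDiffOn ℝ 2 u (punctured n)
  smooth_v : ContDiffOn ℝ 2 v (punctured n)
  cont_u : Continuous u
  cont_v : Continuous v
  pos_u : ∀ x, 0 < u x
  pos_v : ∀ x, 0 < v x
  eq_u : ∀ x ∈ punctured n, lap u x = -(v x ^ p)
  eq_v : ∀ x ∈ punctured n, lap v x = -(u x ^ q)

/-- `Du / u`. -/
noncomputable def ja (u : (Fin n → ℝ) → ℝ) (x : Fin n → ℝ) (i : Fin n) : ℝ := pd i u x / u x

/-- `D²u / u`. -/
noncomputable def jP (u : (Fin n → ℝ) → ℝ) (x : Fin n → ℝ) (i j : Fin n) : ℝ :=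
  pd i (pd j u) x / u x

/-- `v ^ p / u`. -/
noncomputable def js (p : ℝ) (u v : (Fin n → ℝ) → ℝ) (x : Fin n → ℝ) : ℝ := v x ^ p / u x

/-- The weight `u ^ A * v ^ B`. -/
noncomputable def wt (A B : ℝ) (u v : (Fin n → ℝ) → ℝ) (x : Fin n → ℝ) : ℝ := u x ^ A * v x ^ B

/-- The `k`th field along `(u, v)`. -/
noncomputable def solField (p q A B : ℝ) (u v : (Fin n → ℝ) → ℝ) (k : Fin 14) (i : Fin n)
    (x : Fin n → ℝ) : ℝ :=
  wt A B u v x * jetField (ja u x) (ja v x) (jP u x) (jP v x) (js p u v x) (js q v u x) i k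

/-- Its weak divergence. -/
noncomputable def solDiv (p q A B : ℝ) (u v : (Fin n → ℝ) → ℝ) (k : Fin 14)
    (x : Fin n → ℝ) : ℝ :=
  wt A B u v x * jetDivs p q A B (ja u x) (ja v x) (jP u x) (jP v x) (js p u v x) (js q v u x) k

theorem diffAt {f : (Fin n → ℝ) → ℝ} (hf : ContDiffOn ℝ 1 f (punctured n)) {x : Fin n → ℝ}
    (hx : x ∈ punctured n) : DifferentiableAt ℝ f x :=
  (hf.contDiffAt (isOpen_punctured.mem_nhds hx)).differentiableAt one_ne_zero

theorem pd_div_at {f g : (Fin n → ℝ) → ℝ} {x : Fin n → ℝ} (hf : DifferentiableAt ℝ f x)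
    (hg : DifferentiableAt ℝ g x) (h : g x ≠ 0) (i : Fin n) :
    pd i (fun y => f y / g y) x = pd i f x / g x - f x / g x * (pd i g x / g x) := by
  have hd : DifferentiableAt ℝ (fun y => f y / g y) x := by simpa only [div_eq_mul_inv, Pi.inv_apply] using hf.fun_mul (hg.inv h)
  have he : (fun y => f y / g y * g y) =ᶠ[𝓝 x] f := by
    filter_upwards [hg.continuousAt.eventually_ne h] with y hy
    field_simp
  rw [(pd_congr_at he i).symm.trans (pd_mul_at hd hg i)]
  field_simp
  ring

theorem pd_rpow_at {f : (Fin n → ℝ) → ℝ} {x : Fin n → ℝ} (hf : DifferentiableAt ℝ f x)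
    (h : 0 < f x) (r : ℝ) (i : Fin n) :
    pd i (fun y => f y ^ r) x = f x ^ r * (r * (pd i f x / f x)) := by
  simp only [pd]
  rw [(hf.hasFDerivAt.rpow_const (p := r) (Or.inl h.ne')).fderiv, Real.rpow_sub_one h.ne']
  simp
  field_simp

theorem dotv_lin (α β : ℝ) (a b y : Fin n → ℝ) :
    dotv (fun i => α * a i + β * b i) y = α * dotv a y + β * dotv b y := by
  simp only [dotv, Finset.mul_sum, ← Finset.sum_add_distrib]
  exact Finset.sum_congr rfl fun i _ => by ring

/-- A field with continuous weak divergence on the punctured space. -/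
structure GoodField (X : Fin n → (Fin n → ℝ) → ℝ) (D : (Fin n → ℝ) → ℝ) : Prop where
  contX : ∀ i, ContinuousOn (X i) (punctured n)
  contD : ContinuousOn D (punctured n)
  weak : ∀ η : (Fin n → ℝ) → ℝ, ContDiff ℝ 1 η → HasCompactSupport η →
    tsupport η ⊆ punctured n → ∫ x, (η x * D x + ∑ i, pd i η x * X i x) = 0

theorem test_integrable {η : (Fin n → ℝ) → ℝ} (hη : ContDiff ℝ 1 η) (hc : HasCompactSupport η)
    (hs : tsupport η ⊆ punctured n) {X : Fin n → (Fin n → ℝ) → ℝ} {D : (Fin n → ℝ) → ℝ}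
    (hX : ∀ i, ContinuousOn (X i) (punctured n)) (hD : ContinuousOn D (punctured n)) :
    Integrable fun x => η x * D x + ∑ i, pd i η x * X i x :=
  integrable_of_zero_off ((hη.continuous.continuousOn.mul hD).add
      (continuousOn_finsetSum _ fun i _ => (continuous_pd hη i).continuousOn.mul (hX i)))
    hc.isCompact hs fun x hx => by
      simp [pd_eq_zero_off hx, image_eq_zero_of_notMem_tsupport hx]

theorem GoodField.congr {X X' : Fin n → (Fin n → ℝ) → ℝ} {D D' : (Fin n → ℝ) → ℝ}
    (h : GoodField X D) (hX : ∀ x ∈ punctured n, ∀ i, X' i x = X i x)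
    (hD : ∀ x ∈ punctured n, D' x = D x) : GoodField X' D' where
  contX i := (h.contX i).congr fun x hx => hX x hx i
  contD := h.contD.congr hD
  weak η hη hc hs := by
    refine (integral_congr_ae (Eventually.of_forall fun x => ?_)).trans (h.weak η hη hc hs)
    by_cases hx : x ∈ tsupport η
    · simp [hD x (hs hx), fun i => hX x (hs hx) i]
    · simp [pd_eq_zero_off hx, image_eq_zero_of_notMem_tsupport hx]

theorem GoodField.combine {ι : Type*} [Fintype ι] {X : ι → Fin n → (Fin n → ℝ) → ℝ}
    {D : ι → (Fin n → ℝ) → ℝ} (h : ∀ k, GoodField (X k) (D k)) (c : ι → ℝ) :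
    GoodField (fun i x => ∑ k, c k * X k i x) (fun x => ∑ k, c k * D k x) where
  contX i := continuousOn_finsetSum _ fun k _ => continuousOn_const.mul ((h k).contX i)
  contD := continuousOn_finsetSum _ fun k _ => continuousOn_const.mul (h k).contD
  weak η hη hc hs := by
    have e : ∀ x, η x * (∑ k, c k * D k x) + ∑ i, pd i η x * (∑ k, c k * X k i x) =
        ∑ k, c k * (η x * D k x + ∑ i, pd i η x * X k i x) := fun x => by
      simp only [Finset.mul_sum, mul_add, Finset.sum_add_distrib]
      rw [Finset.sum_comm (f := fun i k => pd i η x * (c k * X k i x))]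
      congr 1
      · exact Finset.sum_congr rfl fun k _ => by ring
      · exact Finset.sum_congr rfl fun k _ => Finset.sum_congr rfl fun i _ => by ring
    simp only [e]
    rw [integral_finsetSum _ fun k _ =>
      (test_integrable hη hc hs (h k).contX (h k).contD).const_mul (c k)]
    simp [integral_const_mul, (h _).weak η hη hc hs]

/-- A `C¹` field `W f w`. -/
theorem good_fw {W f : (Fin n → ℝ) → ℝ} {w : (Fin n → ℝ) → Fin n → ℝ}
    {ω df : (Fin n → ℝ) → Fin n → ℝ} {dw : (Fin n → ℝ) → ℝ}
    (hW : ContDiffOn ℝ 1 W (punctured n)) (hf : ContDiffOn ℝ 1 f (punctured n))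
    (hw : ∀ i, ContDiffOn ℝ 1 (fun x => w x i) (punctured n))
    (hW' : ∀ x ∈ punctured n, ∀ i, pd i W x = W x * ω x i)
    (hf' : ∀ x ∈ punctured n, ∀ i, pd i f x = df x i)
    (hdw : ∀ x ∈ punctured n, ∑ i, pd i (fun y => w y i) x = dw x) :
    GoodField (fun i x => W x * (f x * w x i))
      (fun x => W x * (f x * dotv (ω x) (w x) + dotv (df x) (w x) + f x * dw x)) := by
  have hY : ∀ i, ContDiffOn ℝ 1 (fun x => W x * (f x * w x i)) (punctured n) := fun i =>
    hW.mul (hf.mul (hw i))
  have hd : ∀ x ∈ punctured n, ∑ i, pd i (fun y => W y * (f y * w y i)) x =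
      W x * (f x * dotv (ω x) (w x) + dotv (df x) (w x) + f x * dw x) := fun x hx => by
    rw [← hdw x hx]
    simp only [dotv, Finset.mul_sum, mul_add, ← Finset.sum_add_distrib]
    refine Finset.sum_congr rfl fun i _ => ?_
    rw [pd_mul_at (diffAt hW hx) (diffAt (hf.mul (hw i)) hx),
      pd_mul_at (diffAt hf hx) (diffAt (hw i) hx), hW' x hx, hf' x hx]
    ring
  refine ⟨fun i => (hY i).continuousOn, ?_, fun η hη hc hs => ?_⟩
  · refine ContinuousOn.congr (continuousOn_finsetSum _ fun i _ => ?_) fun x hx => (hd x hx).symm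
    exact ((hY i).continuousOn_fderiv_of_isOpen isOpen_punctured le_rfl).clm_apply continuousOn_const
  refine (integral_congr_ae (Eventually.of_forall fun x => ?_)).trans
    (weak_div isOpen_punctured hη hc hs hY)
  by_cases hx : x ∈ tsupport η
  · simp [hd x (hs hx)]
  · simp [pd_eq_zero_off hx, image_eq_zero_of_notMem_tsupport hx]

theorem hess_algebra (e φ h : ℝ) (e' φ' h' g' g'' S T : Fin n → ℝ) :
    e * (φ * ∑ i, T i + ∑ i, φ' i * S i - φ * ∑ i, h' i * g' i) + ∑ i, e' i * (φ * S i) =
      (e * φ * ((∑ i, T i) - -h * ∑ i, g'' i) +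
          ∑ i, (e' i * φ + e * φ' i) * (S i - -h * g' i)) -
        (e * (∑ i, (φ' i * h * g' i + φ * h' i * g' i + φ * h * g'' i)) +
          ∑ i, e' i * (φ * h * g' i)) := by
  simp only [Finset.mul_sum, mul_sub, mul_add, ← Finset.sum_sub_distrib, ← Finset.sum_add_distrib]
  exact Finset.sum_congr rfl fun i _ => by ring

/-- The field `φ D²f Dg` when `Δf = -h`. -/
theorem good_hessian {φ f g h : (Fin n → ℝ) → ℝ} (hφ : ContDiffOn ℝ 1 φ (punctured n))
    (hf : ContDiffOn ℝ 2 f (punctured n)) (hg : ContDiffOn ℝ 2 g (punctured n))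
    (hh : ContDiffOn ℝ 1 h (punctured n)) (hl : ∀ x ∈ punctured n, lap f x = -h x) :
    GoodField (fun i x => φ x * ∑ j, pd i (pd j f) x * pd j g x)
      (fun x => φ x * (∑ i, ∑ j, pd i (pd j f) x * pd i (pd j g) x) +
        (∑ i, pd i φ x * ∑ j, pd i (pd j f) x * pd j g x) -
          φ x * ∑ i, pd i h x * pd i g x) := by
  have hO := isOpen_punctured (n := n)
  have c0 : ∀ {k : (Fin n → ℝ) → ℝ}, ContDiffOn ℝ 1 k (punctured n) →
      ∀ i, ContinuousOn (pd i k) (punctured n) := fun hk i =>
    (hk.continuousOn_fderiv_of_isOpen hO le_rfl).clm_apply continuousOn_const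
  have c1 := fun i => (contDiffOn_pd hO hg i).continuousOn
  have cf := fun i j => c0 (contDiffOn_pd hO hf j) i
  have cg := fun i j => c0 (contDiffOn_pd hO hg j) i
  have cX : ∀ i, ContinuousOn (fun x => φ x * ∑ j, pd i (pd j f) x * pd j g x) (punctured n) :=
    fun i => hφ.continuousOn.mul (continuousOn_finsetSum _ fun j _ => (cf i j).mul (c1 j))
  have cD : ContinuousOn (fun x => φ x * (∑ i, ∑ j, pd i (pd j f) x * pd i (pd j g) x) +
        (∑ i, pd i φ x * ∑ j, pd i (pd j f) x * pd j g x) -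
          φ x * ∑ i, pd i h x * pd i g x) (punctured n) :=
    ((hφ.continuousOn.mul (continuousOn_finsetSum _ fun i _ => continuousOn_finsetSum _ fun j _ =>
      (cf i j).mul (cg i j))).add (continuousOn_finsetSum _ fun i _ => (c0 hφ i).mul
        (continuousOn_finsetSum _ fun j _ => (cf i j).mul (c1 j)))).sub
      (hφ.continuousOn.mul (continuousOn_finsetSum _ fun i _ => (c0 hh i).mul (c1 i)))
  refine ⟨cX, cD, fun η hη hc hs => ?_⟩
  have hψ := contDiff_mul_ext hO hη hs hφ
  have hψc : HasCompactSupport fun x => η x * φ x := hc.mul_right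
  have hψs : tsupport (fun x => η x * φ x) ⊆ punctured n :=
    (tsupport_mul_subset_left).trans hs
  have hY : ∀ i, ContDiffOn ℝ 1 (fun x => φ x * h x * pd i g x) (punctured n) := fun i =>
    (hφ.mul hh).mul (contDiffOn_pd hO hg i)
  have e1 := weak_hessian hψ hψc hψs hf hg
  have e2 := weak_div hO hη hc hs hY
  have i1 : Integrable fun x => η x * φ x * ((∑ i, ∑ j, pd i (pd j f) x * pd i (pd j g) x) -
      lap f x * lap g x) + ∑ i, pd i (fun y => η y * φ y) x *
        ((∑ j, pd i (pd j f) x * pd j g x) - lap f x * pd i g x) :=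
    test_integrable hψ hψc hψs
      (fun i => (continuousOn_finsetSum _ fun j _ => (cf i j).mul (c1 j)).sub
        ((continuousOn_finsetSum _ fun j _ => cf j j).mul (c1 i)))
      ((continuousOn_finsetSum _ fun i _ => continuousOn_finsetSum _ fun j _ =>
        (cf i j).mul (cg i j)).sub
        ((continuousOn_finsetSum _ fun j _ => cf j j).mul
          (continuousOn_finsetSum _ fun j _ => cg j j)))
  have i2 : Integrable fun x => η x * (∑ i, pd i (fun y => φ y * h y * pd i g y) x) +
      ∑ i, pd i η x * (φ x * h x * pd i g x) :=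
    test_integrable hη hc hs (fun i => (hY i).continuousOn)
      (continuousOn_finsetSum _ fun i _ => c0 (hY i) i)
  rw [show (0 : ℝ) = 0 - 0 by ring]
  refine Eq.trans ?_ (congrArg₂ (· - ·) e1 e2)
  rw [← integral_sub i1 i2]
  refine integral_congr_ae (Eventually.of_forall fun x => ?_)
  by_cases hx : x ∈ tsupport η
  · have hxΩ := hs hx
    have d1 : ∀ i, pd i (fun y => η y * φ y) x = pd i η x * φ x + η x * pd i φ x :=
      pd_mul_at ((hη.differentiable one_ne_zero) x) (diffAt hφ hxΩ)
    have d2 : ∀ i, pd i (fun y => φ y * h y * pd i g y) x =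
        pd i φ x * h x * pd i g x + φ x * pd i h x * pd i g x + φ x * h x * pd i (pd i g) x :=
      fun i => by
        rw [pd_mul_at ((diffAt hφ hxΩ).fun_mul (diffAt hh hxΩ))
            (diffAt (contDiffOn_pd hO hg i) hxΩ), pd_mul_at (diffAt hφ hxΩ) (diffAt hh hxΩ)]
        ring
    simp only [d1, d2, hl x hxΩ, show lap g x = ∑ i, pd i (pd i g) x from rfl]
    exact hess_algebra (η x) (φ x) (h x) (fun i => pd i η x) (fun i => pd i φ x)
      (fun i => pd i h x) (fun i => pd i g x) (fun i => pd i (pd i g) x)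
      (fun i => ∑ j, pd i (pd j f) x * pd j g x)
      (fun i => ∑ j, pd i (pd j f) x * pd i (pd j g) x)
  · have hx' : x ∉ tsupport fun y => η y * φ y := fun h' => hx (tsupport_mul_subset_left h')
    simp [pd_eq_zero_off hx, pd_eq_zero_off hx', image_eq_zero_of_notMem_tsupport hx]

end Vale.Agent.P100
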