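import Vale.Agent.P100.Fields

/-!
# P100: the fourteen fields along a solution
-/

namespace Vale.Agent.P100

open Set Filter Topology MeasureTheory
open Vale.Agent.P252 (pd)

variable {n : ℕ} {p q A B : ℝ} {u v : (Fin n → ℝ) → ℝ}

theorem contDiffOn_ja {f : (Fin n → ℝ) → ℝ} (hf : ContDiffOn ℝ 2 f (punctured n))
    (hp : ∀ x, 0 < f x) (i : Fin n) : ContDiffOn ℝ 1 (fun x => ja f x i) (punctured n) :=
  (contDiffOn_pd isOpen_punctured hf i).div (hf.of_le one_le_two) fun x _ => (hp x).ne'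

theorem pd_ja {f : (Fin n → ℝ) → ℝ} (hf : ContDiffOn ℝ 2 f (punctured n))
    (hp : ∀ x, 0 < f x) {x : Fin n → ℝ} (hx : x ∈ punctured n) (i j : Fin n) :
    pd i (fun y => ja f y j) x = jP f x i j - ja f x j * ja f x i :=
  pd_div_at (diffAt (contDiffOn_pd isOpen_punctured hf j) hx)
    (diffAt (hf.of_le one_le_two) hx) (hp x).ne' i

theorem div_ja {f : (Fin n → ℝ) → ℝ} (hf : ContDiffOn ℝ 2 f (punctured n))
    (hp : ∀ x, 0 < f x) {h : (Fin n → ℝ) → ℝ} (hl : ∀ x ∈ punctured n, lap f x = -h x)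
    {x : Fin n → ℝ} (hx : x ∈ punctured n) :
    ∑ i, pd i (fun y => ja f y i) x = -(h x / f x) - dotv (ja f x) (ja f x) := by
  simp only [pd_ja hf hp hx, Finset.sum_sub_distrib, dotv, jP, ← Finset.sum_div]
  rw [show (∑ i, pd i (pd i f) x) = -h x from hl x hx, neg_div]

theorem pd_dot {f g : (Fin n → ℝ) → ℝ} (hf : ContDiffOn ℝ 2 f (punctured n))
    (hfp : ∀ x, 0 < f x) (hg : ContDiffOn ℝ 2 g (punctured n)) (hgp : ∀ x, 0 < g x)
    {x : Fin n → ℝ} (hx : x ∈ punctured n) (i : Fin n) :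
    pd i (fun y => dotv (ja f y) (ja g y)) x = matv (jP f x) (ja g x) i +
      matv (jP g x) (ja f x) i - dotv (ja f x) (ja g x) * (ja f x i + ja g x i) := by
  have h1 := fun j => diffAt (contDiffOn_ja hf hfp j) hx
  have h2 := fun j => diffAt (contDiffOn_ja hg hgp j) hx
  have e : pd i (fun y => dotv (ja f y) (ja g y)) x =
      ∑ j, pd i (fun y => ja f y j * ja g y j) x := by
    simp only [pd, dotv]
    rw [fderiv_fun_sum fun j _ => (h1 j).fun_mul (h2 j)]
    simp
  rw [e]
  simp only [pd_mul_at (h1 _) (h2 _), pd_ja hf hfp hx, pd_ja hg hgp hx, matv, dotv,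
    Finset.sum_mul, ← Finset.sum_add_distrib, ← Finset.sum_sub_distrib]
  exact Finset.sum_congr rfl fun j _ => by ring

theorem contDiffOn_js (hu : ContDiffOn ℝ 2 u (punctured n)) (hv : ContDiffOn ℝ 2 v (punctured n))
    (hpu : ∀ x, 0 < u x) (hpv : ∀ x, 0 < v x) :
    ContDiffOn ℝ 1 (js p u v) (punctured n) :=
  ((hv.of_le one_le_two).rpow_const_of_ne fun x _ => (hpv x).ne').div (hu.of_le one_le_two)
    fun x _ => (hpu x).ne'

theorem pd_js (hu : ContDiffOn ℝ 2 u (punctured n)) (hv : ContDiffOn ℝ 2 v (punctured n))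
    (hpu : ∀ x, 0 < u x) (hpv : ∀ x, 0 < v x) {x : Fin n → ℝ} (hx : x ∈ punctured n)
    (i : Fin n) : pd i (js p u v) x = js p u v x * (p * ja v x i - ja u x i) := by
  have h1 := diffAt (hv.of_le one_le_two) hx
  change pd i (fun y => v y ^ p / u y) x = _
  rw [pd_div_at (h1.rpow_const (Or.inl (hpv x).ne')) (diffAt (hu.of_le one_le_two) hx) (hpu x).ne',
    pd_rpow_at h1 (hpv x)]
  simp only [js, ja]
  ring

theorem IsSol.swap (h : IsSol p q u v) : IsSol q p v u :=
  ⟨h.smooth_v, h.smooth_u, h.cont_v, h.cont_u, h.pos_v, h.pos_u, h.eq_v, h.eq_u⟩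

theorem contDiffOn_wt (h : IsSol p q u v) : ContDiffOn ℝ 1 (wt A B u v) (punctured n) :=
  ((h.smooth_u.of_le one_le_two).rpow_const_of_ne fun x _ => (h.pos_u x).ne').mul
    ((h.smooth_v.of_le one_le_two).rpow_const_of_ne fun x _ => (h.pos_v x).ne')

theorem pd_wt (h : IsSol p q u v) {x : Fin n → ℝ} (hx : x ∈ punctured n) (i : Fin n) :
    pd i (wt A B u v) x = wt A B u v x * (A * ja u x i + B * ja v x i) := by
  have h1 := diffAt (h.smooth_u.of_le one_le_two) hx
  have h2 := diffAt (h.smooth_v.of_le one_le_two) hx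
  change pd i (fun y => u y ^ A * v y ^ B) x = _
  rw [pd_mul_at (h1.rpow_const (Or.inl (h.pos_u x).ne'))
      (h2.rpow_const (Or.inl (h.pos_v x).ne')), pd_rpow_at h1 (h.pos_u x),
    pd_rpow_at h2 (h.pos_v x)]
  simp only [wt, ja]
  ring

/-- The field `W (D²f / f) (Dg / g)` with `-Δf = k`, `Dk / k = r c`. -/
theorem good_hess {f g W k : (Fin n → ℝ) → ℝ} {ω c : (Fin n → ℝ) → Fin n → ℝ} {r : ℝ}
    (hf : ContDiffOn ℝ 2 f (punctured n)) (hfp : ∀ x, 0 < f x)
    (hg : ContDiffOn ℝ 2 g (punctured n)) (hgp : ∀ x, 0 < g x)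
    (hW : ContDiffOn ℝ 1 W (punctured n)) (hW' : ∀ x ∈ punctured n, ∀ i, pd i W x = W x * ω x i)
    (hk : ContDiffOn ℝ 1 k (punctured n))
    (hk' : ∀ x ∈ punctured n, ∀ i, pd i k x = k x * (r * c x i))
    (hl : ∀ x ∈ punctured n, lap f x = -k x) :
    GoodField (fun i x => W x * matv (jP f x) (ja g x) i)
      (fun x => W x * (dotm (jP f x) (jP g x) + (dotv (ω x) (matv (jP f x) (ja g x)) -
        dotv (ja f x) (matv (jP f x) (ja g x)) - dotv (ja g x) (matv (jP f x) (ja g x))) -
          r * (k x / f x * dotv (c x) (ja g x)))) := by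
  have hne : ∀ x : Fin n → ℝ, f x * g x ≠ 0 := fun x => (mul_pos (hfp x) (hgp x)).ne'
  have hφ : ContDiffOn ℝ 1 (fun x => W x / (f x * g x)) (punctured n) :=
    hW.div ((hf.of_le one_le_two).mul (hg.of_le one_le_two)) fun x _ => hne x
  have hφ' : ∀ x ∈ punctured n, ∀ i, pd i (fun x => W x / (f x * g x)) x =
      W x / (f x * g x) * (ω x i - ja f x i - ja g x i) := fun x hx i => by
    have d1 := diffAt (hf.of_le one_le_two) hx
    have d2 := diffAt (hg.of_le one_le_two) hx
    rw [pd_div_at (diffAt hW hx) (d1.fun_mul d2) (hne x), hW' x hx, pd_mul_at d1 d2]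
    have := (hfp x).ne'
    have := (hgp x).ne'
    simp only [ja]
    field_simp
    ring
  refine (good_hessian hφ hf hg hk hl).congr (fun x _ i => ?_) fun x hx => ?_
  · simp only [matv, jP, ja, Finset.mul_sum]
    refine Finset.sum_congr rfl fun j _ => ?_
    have := (hfp x).ne'
    have := (hgp x).ne'
    field_simp
  · have hfx := (hfp x).ne'
    have hgx := (hgp x).ne'
    have e1 : W x / (f x * g x) * (∑ i, ∑ j, pd i (pd j f) x * pd i (pd j g) x) =
        W x * dotm (jP f x) (jP g x) := by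
      simp only [dotm, jP, Finset.mul_sum]
      refine Finset.sum_congr rfl fun i _ => Finset.sum_congr rfl fun j _ => ?_
      field_simp
    have hS : ∀ i, (∑ j, pd i (pd j f) x * pd j g x) = f x * g x * matv (jP f x) (ja g x) i := by
      intro i
      simp only [matv, jP, ja, Finset.mul_sum]
      refine Finset.sum_congr rfl fun j _ => ?_
      field_simp
    have e2 : (∑ i, pd i (fun x => W x / (f x * g x)) x * ∑ j, pd i (pd j f) x * pd j g x) =
        W x * (dotv (ω x) (matv (jP f x) (ja g x)) -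
          dotv (ja f x) (matv (jP f x) (ja g x)) - dotv (ja g x) (matv (jP f x) (ja g x))) := by
      simp only [hφ' x hx, hS, dotv, mul_sub, Finset.mul_sum, ← Finset.sum_sub_distrib]
      refine Finset.sum_congr rfl fun i _ => ?_
      field_simp
    have e3 : W x / (f x * g x) * (∑ i, pd i k x * pd i g x) =
        W x * (r * (k x / f x * dotv (c x) (ja g x))) := by
      simp only [hk' x hx, dotv, ja, Finset.mul_sum]
      refine Finset.sum_congr rfl fun i _ => ?_
      field_simp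
    rw [e1, e2, e3]
    ring

/-- Every field of a certificate has weak divergence `solDiv`. -/
theorem good_field (h : IsSol p q u v) (k : Fin 14) :
    GoodField (solField p q A B u v k) (solDiv p q A B u v k) := by
  have hW := contDiffOn_wt (A := A) (B := B) h
  have hW' := fun x (hx : x ∈ punctured n) => pd_wt (A := A) (B := B) h hx
  have hu := contDiffOn_ja h.smooth_u h.pos_u
  have hv := contDiffOn_ja h.smooth_v h.pos_v
  have fw : ∀ (f : (Fin n → ℝ) → ℝ) (df : (Fin n → ℝ) → Fin n → ℝ),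
      ContDiffOn ℝ 1 f (punctured n) → (∀ x ∈ punctured n, ∀ i, pd i f x = df x i) →
      GoodField (fun i x => wt A B u v x * (f x * ja u x i))
        (fun x => wt A B u v x * divFW A B (ja u x) (ja v x) (f x) (df x) (ja u x)
          (-js p u v x - dotv (ja u x) (ja u x))) ∧
      GoodField (fun i x => wt A B u v x * (f x * ja v x i))
        (fun x => wt A B u v x * divFW A B (ja u x) (ja v x) (f x) (df x) (ja v x)
          (-js q v u x - dotv (ja v x) (ja v x))) := fun f df hf hf' =>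
    ⟨(good_fw hW hf hu hW' hf' fun x hx => div_ja h.smooth_u h.pos_u h.eq_u hx).congr
        (fun _ _ _ => rfl) (fun x _ => by simp only [divFW, dotv_lin, js]),
      (good_fw hW hf hv hW' hf' fun x hx => div_ja h.smooth_v h.pos_v h.eq_v hx).congr
        (fun _ _ _ => rfl) (fun x _ => by simp only [divFW, dotv_lin, js])⟩
  have cd : ∀ {f g : (Fin n → ℝ) → ℝ}, ContDiffOn ℝ 2 f (punctured n) → (∀ x, 0 < f x) →
      ContDiffOn ℝ 2 g (punctured n) → (∀ x, 0 < g x) →
      ContDiffOn ℝ 1 (fun y => dotv (ja f y) (ja g y)) (punctured n) := fun hf hfp hg hgp =>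
    ContDiffOn.sum fun j _ => (contDiffOn_ja hf hfp j).mul (contDiffOn_ja hg hgp j)
  have f1 := fw (fun y => dotv (ja u y) (ja u y))
    (fun x i => 2 * (matv (jP u x) (ja u x) i - dotv (ja u x) (ja u x) * ja u x i))
    (cd h.smooth_u h.pos_u h.smooth_u h.pos_u) fun x hx i => by
      rw [pd_dot h.smooth_u h.pos_u h.smooth_u h.pos_u hx]; ring
  have f2 := fw (fun y => dotv (ja v y) (ja v y))
    (fun x i => 2 * (matv (jP v x) (ja v x) i - dotv (ja v x) (ja v x) * ja v x i))
    (cd h.smooth_v h.pos_v h.smooth_v h.pos_v) fun x hx i => by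
      rw [pd_dot h.smooth_v h.pos_v h.smooth_v h.pos_v hx]; ring
  have f3 := fw (fun y => dotv (ja u y) (ja v y))
    (fun x i => matv (jP u x) (ja v x) i + matv (jP v x) (ja u x) i -
      dotv (ja u x) (ja v x) * (ja u x i + ja v x i))
    (cd h.smooth_u h.pos_u h.smooth_v h.pos_v)
    fun x hx => pd_dot h.smooth_u h.pos_u h.smooth_v h.pos_v hx
  have f4 := fw (js p u v) (fun x i => js p u v x * (p * ja v x i - ja u x i))
    (contDiffOn_js h.smooth_u h.smooth_v h.pos_u h.pos_v)
    fun x hx => pd_js h.smooth_u h.smooth_v h.pos_u h.pos_v hx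
  have f5 := fw (js q v u) (fun x i => js q v u x * (q * ja u x i - ja v x i))
    (contDiffOn_js h.smooth_v h.smooth_u h.pos_v h.pos_u)
    fun x hx => pd_js h.smooth_v h.smooth_u h.pos_v h.pos_u hx
  have d1 := fun x (hx : x ∈ punctured n) => diffAt (h.smooth_u.of_le one_le_two) hx
  have d2 := fun x (hx : x ∈ punctured n) => diffAt (h.smooth_v.of_le one_le_two) hx
  have ku := (h.smooth_v.of_le one_le_two).rpow_const_of_ne (p := p) fun x _ => (h.pos_v x).ne'
  have kv := (h.smooth_u.of_le one_le_two).rpow_const_of_ne (p := q) fun x _ => (h.pos_u x).ne'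
  have ku' : ∀ x ∈ punctured n, ∀ i, pd i (fun y => v y ^ p) x = v x ^ p * (p * ja v x i) :=
    fun x hx i => pd_rpow_at (d2 x hx) (h.pos_v x) p i
  have kv' : ∀ x ∈ punctured n, ∀ i, pd i (fun y => u y ^ q) x = u x ^ q * (q * ja u x i) :=
    fun x hx i => pd_rpow_at (d1 x hx) (h.pos_u x) q i
  have h1 := good_hess h.smooth_u h.pos_u h.smooth_u h.pos_u hW hW' ku ku' h.eq_u
  have h2 := good_hess h.smooth_u h.pos_u h.smooth_v h.pos_v hW hW' ku ku' h.eq_u
  have h3 := good_hess h.smooth_v h.pos_v h.smooth_u h.pos_u hW hW' kv kv' h.eq_v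
  have h4 := good_hess h.smooth_v h.pos_v h.smooth_v h.pos_v hW hW' kv kv' h.eq_v
  simp only [dotv_lin] at h1 h2 h3 h4
  fin_cases k
  exacts [f1.1, f1.2, f2.1, f2.2, f3.1, f3.2, f4.1, f4.2, f5.1, f5.2,
    h1.congr (fun _ _ _ => rfl) fun x _ => by simp [solDiv, jetDivs, js]; left; ring,
    h2.congr (fun _ _ _ => rfl) fun x _ => by simp [solDiv, jetDivs, js]; left; ring,
    h3.congr (fun _ _ _ => rfl) fun x _ => by simp [solDiv, jetDivs, js]; left; ring,
    h4.congr (fun _ _ _ => rfl) fun x _ => by simp [solDiv, jetDivs, js]; left; ring]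

end Vale.Agent.P100
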