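import Vale.Agent.P100.ThinDefs

/-!
# P100: positivity of one polynomial of the certificate
-/

namespace Vale.Agent.P100.Thin

open Wide (sideNum)

/-- A coefficient of a positive expansion. -/
noncomputable def eA_pos_c0 (y : ℝ) : ℝ :=
  909 + (10749 / 4) * y + (30139 / 8) * y ^ 2 + (12647 / 4) * y ^ 3 + (13801 / 8) * y ^ 4 +
  (10511 / 16) * y ^ 5 + (6047 / 32) * y ^ 6 + 45 * y ^ 7 + (175 / 32) * y ^ 8

theorem eA_pos_c0_pos {y : ℝ} (hy : 0 ≤ y) : 0 < eA_pos_c0 y := by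
  unfold eA_pos_c0
  positivity

/-- A coefficient of a positive expansion. -/
noncomputable def eA_pos_c1 (y : ℝ) : ℝ :=
  (4503 / 4) + 3322 * y + (37809 / 8) * y ^ 2 + (16025 / 4) * y ^ 3 + (34929 / 16) * y ^ 4 +
  (1569 / 2) * y ^ 5 + (6221 / 32) * y ^ 6 + (599 / 16) * y ^ 7 + (155 / 32) * y ^ 8

theorem eA_pos_c1_pos {y : ℝ} (hy : 0 ≤ y) : 0 < eA_pos_c1 y := by
  unfold eA_pos_c1
  positivity

/-- A coefficient of a positive expansion. -/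
noncomputable def eA_pos_c2 (y : ℝ) : ℝ :=
  (1039 / 2) + (6139 / 4) * y + (4439 / 2) * y ^ 2 + (7629 / 4) * y ^ 3 + (8365 / 8) * y ^ 4 +
  (5767 / 16) * y ^ 5 + (153 / 2) * y ^ 6 + (161 / 16) * y ^ 7 + (11 / 8) * y ^ 8

theorem eA_pos_c2_pos {y : ℝ} (hy : 0 ≤ y) : 0 < eA_pos_c2 y := by
  unfold eA_pos_c2
  positivity

/-- A coefficient of a positive expansion. -/
noncomputable def eA_pos_c3 (y : ℝ) : ℝ :=
  (423 / 4) + 314 * y + (1849 / 4) * y ^ 2 + (1615 / 4) * y ^ 3 + (3583 / 16) * y ^ 4 +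
  (603 / 8) * y ^ 5 + (223 / 16) * y ^ 6 + (7 / 8) * y ^ 7 + (1 / 8) * y ^ 8

theorem eA_pos_c3_pos {y : ℝ} (hy : 0 ≤ y) : 0 < eA_pos_c3 y := by
  unfold eA_pos_c3
  positivity

/-- A coefficient of a positive expansion. -/
noncomputable def eA_pos_c4 (y : ℝ) : ℝ :=
  8 + 24 * y + 36 * y ^ 2 + 32 * y ^ 3 + 18 * y ^ 4 + 6 * y ^ 5 + 1 * y ^ 6

theorem eA_pos_c4_pos {y : ℝ} (hy : 0 ≤ y) : 0 < eA_pos_c4 y := by
  unfold eA_pos_c4
  positivity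

set_option maxHeartbeats 4000000 in
theorem eA_pos {x y : ℝ} (hx : 0 ≤ x) (hy : 0 ≤ y) :
    0 < eA (x + 5) (y + 1) := by
  have e : eA (x + 5) (y + 1) =
      eA_pos_c0 y +
      eA_pos_c1 y * x ^ 1 +
      eA_pos_c2 y * x ^ 2 +
      eA_pos_c3 y * x ^ 3 +
      eA_pos_c4 y * x ^ 4 := by
    simp only [eA, eB, eR, eS, eV, eM, sideNum, pH, pK, pE, pC1, pC2, pC3, pC4, pL1, pL2, pM1,
      pM2, pm2, pT, pA, pB, pD, pW, pG, pG2, pGd,
      eA_pos_c0, eA_pos_c1, eA_pos_c2, eA_pos_c3, eA_pos_c4]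
    ring
  rw [e]
  have k0 := eA_pos_c0_pos hy
  have k1 := mul_nonneg (eA_pos_c1_pos hy).le (pow_nonneg hx 1)
  have k2 := mul_nonneg (eA_pos_c2_pos hy).le (pow_nonneg hx 2)
  have k3 := mul_nonneg (eA_pos_c3_pos hy).le (pow_nonneg hx 3)
  have k4 := mul_nonneg (eA_pos_c4_pos hy).le (pow_nonneg hx 4)
  linarith

end Vale.Agent.P100.Thin
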