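import Vale.Agent.P100.ThinDefs

/-!
# P100: positivity of one polynomial of the certificate
-/

namespace Vale.Agent.P100.Thin

open Wide (sideNum)

/-- A coefficient of a positive expansion. -/
noncomputable def minor_pos_c0 (y : ℝ) : ℝ :=
  (1622767391 / 6400) + (480343439 / 320) * y + (12891724673 / 3200) * y ^ 2 +
  (21291650621 / 3200) * y ^ 3 + (100406674973 / 12800) * y ^ 4 + (49881311603 / 6400) * y ^ 5 +
  (1549745043 / 200) * y ^ 6 + (4073081425 / 512) * y ^ 7 + (766401171591 / 102400) * y ^ 8 +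
  (18843936581 / 3200) * y ^ 9 + (192447462431 / 51200) * y ^ 10 + (24856350763 / 12800) * y ^ 11 +
  (82311450879 / 102400) * y ^ 12 + (1645067299 / 6400) * y ^ 13 + (11482047 / 200) * y ^ 14 +
  (11421297 / 1600) * y ^ 15 + (89383 / 800) * y ^ 16

theorem minor_pos_c0_pos {y : ℝ} (hy : 0 ≤ y) : 0 < minor_pos_c0 y := by
  unfold minor_pos_c0
  positivity

/-- A coefficient of a positive expansion. -/
noncomputable def minor_pos_c1 (y : ℝ) : ℝ :=
  (10172221231 / 16000) + (6326220333 / 1600) * y + (23152547667 / 2000) * y ^ 2 +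
  (174816569831 / 8000) * y ^ 3 + (988219296983 / 32000) * y ^ 4 + (583489234373 / 16000) * y ^ 5 +
  (1227426785637 / 32000) * y ^ 6 + (9256226147 / 256) * y ^ 7 + (7566231589291 / 256000) * y ^ 8 +
  (2598107976741 / 128000) * y ^ 9 + (1472984530221 / 128000) * y ^ 10 +
  (171276298443 / 32000) * y ^ 11 + (517157495539 / 256000) * y ^ 12 +
  (76694605807 / 128000) * y ^ 13 + (8157807361 / 64000) * y ^ 14 + (62979187 / 4000) * y ^ 15 +
  (1510911 / 4000) * y ^ 16

theorem minor_pos_c1_pos {y : ℝ} (hy : 0 ≤ y) : 0 < minor_pos_c1 y := by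
  unfold minor_pos_c1
  positivity

/-- A coefficient of a positive expansion. -/
noncomputable def minor_pos_c2 (y : ℝ) : ℝ :=
  (112008979311 / 160000) + (36499797489 / 8000) * y + (573584008979 / 40000) * y ^ 2 +
  (2369592420331 / 80000) * y ^ 3 + (14737250481713 / 320000) * y ^ 4 +
  (9337375348813 / 160000) * y ^ 5 + (10015805014501 / 160000) * y ^ 6 +
  (732395680631 / 12800) * y ^ 7 + (112778523569231 / 2560000) * y ^ 8 +
  (4507542922347 / 160000) * y ^ 9 + (2368938714497 / 160000) * y ^ 10 +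
  (1017004798109 / 160000) * y ^ 11 + (5655451188859 / 2560000) * y ^ 12 +
  (194071544863 / 320000) * y ^ 13 + (156001996217 / 1280000) * y ^ 14 +
  (1187347739 / 80000) * y ^ 15 + (75920159 / 160000) * y ^ 16

theorem minor_pos_c2_pos {y : ℝ} (hy : 0 ≤ y) : 0 < minor_pos_c2 y := by
  unfold minor_pos_c2
  positivity

/-- A coefficient of a positive expansion. -/
noncomputable def minor_pos_c3 (y : ℝ) : ℝ :=
  (1103596437 / 2500) + (24030599839 / 8000) * y + (100015138973 / 10000) * y ^ 2 +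
  (881001942379 / 40000) * y ^ 3 + (2905239849781 / 80000) * y ^ 4 +
  (1913292497231 / 40000) * y ^ 5 + (8297590502453 / 160000) * y ^ 6 +
  (93377328199 / 2000) * y ^ 7 + (11130802525981 / 320000) * y ^ 8 +
  (13620782869229 / 640000) * y ^ 9 + (6786781549629 / 640000) * y ^ 10 +
  (2733016612473 / 640000) * y ^ 11 + (220248938167 / 160000) * y ^ 12 +
  (222995815263 / 640000) * y ^ 13 + (41809780943 / 640000) * y ^ 14 +
  (4955541551 / 640000) * y ^ 15 + (97782009 / 320000) * y ^ 16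

theorem minor_pos_c3_pos {y : ℝ} (hy : 0 ≤ y) : 0 < minor_pos_c3 y := by
  unfold minor_pos_c3
  positivity

/-- A coefficient of a positive expansion. -/
noncomputable def minor_pos_c4 (y : ℝ) : ℝ :=
  (870177537 / 5000) + (2462838669 / 2000) * y + (343898204097 / 80000) * y ^ 2 +
  (397135024417 / 40000) * y ^ 3 + (2726011794701 / 160000) * y ^ 4 +
  (1840859317081 / 80000) * y ^ 5 + (4022401807679 / 160000) * y ^ 6 +
  (718426754583 / 32000) * y ^ 7 + (655723442331 / 40000) * y ^ 8 +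
  (3115704270521 / 320000) * y ^ 9 + (5969544866189 / 1280000) * y ^ 10 +
  (285140115271 / 160000) * y ^ 11 + (1372015492411 / 2560000) * y ^ 12 +
  (39818974647 / 320000) * y ^ 13 + (3419443431 / 160000) * y ^ 14 +
  (385864377 / 160000) * y ^ 15 + (286217551 / 2560000) * y ^ 16

theorem minor_pos_c4_pos {y : ℝ} (hy : 0 ≤ y) : 0 < minor_pos_c4 y := by
  unfold minor_pos_c4
  positivity

/-- A coefficient of a positive expansion. -/
noncomputable def minor_pos_c5 (y : ℝ) : ℝ :=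
  (219264161 / 5000) + (25711441 / 80) * y + (1458744379 / 1250) * y ^ 2 +
  (111874861171 / 40000) * y ^ 3 + (395435642569 / 80000) * y ^ 4 +
  (271978486109 / 40000) * y ^ 5 + (598200967091 / 80000) * y ^ 6 + (53207011523 / 8000) * y ^ 7 +
  (383576576501 / 80000) * y ^ 8 + (223147480937 / 80000) * y ^ 9 +
  (414930401843 / 320000) * y ^ 10 + (303651736557 / 640000) * y ^ 11 +
  (171322562179 / 1280000) * y ^ 12 + (4534640583 / 160000) * y ^ 13 +
  (2778125967 / 640000) * y ^ 14 + (286611359 / 640000) * y ^ 15 + (30134999 / 1280000) * y ^ 16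

theorem minor_pos_c5_pos {y : ℝ} (hy : 0 ≤ y) : 0 < minor_pos_c5 y := by
  unfold minor_pos_c5
  positivity

/-- A coefficient of a positive expansion. -/
noncomputable def minor_pos_c6 (y : ℝ) : ℝ :=
  (68869201 / 10000) + (52102557 / 1000) * y + (978105873 / 5000) * y ^ 2 +
  (2415370991 / 5000) * y ^ 3 + (139797695559 / 160000) * y ^ 4 + (24393933661 / 20000) * y ^ 5 +
  (3374345969 / 2500) * y ^ 6 + (1918279637 / 1600) * y ^ 7 + (274381604237 / 320000) * y ^ 8 +
  (39327468791 / 80000) * y ^ 9 + (71475557279 / 320000) * y ^ 10 +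
  (12617394699 / 160000) * y ^ 11 + (53731854439 / 2560000) * y ^ 12 +
  (1290214253 / 320000) * y ^ 13 + (677567367 / 1280000) * y ^ 14 + (14668751 / 320000) * y ^ 15 +
  (6810919 / 2560000) * y ^ 16

theorem minor_pos_c6_pos {y : ℝ} (hy : 0 ≤ y) : 0 < minor_pos_c6 y := by
  unfold minor_pos_c6
  positivity

/-- A coefficient of a positive expansion. -/
noncomputable def minor_pos_c7 (y : ℝ) : ℝ :=
  (153903 / 250) + (1198597 / 250) * y + (18531891 / 1000) * y ^ 2 + (11732227 / 250) * y ^ 3 +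
  (173057581 / 2000) * y ^ 4 + (244650963 / 2000) * y ^ 5 + (272444491 / 2000) * y ^ 6 +
  (121072671 / 1000) * y ^ 7 + (344752743 / 4000) * y ^ 8 + (97834487 / 2000) * y ^ 9 +
  (349530429 / 16000) * y ^ 10 + (59935311 / 8000) * y ^ 11 + (60593487 / 32000) * y ^ 12 +
  (10524611 / 32000) * y ^ 13 + (1116213 / 32000) * y ^ 14 + (63751 / 32000) * y ^ 15 +
  (1 / 8) * y ^ 16

theorem minor_pos_c7_pos {y : ℝ} (hy : 0 ≤ y) : 0 < minor_pos_c7 y := by
  unfold minor_pos_c7
  positivity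

/-- A coefficient of a positive expansion. -/
noncomputable def minor_pos_c8 (y : ℝ) : ℝ :=
  (599 / 25) + (4792 / 25) * y + (19009 / 25) * y ^ 2 + (49203 / 25) * y ^ 3 +
  (369013 / 100) * y ^ 4 + (263833 / 50) * y ^ 5 + (591433 / 100) * y ^ 6 + (263363 / 50) * y ^ 7 +
  (1496613 / 400) * y ^ 8 + (210943 / 100) * y ^ 9 + (372047 / 400) * y ^ 10 +
  (124691 / 400) * y ^ 11 + (120583 / 1600) * y ^ 12 + (9473 / 800) * y ^ 13 +
  (1479 / 1600) * y ^ 14

theorem minor_pos_c8_pos {y : ℝ} (hy : 0 ≤ y) : 0 < minor_pos_c8 y := by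
  unfold minor_pos_c8
  positivity

set_option maxHeartbeats 4000000 in
theorem minor_pos {x y : ℝ} (hx : 0 ≤ x) (hy : 0 ≤ y) :
    0 < eA (x + 5) (y + 1) * eB (x + 5) (y + 1) - eV (x + 5) (y + 1) ^ 2 := by
  have e : eA (x + 5) (y + 1) * eB (x + 5) (y + 1) - eV (x + 5) (y + 1) ^ 2 =
      minor_pos_c0 y +
      minor_pos_c1 y * x ^ 1 +
      minor_pos_c2 y * x ^ 2 +
      minor_pos_c3 y * x ^ 3 +
      minor_pos_c4 y * x ^ 4 +
      minor_pos_c5 y * x ^ 5 +
      minor_pos_c6 y * x ^ 6 +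
      minor_pos_c7 y * x ^ 7 +
      minor_pos_c8 y * x ^ 8 := by
    simp only [eA, eB, eR, eS, eV, eM, sideNum, pH, pK, pE, pC1, pC2, pC3, pC4, pL1, pL2, pM1,
      pM2, pm2, pT, pA, pB, pD, pW, pG, pG2, pGd,
      minor_pos_c0, minor_pos_c1, minor_pos_c2, minor_pos_c3, minor_pos_c4, minor_pos_c5,
      minor_pos_c6, minor_pos_c7, minor_pos_c8]
    ring
  rw [e]
  have k0 := minor_pos_c0_pos hy
  have k1 := mul_nonneg (minor_pos_c1_pos hy).le (pow_nonneg hx 1)
  have k2 := mul_nonneg (minor_pos_c2_pos hy).le (pow_nonneg hx 2)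
  have k3 := mul_nonneg (minor_pos_c3_pos hy).le (pow_nonneg hx 3)
  have k4 := mul_nonneg (minor_pos_c4_pos hy).le (pow_nonneg hx 4)
  have k5 := mul_nonneg (minor_pos_c5_pos hy).le (pow_nonneg hx 5)
  have k6 := mul_nonneg (minor_pos_c6_pos hy).le (pow_nonneg hx 6)
  have k7 := mul_nonneg (minor_pos_c7_pos hy).le (pow_nonneg hx 7)
  have k8 := mul_nonneg (minor_pos_c8_pos hy).le (pow_nonneg hx 8)
  linarith

end Vale.Agent.P100.Thin
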