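import Vale.Agent.P100.ThinDefs

/-!
# P100: positivity of one polynomial of the certificate
-/

namespace Vale.Agent.P100.Thin

open Wide (sideNum)

/-- A coefficient of a positive expansion. -/
noncomputable def pTwo_pos_c0 (y : ℝ) : ℝ :=
  231 + 360 * y + (1269 / 4) * y ^ 2 + (291 / 2) * y ^ 3 + (81 / 2) * y ^ 4

theorem pTwo_pos_c0_pos {y : ℝ} (hy : 0 ≤ y) : 0 < pTwo_pos_c0 y := by
  unfold pTwo_pos_c0
  positivity

/-- A coefficient of a positive expansion. -/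
noncomputable def pTwo_pos_c1 (y : ℝ) : ℝ :=
  (781 / 5) + (1323 / 5) * y + (2451 / 10) * y ^ 2 + (586 / 5) * y ^ 3 + (63 / 2) * y ^ 4

theorem pTwo_pos_c1_pos {y : ℝ} (hy : 0 ≤ y) : 0 < pTwo_pos_c1 y := by
  unfold pTwo_pos_c1
  positivity

/-- A coefficient of a positive expansion. -/
noncomputable def pTwo_pos_c2 (y : ℝ) : ℝ :=
  (162 / 5) + (301 / 5) * y + (1169 / 20) * y ^ 2 + (289 / 10) * y ^ 3 + (15 / 2) * y ^ 4

theorem pTwo_pos_c2_pos {y : ℝ} (hy : 0 ≤ y) : 0 < pTwo_pos_c2 y := by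
  unfold pTwo_pos_c2
  positivity

/-- A coefficient of a positive expansion. -/
noncomputable def pTwo_pos_c3 (y : ℝ) : ℝ :=
  2 + 4 * y + 4 * y ^ 2 + 2 * y ^ 3 + (1 / 2) * y ^ 4

theorem pTwo_pos_c3_pos {y : ℝ} (hy : 0 ≤ y) : 0 < pTwo_pos_c3 y := by
  unfold pTwo_pos_c3
  positivity

set_option maxHeartbeats 4000000 in
theorem pTwo_pos {x y : ℝ} (hx : 0 ≤ x) (hy : 0 ≤ y) :
    0 < -(x + 5 + 2) * pC4 (x + 5) (y + 1) -
      (pB (x + 5) (y + 1) - 2 * pW (x + 5) (y + 1)) := by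
  have e : -(x + 5 + 2) * pC4 (x + 5) (y + 1) -
      (pB (x + 5) (y + 1) - 2 * pW (x + 5) (y + 1)) =
      pTwo_pos_c0 y +
      pTwo_pos_c1 y * x ^ 1 +
      pTwo_pos_c2 y * x ^ 2 +
      pTwo_pos_c3 y * x ^ 3 := by
    simp only [eA, eB, eR, eS, eV, eM, sideNum, pH, pK, pE, pC1, pC2, pC3, pC4, pL1, pL2, pM1,
      pM2, pm2, pT, pA, pB, pD, pW, pG, pG2, pGd,
      pTwo_pos_c0, pTwo_pos_c1, pTwo_pos_c2, pTwo_pos_c3]
    ring
  rw [e]
  have k0 := pTwo_pos_c0_pos hy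
  have k1 := mul_nonneg (pTwo_pos_c1_pos hy).le (pow_nonneg hx 1)
  have k2 := mul_nonneg (pTwo_pos_c2_pos hy).le (pow_nonneg hx 2)
  have k3 := mul_nonneg (pTwo_pos_c3_pos hy).le (pow_nonneg hx 3)
  linarith

end Vale.Agent.P100.Thin
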