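import Vale.Agent.P100.ThinDefs

/-!
# P100: positivity of one polynomial of the certificate
-/

namespace Vale.Agent.P100.Thin

open Wide (sideNum)

/-- A coefficient of a positive expansion. -/
noncomputable def sideOne_right_c0 (y : ℝ) : ℝ :=
  7982925840000 + 1711820665057500 * y + (67964945432349375 / 4) * y ^ 2 +
  (165864435959165625 / 2) * y ^ 3 + (1039923682582651875 / 4) * y ^ 4 +
  (1163835614374250625 / 2) * y ^ 5 + (7844192945725888125 / 8) * y ^ 6 +
  (5112146528843934375 / 4) * y ^ 7 + 1301909841622940625 * y ^ 8 +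
  (8245571257269016875 / 8) * y ^ 9 + (39449325539074899375 / 64) * y ^ 10 +
  (8232028236995158125 / 32) * y ^ 11 + (2620822014747190625 / 64) * y ^ 12 +
  (13431908921875 / 16) * y ^ 13 + (1815593691198125 / 64) * y ^ 14 +
  (89740477676499375 / 32) * y ^ 15 + (469897077803754375 / 64) * y ^ 16 +
  (18368167655671875 / 4) * y ^ 17 + (7298452186228125 / 4) * y ^ 18 +
  (7849837045513125 / 16) * y ^ 19 + (697070376365625 / 8) * y ^ 20 +
  (36705328756875 / 4) * y ^ 21 + (6679330824375 / 16) * y ^ 22 +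
  3880000000000000 * y ^ 12 * (y - 2) ^ 2 + 2280000000000000 * y ^ 13 * (y - 2) ^ 2

theorem sideOne_right_c0_pos {y : ℝ} (hy : 0 ≤ y) : 0 < sideOne_right_c0 y := by
  unfold sideOne_right_c0
  positivity

/-- A coefficient of a positive expansion. -/
noncomputable def sideOne_right_c1 (y : ℝ) : ℝ :=
  109592830436400 + 6313623135671700 * y + 58535282853782100 * y ^ 2 + 279189776078582625 * y ^ 3 +
  866059391344711950 * y ^ 4 + (3857260370932912725 / 2) * y ^ 5 +
  (6485553041164784775 / 2) * y ^ 6 + (8451313860134935125 / 2) * y ^ 7 +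
  4308722462669041125 * y ^ 8 + 3415366229698112400 * y ^ 9 + (4080262001254341075 / 2) * y ^ 10 +
  (12977120415953305025 / 16) * y ^ 11 + (125376465808375 / 8) * y ^ 12 +
  (24889471230625 / 32) * y ^ 13 + (8140906208475 / 32) * y ^ 14 + (2765606171975 / 8) * y ^ 15 +
  (112037574045888675 / 16) * y ^ 16 + (374658659372635875 / 32) * y ^ 17 +
  (160704060560076375 / 32) * y ^ 18 + (11247269228105175 / 8) * y ^ 19 +
  (2049351416823375 / 8) * y ^ 20 + (439686035057025 / 16) * y ^ 21 +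
  (2539019331675 / 2) * y ^ 22 + 6748300000000000 * y ^ 11 * (y - 2) ^ 2 +
  46562000000000000 * y ^ 12 * (y - 2) ^ 2 + 31256000000000000 * y ^ 13 * (y - 2) ^ 2 +
  8190900000000000 * y ^ 14 * (y - 2) ^ 2

theorem sideOne_right_c1_pos {y : ℝ} (hy : 0 ≤ y) : 0 < sideOne_right_c1 y := by
  unfold sideOne_right_c1
  positivity

/-- A coefficient of a positive expansion. -/
noncomputable def sideOne_right_c2 (y : ℝ) : ℝ :=
  264088907870816 + 10285286284068408 * y + 90976405163148254 * y ^ 2 +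
  426643681063068005 * y ^ 3 + 1313364019705831578 * y ^ 4 + (5829501966236334659 / 2) * y ^ 5 +
  (9792729380328295441 / 2) * y ^ 6 + (12772437239304402195 / 2) * y ^ 7 +
  (26110928663532411655 / 4) * y ^ 8 + (20777295446986332359 / 4) * y ^ 9 +
  (24941858626087184597 / 8) * y ^ 10 + (15540203935328943501 / 16) * y ^ 11 +
  (86461246202215 / 4) * y ^ 12 + (300259254695075 / 32) * y ^ 13 +
  (146628589233939 / 32) * y ^ 14 + (53966216839283 / 16) * y ^ 15 +
  (63869761161363 / 64) * y ^ 16 + (287561881621828295 / 32) * y ^ 17 + 6439232931069765 * y ^ 18 +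
  1874496432270054 * y ^ 19 + (22386392079831415 / 64) * y ^ 20 + (610607297276541 / 16) * y ^ 21 +
  (3576378283597 / 2) * y ^ 22 + 78131000000000000 * y ^ 11 * (y - 2) ^ 2 +
  136470000000000000 * y ^ 12 * (y - 2) ^ 2 + 90449000000000000 * y ^ 13 * (y - 2) ^ 2 +
  32642000000000000 * y ^ 14 * (y - 2) ^ 2 + 4849200000000000 * y ^ 15 * (y - 2) ^ 2

theorem sideOne_right_c2_pos {y : ℝ} (hy : 0 ≤ y) : 0 < sideOne_right_c2 y := by
  unfold sideOne_right_c2
  positivity

/-- A coefficient of a positive expansion. -/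
noncomputable def sideOne_right_c3 (y : ℝ) : ℝ :=
  (1562617602412272 / 5) + (49652209833001136 / 5) * y + (424597172779721063 / 5) * y ^ 2 +
  393269682666829103 * y ^ 3 + (6019850998475430081 / 5) * y ^ 4 +
  (26663833135142037893 / 10) * y ^ 5 + (22397556554775350351 / 5) * y ^ 6 +
  (11706743221098016775 / 2) * y ^ 7 + (12010175348149229821 / 2) * y ^ 8 +
  (96140239342117715353 / 20) * y ^ 9 + (233019425785976779603 / 80) * y ^ 10 +
  (19925169698461448187 / 80) * y ^ 11 + (394434438863639 / 16) * y ^ 12 +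
  (414071266519461 / 32) * y ^ 13 + (661238526260043 / 160) * y ^ 14 +
  (63669682720093 / 40) * y ^ 15 + (121250106175483 / 160) * y ^ 16 +
  (176859744019185139 / 32) * y ^ 17 + (163852906017586855 / 32) * y ^ 18 +
  (61757044266902829 / 40) * y ^ 19 + (9413666244345059 / 32) * y ^ 20 +
  (2605768338844997 / 80) * y ^ 21 + (61819939012021 / 40) * y ^ 22 +
  155260000000000000 * y ^ 11 * (y - (5 / 2)) ^ 2 +
  161410000000000000 * y ^ 12 * (y - (5 / 2)) ^ 2 +
  88442000000000000 * y ^ 13 * (y - (5 / 2)) ^ 2 + 29301000000000000 * y ^ 14 * (y - (5 / 2)) ^ 2 +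
  4628600000000000 * y ^ 15 * (y - (5 / 2)) ^ 2

theorem sideOne_right_c3_pos {y : ℝ} (hy : 0 ≤ y) : 0 < sideOne_right_c3 y := by
  unfold sideOne_right_c3
  positivity

/-- A coefficient of a positive expansion. -/
noncomputable def sideOne_right_c4 (y : ℝ) : ℝ :=
  (5703017521194816 / 25) + (159873010322152408 / 25) * y + (2667088638776845613 / 50) * y ^ 2 +
  (1223681363684034748 / 5) * y ^ 3 + (37318608967853086301 / 50) * y ^ 4 +
  (82563001180647865789 / 50) * y ^ 5 + (277660181109143532377 / 100) * y ^ 6 +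
  (18188800178307099809 / 5) * y ^ 7 + (74989213014304120381 / 20) * y ^ 8 +
  (151212613993659194867 / 50) * y ^ 9 + (1485062361379152412133 / 800) * y ^ 10 +
  (5082089856805742201 / 25) * y ^ 11 + (2374283641103279 / 160) * y ^ 12 +
  (1036223530449367 / 160) * y ^ 13 + (224618953662503 / 100) * y ^ 14 +
  (375843032605533 / 400) * y ^ 15 + (265099371580803 / 1600) * y ^ 16 +
  (224059338617287801 / 160) * y ^ 17 + (113265953179661313 / 40) * y ^ 18 +
  (351416634040092779 / 400) * y ^ 19 + (54479455355104577 / 320) * y ^ 20 +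
  (3815905779378233 / 200) * y ^ 21 + (182982716124213 / 200) * y ^ 22 +
  95149300000000000 * y ^ 11 * (y - (5 / 2)) ^ 2 +
  103120000000000000 * y ^ 12 * (y - (5 / 2)) ^ 2 +
  58810200000000000 * y ^ 13 * (y - (5 / 2)) ^ 2 + 20775500000000000 * y ^ 14 * (y - (5 / 2)) ^ 2 +
  3842940000000000 * y ^ 15 * (y - (5 / 2)) ^ 2

theorem sideOne_right_c4_pos {y : ℝ} (hy : 0 ≤ y) : 0 < sideOne_right_c4 y := by
  unfold sideOne_right_c4
  positivity

/-- A coefficient of a positive expansion. -/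
noncomputable def sideOne_right_c5 (y : ℝ) : ℝ :=
  (2831314517345056 / 25) + (72980717578162728 / 25) * y + (597563902996728573 / 25) * y ^ 2 +
  (2722943398810771441 / 25) * y ^ 3 + (8283395020204199269 / 25) * y ^ 4 +
  (36646327393315939467 / 50) * y ^ 5 + (30858944947421969661 / 25) * y ^ 6 +
  (81124554288590621467 / 50) * y ^ 7 + (8406996054145046473 / 5) * y ^ 8 +
  (136813470346907789529 / 100) * y ^ 9 + (68214164265750768141 / 80) * y ^ 10 +
  (14573741738419001173 / 80) * y ^ 11 + (140057973976999 / 16) * y ^ 12 +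
  (1091835519939311 / 800) * y ^ 13 + (168094962899389 / 160) * y ^ 14 +
  (74741828890723 / 400) * y ^ 15 + (3656276038997 / 100) * y ^ 16 +
  (242601847174970971 / 800) * y ^ 17 + (923758935923969323 / 800) * y ^ 18 +
  (146169055418380243 / 400) * y ^ 19 + (7168727313577127 / 100) * y ^ 20 +
  (202693341244046 / 25) * y ^ 21 + (78408788833453 / 200) * y ^ 22 +
  31419700000000000 * y ^ 11 * (y - (5 / 2)) ^ 2 + 39621600000000000 * y ^ 12 * (y - (5 / 2)) ^ 2 +
  24068900000000000 * y ^ 13 * (y - (5 / 2)) ^ 2 + 8887380000000000 * y ^ 14 * (y - (5 / 2)) ^ 2 +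
  1737350000000000 * y ^ 15 * (y - (5 / 2)) ^ 2

theorem sideOne_right_c5_pos {y : ℝ} (hy : 0 ≤ y) : 0 < sideOne_right_c5 y := by
  unfold sideOne_right_c5
  positivity

/-- A coefficient of a positive expansion. -/
noncomputable def sideOne_right_c6 (y : ℝ) : ℝ :=
  (1005290352510784 / 25) + 977212924830320 * y + (197286509839209193 / 25) * y ^ 2 +
  (178919721607156497 / 5) * y ^ 3 + (2717603027901009069 / 25) * y ^ 4 +
  (12029689770703122377 / 50) * y ^ 5 + (10151451206817912512 / 25) * y ^ 6 +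
  (26787902006011152163 / 50) * y ^ 7 + (55854237363232869869 / 100) * y ^ 8 +
  (45884699382863516977 / 100) * y ^ 9 + (4652150956274368437 / 16) * y ^ 10 +
  (43276213399668846173 / 400) * y ^ 11 + (1436971976965497 / 400) * y ^ 12 +
  (131440361632253 / 800) * y ^ 13 + (79235673580579 / 800) * y ^ 14 +
  (18100200681349 / 400) * y ^ 15 + (4426254568293 / 1600) * y ^ 16 +
  (116544953026058757 / 800) * y ^ 17 + (143263688840839471 / 400) * y ^ 18 +
  (22897855098445673 / 200) * y ^ 19 + (36203561422565069 / 1600) * y ^ 20 +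
  (1029944915074089 / 400) * y ^ 21 + (50101413416523 / 400) * y ^ 22 +
  4074920000000000 * y ^ 11 * (y - (5 / 2)) ^ 2 + 9029010000000000 * y ^ 12 * (y - (5 / 2)) ^ 2 +
  6240100000000000 * y ^ 13 * (y - (5 / 2)) ^ 2 + 2418120000000000 * y ^ 14 * (y - (5 / 2)) ^ 2 +
  476337000000000 * y ^ 15 * (y - (5 / 2)) ^ 2

theorem sideOne_right_c6_pos {y : ℝ} (hy : 0 ≤ y) : 0 < sideOne_right_c6 y := by
  unfold sideOne_right_c6
  positivity

/-- A coefficient of a positive expansion. -/
noncomputable def sideOne_right_c7 (y : ℝ) : ℝ :=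
  (262091632191712 / 25) + (6105382459314912 / 25) * y + (48804675111151021 / 25) * y ^ 2 +
  (220579673924482181 / 25) * y ^ 3 + (669743347736577007 / 25) * y ^ 4 +
  (2968151440626118027 / 50) * y ^ 5 + (2511185946533170283 / 25) * y ^ 6 +
  (6654185999506994841 / 50) * y ^ 7 + (6981459588238204487 / 50) * y ^ 8 +
  (11586045861319135939 / 100) * y ^ 9 + (29875506437044651217 / 400) * y ^ 10 +
  (14223571765901200069 / 400) * y ^ 11 + (1252345747371021581 / 400) * y ^ 12 +
  (109330157017351 / 800) * y ^ 13 + (553183424501 / 32) * y ^ 14 + (331224385273 / 4) * y ^ 15 +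
  (1563851614867 / 800) * y ^ 16 + (56703432628331453 / 800) * y ^ 17 +
  (68543518923301633 / 800) * y ^ 18 + (2740412753968809 / 100) * y ^ 19 +
  (4344957640214127 / 800) * y ^ 20 + (49604153561141 / 80) * y ^ 21 +
  (6054233581131 / 200) * y ^ 22 + 1208900000000000 * y ^ 12 * (y - (5 / 2)) ^ 2 +
  1041400000000000 * y ^ 13 * (y - (5 / 2)) ^ 2 + 425960000000000 * y ^ 14 * (y - (5 / 2)) ^ 2 +
  79759000000000 * y ^ 15 * (y - (5 / 2)) ^ 2

theorem sideOne_right_c7_pos {y : ℝ} (hy : 0 ≤ y) : 0 < sideOne_right_c7 y := by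
  unfold sideOne_right_c7
  positivity

/-- A coefficient of a positive expansion. -/
noncomputable def sideOne_right_c8 (y : ℝ) : ℝ :=
  (50735790179712 / 25) + (1146368591203884 / 25) * y + (36390915329864391 / 100) * y ^ 2 +
  (3283108961108031 / 2) * y ^ 3 + (498564506249370387 / 100) * y ^ 4 +
  (276655634967451383 / 25) * y ^ 5 + (751204863120223773 / 40) * y ^ 6 +
  (2499241097780718021 / 100) * y ^ 7 + (2639460024078419411 / 100) * y ^ 8 +
  (4424996567470442449 / 200) * y ^ 9 + (4642726922159313019 / 320) * y ^ 10 +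
  (5715300905679513227 / 800) * y ^ 11 + (3099637735124317881 / 1600) * y ^ 12 +
  (758036292939 / 32) * y ^ 13 + (6414102416439 / 320) * y ^ 14 + (4601736656123 / 800) * y ^ 15 +
  (932608344259 / 800) * y ^ 16 + (17967714034640211 / 800) * y ^ 17 +
  (316526720052939 / 20) * y ^ 18 + (1004885466219291 / 200) * y ^ 19 +
  (1591283955502563 / 1600) * y ^ 20 + (11361346791749 / 100) * y ^ 21 +
  (2221444441829 / 400) * y ^ 22 + 66874600000000 * y ^ 12 * (y - (5 / 2)) ^ 2 +
  100025000000000 * y ^ 13 * (y - (5 / 2)) ^ 2 + 43921300000000 * y ^ 14 * (y - (5 / 2)) ^ 2 +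
  6376340000000 * y ^ 15 * (y - (5 / 2)) ^ 2

theorem sideOne_right_c8_pos {y : ℝ} (hy : 0 ≤ y) : 0 < sideOne_right_c8 y := by
  unfold sideOne_right_c8
  positivity

/-- A coefficient of a positive expansion. -/
noncomputable def sideOne_right_c9 (y : ℝ) : ℝ :=
  (1457062935216 / 5) + (161098886976324 / 25) * y + (254485122572019 / 5) * y ^ 2 +
  (5735330808302986 / 25) * y ^ 3 + (17435765134781713 / 25) * y ^ 4 +
  (38782591187586322 / 25) * y ^ 5 + (5282314623483187 / 2) * y ^ 6 +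
  (88275878513944204 / 25) * y ^ 7 + (93849153731327111 / 25) * y ^ 8 +
  (317845277119284907 / 100) * y ^ 9 + (169518517324305979 / 80) * y ^ 10 +
  (215319659728615153 / 200) * y ^ 11 + (153427699164658127 / 400) * y ^ 12 +
  (8950441164656149 / 200) * y ^ 13 + (38706954321 / 25) * y ^ 14 +
  (10559622776237 / 400) * y ^ 15 + (93547730602933 / 100) * y ^ 16 +
  (1712162457834981 / 400) * y ^ 17 + (35769747686107 / 16) * y ^ 18 +
  (280133735298069 / 400) * y ^ 19 + (55203719512241 / 400) * y ^ 20 +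
  (1259166022141 / 80) * y ^ 21 + (30743216841 / 40) * y ^ 22 +
  4260000000000 * y ^ 13 * (y - (5 / 2)) ^ 2 + 2090000000000 * y ^ 14 * (y - (5 / 2)) ^ 2

theorem sideOne_right_c9_pos {y : ℝ} (hy : 0 ≤ y) : 0 < sideOne_right_c9 y := by
  unfold sideOne_right_c9
  positivity

/-- A coefficient of a positive expansion. -/
noncomputable def sideOne_right_c10 (y : ℝ) : ℝ :=
  (765707973728 / 25) + (16690343617336 / 25) * y + (26296556505291 / 5) * y ^ 2 +
  (118560229519374 / 5) * y ^ 3 + (1804962298365339 / 25) * y ^ 4 +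
  (4024768358957556 / 25) * y ^ 5 + (13751783077376457 / 50) * y ^ 6 +
  (9235688500984511 / 25) * y ^ 7 + (1976676807025063 / 5) * y ^ 8 +
  (8449716731952844 / 25) * y ^ 9 + (91544778120062823 / 400) * y ^ 10 +
  (23924899721682667 / 200) * y ^ 11 + (18177862073449209 / 400) * y ^ 12 +
  (2134930982035447 / 200) * y ^ 13 + (46549932357811 / 80) * y ^ 14 +
  (12102597957 / 200) * y ^ 15 + (18484169151481 / 40) * y ^ 16 + (95644855566521 / 200) * y ^ 17 +
  (18920923564783 / 80) * y ^ 18 + (1821113686219 / 25) * y ^ 19 + (1140615941381 / 80) * y ^ 20 +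
  (8101495183 / 5) * y ^ 21 + (6308978687 / 80) * y ^ 22 +
  14500000000 * y ^ 14 * (y - (5 / 2)) ^ 2

theorem sideOne_right_c10_pos {y : ℝ} (hy : 0 ≤ y) : 0 < sideOne_right_c10 y := by
  unfold sideOne_right_c10
  positivity

/-- A coefficient of a positive expansion. -/
noncomputable def sideOne_right_c11 (y : ℝ) : ℝ :=
  2288039408 + (1236618785872 / 25) * y + (1947066930176 / 5) * y ^ 2 +
  (8789215594864 / 5) * y ^ 3 + (134088736633368 / 25) * y ^ 4 + 11993306458704 * y ^ 5 +
  (514071168124656 / 25) * y ^ 6 + (693736360858764 / 25) * y ^ 7 +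
  (747124766319941 / 25) * y ^ 8 + (644635583802111 / 25) * y ^ 9 +
  (442806617960791 / 25) * y ^ 10 + (237341335644963 / 25) * y ^ 11 +
  (7602037736159 / 2) * y ^ 12 + (5185811115799 / 5) * y ^ 13 + (16449042822923 / 100) * y ^ 14 +
  (760519048667 / 20) * y ^ 15 + (2423036798953 / 50) * y ^ 16 + (3855061509099 / 100) * y ^ 17 +
  (452031525334 / 25) * y ^ 18 + (546700528361 / 100) * y ^ 19 + (26531053999 / 25) * y ^ 20 +
  (2399864141 / 20) * y ^ 21 + (116161309 / 20) * y ^ 22

theorem sideOne_right_c11_pos {y : ℝ} (hy : 0 ≤ y) : 0 < sideOne_right_c11 y := by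
  unfold sideOne_right_c11
  positivity

/-- A coefficient of a positive expansion. -/
noncomputable def sideOne_right_c12 (y : ℝ) : ℝ :=
  (2872862656 / 25) + (61947134688 / 25) * y + (488264480352 / 25) * y ^ 2 +
  (2208771088064 / 25) * y ^ 3 + (6757060562512 / 25) * y ^ 4 + (3031154879072 / 5) * y ^ 5 +
  (26080813599552 / 25) * y ^ 6 + (35358130399624 / 25) * y ^ 7 + (7662095123044 / 5) * y ^ 8 +
  (33337203517522 / 25) * y ^ 9 + (23197172817046 / 25) * y ^ 10 + (12707036775574 / 25) * y ^ 11 +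
  (1061617778371 / 5) * y ^ 12 + (1604347053538 / 25) * y ^ 13 + (69458159422 / 5) * y ^ 14 +
  (101552016652 / 25) * y ^ 15 + (15508655516 / 5) * y ^ 16 + (52542206348 / 25) * y ^ 17 +
  (93998806903 / 100) * y ^ 18 + (1395334273 / 5) * y ^ 19 + (536888307 / 10) * y ^ 20 +
  (30162003 / 5) * y ^ 21 + (5793899 / 20) * y ^ 22

theorem sideOne_right_c12_pos {y : ℝ} (hy : 0 ≤ y) : 0 < sideOne_right_c12 y := by
  unfold sideOne_right_c12
  positivity

/-- A coefficient of a positive expansion. -/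
noncomputable def sideOne_right_c13 (y : ℝ) : ℝ :=
  (17364928 / 5) + (375538304 / 5) * y + (2969038656 / 5) * y ^ 2 + (13472071232 / 5) * y ^ 3 +
  (41342088576 / 5) * y ^ 4 + 18607336768 * y ^ 5 + (160701114416 / 5) * y ^ 6 +
  (218836898752 / 5) * y ^ 7 + 47690619156 * y ^ 8 + (209098729696 / 5) * y ^ 9 +
  (147152847448 / 5) * y ^ 10 + (82099806892 / 5) * y ^ 11 + 7093711736 * y ^ 12 +
  (11514779654 / 5) * y ^ 13 + 583985720 * y ^ 14 + (925948616 / 5) * y ^ 15 + 113765770 * y ^ 16 +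
  (344642374 / 5) * y ^ 17 + (148105856 / 5) * y ^ 18 + 8648208 * y ^ 19 + 1648902 * y ^ 20 +
  183920 * y ^ 21 + 8740 * y ^ 22

theorem sideOne_right_c13_pos {y : ℝ} (hy : 0 ≤ y) : 0 < sideOne_right_c13 y := by
  unfold sideOne_right_c13
  positivity

/-- A coefficient of a positive expansion. -/
noncomputable def sideOne_right_c14 (y : ℝ) : ℝ :=
  47616 + 1038848 * y + 8254592 * y ^ 2 + 37605504 * y ^ 3 + 115819072 * y ^ 4 +
  261568000 * y ^ 5 + 453500352 * y ^ 6 + 620186304 * y ^ 7 + 679270720 * y ^ 8 +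
  599678752 * y ^ 9 + 426075976 * y ^ 10 + 241278344 * y ^ 11 + 106956340 * y ^ 12 +
  36488208 * y ^ 13 + 10127080 * y ^ 14 + 3330232 * y ^ 15 + 1819800 * y ^ 16 + 1020848 * y ^ 17 +
  425192 * y ^ 18 + 122400 * y ^ 19 + 23140 * y ^ 20 + 2560 * y ^ 21 + 120 * y ^ 22

theorem sideOne_right_c14_pos {y : ℝ} (hy : 0 ≤ y) : 0 < sideOne_right_c14 y := by
  unfold sideOne_right_c14
  positivity

set_option maxHeartbeats 4000000 in
theorem sideOne_right {x y : ℝ} (hx : 0 ≤ x) (hy : 0 ≤ y) :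
    0 < sideNum (x + 5) (pW (x + 5) (y + 1)) (pC1 (x + 5) (y + 1)) (pC2 (x + 5) (y + 1)) (pC3 (x + 5) (y + 1))
      (pA (x + 5) (y + 1)) (pB (x + 5) (y + 1)) (pG (x + 5) (y + 1)) (pGd (x + 5) (y + 1)) ((y + 1) * pK (x + 5) + 2 * (1 + (y + 1)) * pE (x + 5)) (pK (x + 5)) := by
  have e : sideNum (x + 5) (pW (x + 5) (y + 1)) (pC1 (x + 5) (y + 1)) (pC2 (x + 5) (y + 1)) (pC3 (x + 5) (y + 1))
      (pA (x + 5) (y + 1)) (pB (x + 5) (y + 1)) (pG (x + 5) (y + 1)) (pGd (x + 5) (y + 1)) ((y + 1) * pK (x + 5) + 2 * (1 + (y + 1)) * pE (x + 5)) (pK (x + 5)) =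
      sideOne_right_c0 y +
      sideOne_right_c1 y * x ^ 1 +
      sideOne_right_c2 y * x ^ 2 +
      sideOne_right_c3 y * x ^ 3 +
      sideOne_right_c4 y * x ^ 4 +
      sideOne_right_c5 y * x ^ 5 +
      sideOne_right_c6 y * x ^ 6 +
      sideOne_right_c7 y * x ^ 7 +
      sideOne_right_c8 y * x ^ 8 +
      sideOne_right_c9 y * x ^ 9 +
      sideOne_right_c10 y * x ^ 10 +
      sideOne_right_c11 y * x ^ 11 +
      sideOne_right_c12 y * x ^ 12 +
      sideOne_right_c13 y * x ^ 13 +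
      sideOne_right_c14 y * x ^ 14 := by
    simp only [eA, eB, eR, eS, eV, eM, sideNum, pH, pK, pE, pC1, pC2, pC3, pC4, pL1, pL2, pM1,
      pM2, pm2, pT, pA, pB, pD, pW, pG, pG2, pGd,
      sideOne_right_c0, sideOne_right_c1, sideOne_right_c2, sideOne_right_c3, sideOne_right_c4,
      sideOne_right_c5, sideOne_right_c6, sideOne_right_c7, sideOne_right_c8, sideOne_right_c9,
      sideOne_right_c10, sideOne_right_c11, sideOne_right_c12, sideOne_right_c13,
      sideOne_right_c14]
    ring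
  rw [e]
  have k0 := sideOne_right_c0_pos hy
  have k1 := mul_nonneg (sideOne_right_c1_pos hy).le (pow_nonneg hx 1)
  have k2 := mul_nonneg (sideOne_right_c2_pos hy).le (pow_nonneg hx 2)
  have k3 := mul_nonneg (sideOne_right_c3_pos hy).le (pow_nonneg hx 3)
  have k4 := mul_nonneg (sideOne_right_c4_pos hy).le (pow_nonneg hx 4)
  have k5 := mul_nonneg (sideOne_right_c5_pos hy).le (pow_nonneg hx 5)
  have k6 := mul_nonneg (sideOne_right_c6_pos hy).le (pow_nonneg hx 6)
  have k7 := mul_nonneg (sideOne_right_c7_pos hy).le (pow_nonneg hx 7)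
  have k8 := mul_nonneg (sideOne_right_c8_pos hy).le (pow_nonneg hx 8)
  have k9 := mul_nonneg (sideOne_right_c9_pos hy).le (pow_nonneg hx 9)
  have k10 := mul_nonneg (sideOne_right_c10_pos hy).le (pow_nonneg hx 10)
  have k11 := mul_nonneg (sideOne_right_c11_pos hy).le (pow_nonneg hx 11)
  have k12 := mul_nonneg (sideOne_right_c12_pos hy).le (pow_nonneg hx 12)
  have k13 := mul_nonneg (sideOne_right_c13_pos hy).le (pow_nonneg hx 13)
  have k14 := mul_nonneg (sideOne_right_c14_pos hy).le (pow_nonneg hx 14)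
  linarith

end Vale.Agent.P100.Thin
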