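import Vale.Agent.P100.ThinDefs

/-!
# P100: positivity of one polynomial of the certificate
-/

namespace Vale.Agent.P100.Thin

open Wide (sideNum)

/-- A coefficient of a positive expansion. -/
noncomputable def sideOne_left_c0 (y : ℝ) : ℝ :=
  174744953984 + 2178908176092 * y + (53131468613759 / 4) * y ^ 2 + (105234334076665 / 2) * y ^ 3 +
  (607562624230563 / 4) * y ^ 4 + (679453243915841 / 2) * y ^ 5 + (4889663294179261 / 8) * y ^ 6 +
  (3626209908108135 / 4) * y ^ 7 + 1127262669392305 * y ^ 8 + (9510025808614507 / 8) * y ^ 9 +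
  (68567481289324399 / 64) * y ^ 10 + (26530223876844973 / 32) * y ^ 11 +
  (35327042762298785 / 64) * y ^ 12 + (5056401576499475 / 16) * y ^ 13 +
  (9925644767804397 / 64) * y ^ 14 + (2074407412363759 / 32) * y ^ 15 +
  (1461914224118087 / 64) * y ^ 16 + (26717728463635 / 4) * y ^ 17 + (6330860347965 / 4) * y ^ 18 +
  (4685996138661 / 16) * y ^ 19 + (318463239545 / 8) * y ^ 20 + (14164300971 / 4) * y ^ 21 +
  (2474686199 / 16) * y ^ 22

theorem sideOne_left_c0_pos {y : ℝ} (hy : 0 ≤ y) : 0 < sideOne_left_c0 y := by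
  unfold sideOne_left_c0
  positivity

/-- A coefficient of a positive expansion. -/
noncomputable def sideOne_left_c1 (y : ℝ) : ℝ :=
  (2190958370288 / 5) + (27299977005244 / 5) * y + (332668922926379 / 10) * y ^ 2 +
  131740186529682 * y ^ 3 + (3802768484776323 / 10) * y ^ 4 + (8507050811370147 / 10) * y ^ 5 +
  (30622649539657391 / 20) * y ^ 6 + 2272339876057410 * y ^ 7 + 2827676263533367 * y ^ 8 +
  (59689782233678687 / 20) * y ^ 9 + (430761899794429699 / 160) * y ^ 10 +
  (83412469099305999 / 40) * y ^ 11 + (44465969026623797 / 32) * y ^ 12 +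
  (25475856378230989 / 32) * y ^ 13 + (1954411618002271 / 5) * y ^ 14 +
  (13073290907382169 / 80) * y ^ 15 + (9211862219079657 / 160) * y ^ 16 +
  (538455722953171 / 32) * y ^ 17 + (127477670254055 / 32) * y ^ 18 +
  (7363073360929 / 10) * y ^ 19 + (799598187729 / 8) * y ^ 20 + (710468210813 / 80) * y ^ 21 +
  (15511535959 / 40) * y ^ 22

theorem sideOne_left_c1_pos {y : ℝ} (hy : 0 ≤ y) : 0 < sideOne_left_c1 y := by
  unfold sideOne_left_c1
  positivity

/-- A coefficient of a positive expansion. -/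
noncomputable def sideOne_left_c2 (y : ℝ) : ℝ :=
  (12343241417024 / 25) + (153720140578212 / 25) * y + (3745023490328689 / 100) * y ^ 2 +
  (1482860153701129 / 10) * y ^ 3 + (42807623153009453 / 100) * y ^ 4 +
  (23948319805120798 / 25) * y ^ 5 + (345001481618710631 / 200) * y ^ 6 +
  (51236573163533119 / 20) * y ^ 7 + (63811273973905559 / 20) * y ^ 8 +
  (674129564955147627 / 200) * y ^ 9 + (4869780432304688849 / 1600) * y ^ 10 +
  (1887814143111293673 / 800) * y ^ 11 + (503640484228628027 / 320) * y ^ 12 +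
  (144385533239910443 / 160) * y ^ 13 + (709299073691812797 / 1600) * y ^ 14 +
  (148308265348090199 / 800) * y ^ 15 + (26124141402141073 / 400) * y ^ 16 +
  (3052774919571609 / 160) * y ^ 17 + (361092975189159 / 80) * y ^ 18 +
  (333356728083231 / 400) * y ^ 19 + (36157646445403 / 320) * y ^ 20 +
  (4011561271499 / 400) * y ^ 21 + (175105327289 / 400) * y ^ 22

theorem sideOne_left_c2_pos {y : ℝ} (hy : 0 ≤ y) : 0 < sideOne_left_c2 y := by
  unfold sideOne_left_c2
  positivity

/-- A coefficient of a positive expansion. -/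
noncomputable def sideOne_left_c3 (y : ℝ) : ℝ :=
  (8249542329024 / 25) + (102703050299212 / 25) * y + (625414378934057 / 25) * y ^ 2 +
  (2476416030231724 / 25) * y ^ 3 + (7150677067231361 / 25) * y ^ 4 +
  (16008563754909149 / 25) * y ^ 5 + (57691323817769923 / 50) * y ^ 6 +
  (42872817171452194 / 25) * y ^ 7 + (10688778035415437 / 5) * y ^ 8 +
  (226069356214882391 / 100) * y ^ 9 + (163479541716070661 / 80) * y ^ 10 +
  (6343990665152263 / 4) * y ^ 11 + (16941015276511827 / 16) * y ^ 12 +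
  (243033016430789277 / 400) * y ^ 13 + (23892544173317659 / 80) * y ^ 14 +
  (24986907927258371 / 200) * y ^ 15 + (2200726112749539 / 50) * y ^ 16 +
  (5141707996772447 / 400) * y ^ 17 + (151944438575117 / 50) * y ^ 18 +
  (56056311147403 / 100) * y ^ 19 + (30367090017387 / 400) * y ^ 20 +
  (1346259992797 / 200) * y ^ 21 + (58740014337 / 200) * y ^ 22

theorem sideOne_left_c3_pos {y : ℝ} (hy : 0 ≤ y) : 0 < sideOne_left_c3 y := by
  unfold sideOne_left_c3
  positivity

/-- A coefficient of a positive expansion. -/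
noncomputable def sideOne_left_c4 (y : ℝ) : ℝ :=
  (3634274161216 / 25) + (9047553225164 / 5) * y + (1101902795592713 / 100) * y ^ 2 +
  (436395482488247 / 10) * y ^ 3 + (12605811544768429 / 100) * y ^ 4 +
  (14118706258706733 / 50) * y ^ 5 + (101837138393929739 / 200) * y ^ 6 +
  (75746819124648449 / 100) * y ^ 7 + (47259251520847533 / 50) * y ^ 8 +
  (200124138659205501 / 200) * y ^ 9 + (57951200382838785 / 64) * y ^ 10 +
  (562822851522918719 / 800) * y ^ 11 + (752232322807485807 / 1600) * y ^ 12 +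
  (6750369766610376 / 25) * y ^ 13 + (212497751039385987 / 1600) * y ^ 14 +
  (44463162922311787 / 800) * y ^ 15 + (31331229911969307 / 1600) * y ^ 16 +
  (1143483802170297 / 200) * y ^ 17 + (540353368252129 / 400) * y ^ 18 +
  (24897548496141 / 100) * y ^ 19 + (26947532526973 / 800) * y ^ 20 +
  (1193488648211 / 400) * y ^ 21 + (52049924237 / 400) * y ^ 22

theorem sideOne_left_c4_pos {y : ℝ} (hy : 0 ≤ y) : 0 < sideOne_left_c4 y := by
  unfold sideOne_left_c4
  positivity

/-- A coefficient of a positive expansion. -/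
noncomputable def sideOne_left_c5 (y : ℝ) : ℝ :=
  (1108281975328 / 25) + (13795637464068 / 25) * y + (168046029786303 / 50) * y ^ 2 +
  (332879885391034 / 25) * y ^ 3 + (1924152717548891 / 50) * y ^ 4 +
  (4313204504139783 / 50) * y ^ 5 + (15568798678753043 / 100) * y ^ 6 +
  (5795803210910247 / 25) * y ^ 7 + (7240008568487224 / 25) * y ^ 8 +
  (30693793428427501 / 100) * y ^ 9 + (222463348404113751 / 800) * y ^ 10 +
  (43259999862626843 / 200) * y ^ 11 + (115756474535095753 / 800) * y ^ 12 +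
  (66540225476379909 / 800) * y ^ 13 + (818776348147209 / 20) * y ^ 14 +
  (685574558347481 / 40) * y ^ 15 + (4831561768903823 / 800) * y ^ 16 +
  (1410421096955397 / 800) * y ^ 17 + (333080831447067 / 800) * y ^ 18 +
  (30670626937419 / 400) * y ^ 19 + (4145548549629 / 400) * y ^ 20 + (18343219559 / 20) * y ^ 21 +
  (7995715019 / 200) * y ^ 22

theorem sideOne_left_c5_pos {y : ℝ} (hy : 0 ≤ y) : 0 < sideOne_left_c5 y := by
  unfold sideOne_left_c5
  positivity

/-- A coefficient of a positive expansion. -/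
noncomputable def sideOne_left_c6 (y : ℝ) : ℝ :=
  (238769475648 / 25) + (2972741587756 / 25) * y + (72447703282559 / 100) * y ^ 2 +
  (28716859931571 / 10) * y ^ 3 + (830527687094363 / 100) * y ^ 4 +
  (465819469026927 / 25) * y ^ 5 + (1346436187631829 / 40) * y ^ 6 +
  (5017838338820749 / 100) * y ^ 7 + (6275523289431439 / 100) * y ^ 8 +
  (13318587101350481 / 200) * y ^ 9 + (3865917357761527 / 64) * y ^ 10 +
  (37631868551334323 / 800) * y ^ 11 + (50401782196174769 / 1600) * y ^ 12 +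
  (2899876390840103 / 160) * y ^ 13 + (2856645958680471 / 320) * y ^ 14 +
  (2991255813168847 / 800) * y ^ 15 + (1054218811392981 / 800) * y ^ 16 +
  (307704979166799 / 800) * y ^ 17 + (7263520649741 / 80) * y ^ 18 + (835461768161 / 50) * y ^ 19 +
  (3610389740167 / 1600) * y ^ 20 + (39902816847 / 200) * y ^ 21 + (1738424893 / 200) * y ^ 22

theorem sideOne_left_c6_pos {y : ℝ} (hy : 0 ≤ y) : 0 < sideOne_left_c6 y := by
  unfold sideOne_left_c6
  positivity

/-- A coefficient of a positive expansion. -/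
noncomputable def sideOne_left_c7 (y : ℝ) : ℝ :=
  1453937344 + (452721882596 / 25) * y + (551946356388 / 5) * y ^ 2 +
  (10946428236104 / 25) * y ^ 3 + (31684543277602 / 25) * y ^ 4 + (71152311137728 / 25) * y ^ 5 +
  5147160422861 * y ^ 6 + (192048477874641 / 25) * y ^ 7 + (240483088954789 / 25) * y ^ 8 +
  (1022056914453953 / 100) * y ^ 9 + (185650206640259 / 20) * y ^ 10 +
  (361866335411053 / 50) * y ^ 11 + (970376987095369 / 200) * y ^ 12 +
  (558827745303911 / 200) * y ^ 13 + (550897136050779 / 400) * y ^ 14 +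
  (230854032323103 / 400) * y ^ 15 + (5086103337358 / 25) * y ^ 16 +
  (23750490218229 / 400) * y ^ 17 + (224172966587 / 16) * y ^ 18 + (1030739744221 / 400) * y ^ 19 +
  (34770847901 / 100) * y ^ 20 + (2457449337 / 80) * y ^ 21 + (2675147 / 2) * y ^ 22

theorem sideOne_left_c7_pos {y : ℝ} (hy : 0 ≤ y) : 0 < sideOne_left_c7 y := by
  unfold sideOne_left_c7
  positivity

/-- A coefficient of a positive expansion. -/
noncomputable def sideOne_left_c8 (y : ℝ) : ℝ :=
  (3832502592 / 25) + (47761655864 / 25) * y + (58270746464 / 5) * y ^ 2 +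
  (231323239064 / 5) * y ^ 3 + (3351071056816 / 25) * y ^ 4 + (7533494669464 / 25) * y ^ 5 +
  (13640520639824 / 25) * y ^ 6 + (20383738231014 / 25) * y ^ 7 + 1022322566274 * y ^ 8 +
  (54383112605797 / 50) * y ^ 9 + (24727921322267 / 25) * y ^ 10 + (19303335822976 / 25) * y ^ 11 +
  (25910520142057 / 50) * y ^ 12 + (7467845187146 / 25) * y ^ 13 + (736735822502 / 5) * y ^ 14 +
  (3088866945597 / 50) * y ^ 15 + (108911045869 / 5) * y ^ 16 + (317850182691 / 50) * y ^ 17 +
  (119965344827 / 80) * y ^ 18 + (27564307129 / 100) * y ^ 19 + (1486665381 / 40) * y ^ 20 +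
  (65619103 / 20) * y ^ 21 + (11423403 / 80) * y ^ 22

theorem sideOne_left_c8_pos {y : ℝ} (hy : 0 ≤ y) : 0 < sideOne_left_c8 y := by
  unfold sideOne_left_c8
  positivity

/-- A coefficient of a positive expansion. -/
noncomputable def sideOne_left_c9 (y : ℝ) : ℝ :=
  (53320944 / 5) + (3325097248 / 25) * y + (4060328944 / 5) * y ^ 2 + (16134780976 / 5) * y ^ 3 +
  (233995363312 / 25) * y ^ 4 + (105335015728 / 5) * y ^ 5 + (954851492524 / 25) * y ^ 6 +
  (1428806051136 / 25) * y ^ 7 + (1793970418949 / 25) * y ^ 8 + (1911250974264 / 25) * y ^ 9 +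
  (1740401945744 / 25) * y ^ 10 + (1360307360617 / 25) * y ^ 11 + (182797438767 / 5) * y ^ 12 +
  (210944232751 / 10) * y ^ 13 + (260330715818 / 25) * y ^ 14 + (21841024754 / 5) * y ^ 15 +
  (77030795917 / 50) * y ^ 16 + (22481052903 / 50) * y ^ 17 + (2650860126 / 25) * y ^ 18 +
  (487026886 / 25) * y ^ 19 + (131250897 / 50) * y ^ 20 + (1157846 / 5) * y ^ 21 +
  (50369 / 5) * y ^ 22

theorem sideOne_left_c9_pos {y : ℝ} (hy : 0 ≤ y) : 0 < sideOne_left_c9 y := by
  unfold sideOne_left_c9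
  positivity

/-- A coefficient of a positive expansion. -/
noncomputable def sideOne_left_c10 (y : ℝ) : ℝ :=
  (11014784 / 25) + (137514112 / 25) * y + (840509728 / 25) * y ^ 2 + (3343864096 / 25) * y ^ 3 +
  (9710963088 / 25) * y ^ 4 + (4377237248 / 5) * y ^ 5 + (39733990768 / 25) * y ^ 6 +
  (59541027696 / 25) * y ^ 7 + (14973071184 / 5) * y ^ 8 + (79872615848 / 25) * y ^ 9 +
  (72831786834 / 25) * y ^ 10 + (56998066706 / 25) * y ^ 11 + (7668121049 / 5) * y ^ 12 +
  (22143720332 / 25) * y ^ 13 + (2187943954 / 5) * y ^ 14 + (4591590578 / 25) * y ^ 15 +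
  (323978646 / 5) * y ^ 16 + (472779712 / 25) * y ^ 17 + (111473158 / 25) * y ^ 18 +
  (4094324 / 5) * y ^ 19 + (551381 / 5) * y ^ 20 + (48612 / 5) * y ^ 21 + (2114 / 5) * y ^ 22

theorem sideOne_left_c10_pos {y : ℝ} (hy : 0 ≤ y) : 0 < sideOne_left_c10 y := by
  unfold sideOne_left_c10
  positivity

/-- A coefficient of a positive expansion. -/
noncomputable def sideOne_left_c11 (y : ℝ) : ℝ :=
  8192 + 102400 * y + 626688 * y ^ 2 + 2496512 * y ^ 3 + 7260160 * y ^ 4 + 16386048 * y ^ 5 +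
  29792256 * y ^ 6 + 44709888 * y ^ 7 + 56300544 * y ^ 8 + 60153344 * y ^ 9 + 54926848 * y ^ 10 +
  43041024 * y ^ 11 + 28985600 * y ^ 12 + 16757248 * y ^ 13 + 8285184 * y ^ 14 + 3479424 * y ^ 15 +
  1227936 * y ^ 16 + 358416 * y ^ 17 + 84496 * y ^ 18 + 15512 * y ^ 19 + 2088 * y ^ 20 +
  184 * y ^ 21 + 8 * y ^ 22

theorem sideOne_left_c11_pos {y : ℝ} (hy : 0 ≤ y) : 0 < sideOne_left_c11 y := by
  unfold sideOne_left_c11
  positivity

set_option maxHeartbeats 4000000 in
theorem sideOne_left {x y : ℝ} (hx : 0 ≤ x) (hy : 0 ≤ y) :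
    0 < sideNum (x + 5) (pW (x + 5) (y + 1)) (pC1 (x + 5) (y + 1)) (pC2 (x + 5) (y + 1)) (pC3 (x + 5) (y + 1))
      (pA (x + 5) (y + 1)) (pB (x + 5) (y + 1)) (pG (x + 5) (y + 1)) (pGd (x + 5) (y + 1)) (y + 1) 1 := by
  have e : sideNum (x + 5) (pW (x + 5) (y + 1)) (pC1 (x + 5) (y + 1)) (pC2 (x + 5) (y + 1)) (pC3 (x + 5) (y + 1))
      (pA (x + 5) (y + 1)) (pB (x + 5) (y + 1)) (pG (x + 5) (y + 1)) (pGd (x + 5) (y + 1)) (y + 1) 1 =
      sideOne_left_c0 y +
      sideOne_left_c1 y * x ^ 1 +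
      sideOne_left_c2 y * x ^ 2 +
      sideOne_left_c3 y * x ^ 3 +
      sideOne_left_c4 y * x ^ 4 +
      sideOne_left_c5 y * x ^ 5 +
      sideOne_left_c6 y * x ^ 6 +
      sideOne_left_c7 y * x ^ 7 +
      sideOne_left_c8 y * x ^ 8 +
      sideOne_left_c9 y * x ^ 9 +
      sideOne_left_c10 y * x ^ 10 +
      sideOne_left_c11 y * x ^ 11 := by
    simp only [eA, eB, eR, eS, eV, eM, sideNum, pH, pK, pE, pC1, pC2, pC3, pC4, pL1, pL2, pM1,
      pM2, pm2, pT, pA, pB, pD, pW, pG, pG2, pGd,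
      sideOne_left_c0, sideOne_left_c1, sideOne_left_c2, sideOne_left_c3, sideOne_left_c4,
      sideOne_left_c5, sideOne_left_c6, sideOne_left_c7, sideOne_left_c8, sideOne_left_c9,
      sideOne_left_c10, sideOne_left_c11]
    ring
  rw [e]
  have k0 := sideOne_left_c0_pos hy
  have k1 := mul_nonneg (sideOne_left_c1_pos hy).le (pow_nonneg hx 1)
  have k2 := mul_nonneg (sideOne_left_c2_pos hy).le (pow_nonneg hx 2)
  have k3 := mul_nonneg (sideOne_left_c3_pos hy).le (pow_nonneg hx 3)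
  have k4 := mul_nonneg (sideOne_left_c4_pos hy).le (pow_nonneg hx 4)
  have k5 := mul_nonneg (sideOne_left_c5_pos hy).le (pow_nonneg hx 5)
  have k6 := mul_nonneg (sideOne_left_c6_pos hy).le (pow_nonneg hx 6)
  have k7 := mul_nonneg (sideOne_left_c7_pos hy).le (pow_nonneg hx 7)
  have k8 := mul_nonneg (sideOne_left_c8_pos hy).le (pow_nonneg hx 8)
  have k9 := mul_nonneg (sideOne_left_c9_pos hy).le (pow_nonneg hx 9)
  have k10 := mul_nonneg (sideOne_left_c10_pos hy).le (pow_nonneg hx 10)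
  have k11 := mul_nonneg (sideOne_left_c11_pos hy).le (pow_nonneg hx 11)
  linarith

end Vale.Agent.P100.Thin
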