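import Vale.Agent.P100.ThinDefs

/-!
# P100: positivity of one polynomial of the certificate
-/

namespace Vale.Agent.P100.Thin

open Wide (sideNum)

/-- A coefficient of a positive expansion. -/
noncomputable def sideTwo_left_c0 (y : ℝ) : ℝ :=
  (4156962094599 / 25) + (56919572527902 / 25) * y + (75954515326362 / 5) * y ^ 2 +
  (328479396938619 / 5) * y ^ 3 + (20670550991825451 / 100) * y ^ 4 +
  (12587964807219423 / 25) * y ^ 5 + (49327267356460941 / 50) * y ^ 6 +
  (7972502590499619 / 5) * y ^ 7 + (216313828355959341 / 100) * y ^ 8 +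
  (62331162715148853 / 25) * y ^ 9 + (61552000692005724 / 25) * y ^ 10 +
  (209442023094777447 / 100) * y ^ 11 + (38485233329536494 / 25) * y ^ 12 +
  (97835498658340167 / 100) * y ^ 13 + (53681275123036071 / 100) * y ^ 14 +
  (1013047661942247 / 4) * y ^ 15 + (1020154396873533 / 10) * y ^ 16 +
  (3470269785631647 / 100) * y ^ 17 + (980882434830831 / 100) * y ^ 18 +
  (22489864142061 / 10) * y ^ 19 + (806404976979 / 2) * y ^ 20 + (2661318602391 / 50) * y ^ 21 +
  (115600595109 / 25) * y ^ 22 + 199853325 * y ^ 23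

theorem sideTwo_left_c0_pos {y : ℝ} (hy : 0 ≤ y) : 0 < sideTwo_left_c0 y := by
  unfold sideTwo_left_c0
  positivity

/-- A coefficient of a positive expansion. -/
noncomputable def sideTwo_left_c1 (y : ℝ) : ℝ :=
  (52999551671128 / 125) + (724117764564484 / 125) * y + (964468493111832 / 25) * y ^ 2 +
  (4164712653377422 / 25) * y ^ 3 + (65443553274302968 / 125) * y ^ 4 +
  (159285425779602871 / 125) * y ^ 5 + (311932680848049716 / 125) * y ^ 6 +
  (201621503526780763 / 50) * y ^ 7 + (1367676774824874161 / 250) * y ^ 8 +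
  (1576767673767509377 / 250) * y ^ 9 + (1557631313893093251 / 250) * y ^ 10 +
  (662790105503812646 / 125) * y ^ 11 + (974658279943584351 / 250) * y ^ 12 +
  (309777928522646906 / 125) * y ^ 13 + (679839241191817267 / 500) * y ^ 14 +
  (6412037708597017 / 10) * y ^ 15 + (25805874780699509 / 100) * y ^ 16 +
  (10958489924425906 / 125) * y ^ 17 + (12367646443667617 / 500) * y ^ 18 +
  (141468127374688 / 25) * y ^ 19 + (101183387583139 / 100) * y ^ 20 +
  (33291105898007 / 250) * y ^ 21 + (2881841582831 / 250) * y ^ 22 + 496003545 * y ^ 23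

theorem sideTwo_left_c1_pos {y : ℝ} (hy : 0 ≤ y) : 0 < sideTwo_left_c1 y := by
  unfold sideTwo_left_c1
  positivity

/-- A coefficient of a positive expansion. -/
noncomputable def sideTwo_left_c2 (y : ℝ) : ℝ :=
  (302021713832884 / 625) + (4119370795346812 / 625) * y + (5478834252195128 / 125) * y ^ 2 +
  (23632089819272262 / 125) * y ^ 3 + (371053544703723179 / 625) * y ^ 4 +
  (902660124111567123 / 625) * y ^ 5 + (1767264632620042483 / 625) * y ^ 6 +
  (1142275038671191497 / 250) * y ^ 7 + (7749881589740909173 / 1250) * y ^ 8 +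
  (8937610705970210911 / 1250) * y ^ 9 + (17665634675666912541 / 2500) * y ^ 10 +
  (7520191016815130351 / 1250) * y ^ 11 + (11062796321734287701 / 2500) * y ^ 12 +
  (1758431626699622843 / 625) * y ^ 13 + (3858944009444035171 / 2500) * y ^ 14 +
  (7276737448480581 / 10) * y ^ 15 + (5852930104680483 / 20) * y ^ 16 +
  (62065568739070133 / 625) * y ^ 17 + (17484381198091254 / 625) * y ^ 18 +
  (1596827278746569 / 250) * y ^ 19 + (284854447500479 / 250) * y ^ 20 +
  (186923792284741 / 1250) * y ^ 21 + (8063665345029 / 625) * y ^ 22 + 552797004 * y ^ 23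

theorem sideTwo_left_c2_pos {y : ℝ} (hy : 0 ≤ y) : 0 < sideTwo_left_c2 y := by
  unfold sideTwo_left_c2
  positivity

/-- A coefficient of a positive expansion. -/
noncomputable def sideTwo_left_c3 (y : ℝ) : ℝ :=
  (203378711847256 / 625) + (2770094783594756 / 625) * y + (18400506978902808 / 625) * y ^ 2 +
  (79300494586327134 / 625) * y ^ 3 + (248881152175332956 / 625) * y ^ 4 +
  (121051345612387723 / 125) * y ^ 5 + (236974822120984958 / 125) * y ^ 6 +
  (3829553291347038107 / 1250) * y ^ 7 + (5197631369342273559 / 1250) * y ^ 8 +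
  (5996291821478972853 / 1250) * y ^ 9 + (2964198834530091558 / 625) * y ^ 10 +
  (2524720408139587447 / 625) * y ^ 11 + (371531363282788562 / 125) * y ^ 12 +
  (2362654824603913429 / 1250) * y ^ 13 + (518482755177270553 / 500) * y ^ 14 +
  (122175031469792833 / 250) * y ^ 15 + (491039036644265437 / 2500) * y ^ 16 +
  (41615356375507314 / 625) * y ^ 17 + (46829681934710651 / 2500) * y ^ 18 +
  (2668425059926077 / 625) * y ^ 19 + (1900040470158309 / 2500) * y ^ 20 +
  (12436746362903 / 125) * y ^ 21 + (5348557616012 / 625) * y ^ 22 + (1825996213 / 5) * y ^ 23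

theorem sideTwo_left_c3_pos {y : ℝ} (hy : 0 ≤ y) : 0 < sideTwo_left_c3 y := by
  unfold sideTwo_left_c3
  positivity

/-- A coefficient of a positive expansion. -/
noncomputable def sideTwo_left_c4 (y : ℝ) : ℝ :=
  (90017843914042 / 625) + (1224633946974472 / 625) * y + (325080590663172 / 25) * y ^ 2 +
  (7000170503426748 / 125) * y ^ 3 + (219599941252352869 / 1250) * y ^ 4 +
  (266963141039517941 / 625) * y ^ 5 + (522595684550484616 / 625) * y ^ 6 +
  (1689236128737519917 / 1250) * y ^ 7 + (1146617450237294796 / 625) * y ^ 8 +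
  (2646443127385759841 / 1250) * y ^ 9 + (5234809532753158099 / 2500) * y ^ 10 +
  (223010738805868848 / 125) * y ^ 11 + (3282673145410038619 / 2500) * y ^ 12 +
  (208783880027018559 / 250) * y ^ 13 + (1145393636840237809 / 2500) * y ^ 14 +
  (134912647807604232 / 625) * y ^ 15 + (216772003178037971 / 2500) * y ^ 16 +
  (36710650212005557 / 1250) * y ^ 17 + (5157606976602834 / 625) * y ^ 18 +
  (469498536491307 / 250) * y ^ 19 + (41709155901426 / 125) * y ^ 20 +
  (54476515116571 / 1250) * y ^ 21 + (2336170181331 / 625) * y ^ 22 + (794572467 / 5) * y ^ 23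

theorem sideTwo_left_c4_pos {y : ℝ} (hy : 0 ≤ y) : 0 < sideTwo_left_c4 y := by
  unfold sideTwo_left_c4
  positivity

/-- A coefficient of a positive expansion. -/
noncomputable def sideTwo_left_c5 (y : ℝ) : ℝ :=
  (27526108015144 / 625) + (374080898498476 / 625) * y + (2480416527228464 / 625) * y ^ 2 +
  (10675972768459986 / 625) * y ^ 3 + (6695621970605172 / 125) * y ^ 4 +
  (81380841472838433 / 625) * y ^ 5 + (31860133015727726 / 125) * y ^ 6 +
  (514965747555097573 / 1250) * y ^ 7 + (699221146455874461 / 1250) * y ^ 8 +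
  (807112449609990633 / 1250) * y ^ 9 + (798471212830530841 / 1250) * y ^ 10 +
  (340247103567115724 / 625) * y ^ 11 + (500933500873593657 / 1250) * y ^ 12 +
  (63725849951102271 / 250) * y ^ 13 + (349575688686950683 / 2500) * y ^ 14 +
  (82328297488798491 / 1250) * y ^ 15 + (66106736158978487 / 2500) * y ^ 16 +
  (5593254571461909 / 625) * y ^ 17 + (6279809581145887 / 2500) * y ^ 18 +
  (356793978967588 / 625) * y ^ 19 + (253144541901461 / 2500) * y ^ 20 +
  (8248655686563 / 625) * y ^ 21 + (705622649373 / 625) * y ^ 22 + (239152587 / 5) * y ^ 23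

theorem sideTwo_left_c5_pos {y : ℝ} (hy : 0 ≤ y) : 0 < sideTwo_left_c5 y := by
  unfold sideTwo_left_c5
  positivity

/-- A coefficient of a positive expansion. -/
noncomputable def sideTwo_left_c6 (y : ℝ) : ℝ :=
  (1187796978276 / 125) + (80630808536068 / 625) * y + (534207979258696 / 625) * y ^ 2 +
  (2297919138821202 / 625) * y ^ 3 + (7203020992601607 / 625) * y ^ 4 +
  (17505527444984449 / 625) * y ^ 5 + (6852664149396457 / 125) * y ^ 6 +
  (110763279944483943 / 1250) * y ^ 7 + (150408370414662671 / 1250) * y ^ 8 +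
  (173641403959230497 / 1250) * y ^ 9 + (343620152331604779 / 2500) * y ^ 10 +
  (146445989017441477 / 1250) * y ^ 11 + (215627554584447979 / 2500) * y ^ 12 +
  (34288731853563787 / 625) * y ^ 13 + (15045685231173857 / 500) * y ^ 14 +
  (3542355595422547 / 250) * y ^ 15 + (2842982909124293 / 500) * y ^ 16 +
  (1201850712152042 / 625) * y ^ 17 + (337017767352411 / 625) * y ^ 18 +
  (152995514706457 / 1250) * y ^ 19 + (27096053422161 / 1250) * y ^ 20 +
  (3525006711137 / 1250) * y ^ 21 + (150409776624 / 625) * y ^ 22 + 10162225 * y ^ 23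

theorem sideTwo_left_c6_pos {y : ℝ} (hy : 0 ≤ y) : 0 < sideTwo_left_c6 y := by
  unfold sideTwo_left_c6
  positivity

/-- A coefficient of a positive expansion. -/
noncomputable def sideTwo_left_c7 (y : ℝ) : ℝ :=
  (904820182984 / 625) + (12272158371148 / 625) * y + (81240766470776 / 625) * y ^ 2 +
  (349240672399946 / 625) * y ^ 3 + (8753826991188 / 5) * y ^ 4 +
  (2658501404041613 / 625) * y ^ 5 + (5202500000568258 / 625) * y ^ 6 +
  (3363333431624197 / 250) * y ^ 7 + (22835311129925517 / 1250) * y ^ 8 +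
  (26363157207556251 / 1250) * y ^ 9 + (13043048670579423 / 625) * y ^ 10 +
  (11117814586737867 / 625) * y ^ 11 + (8184832736206827 / 625) * y ^ 12 +
  (10411396474313723 / 1250) * y ^ 13 + (11418946301386519 / 2500) * y ^ 14 +
  (2687594098714791 / 1250) * y ^ 15 + (2155916401717703 / 2500) * y ^ 16 +
  (182155521726648 / 625) * y ^ 17 + (204134970109021 / 2500) * y ^ 18 +
  (11570842102473 / 625) * y ^ 19 + (8185552770331 / 2500) * y ^ 20 + (10630466067 / 25) * y ^ 21 +
  (905188588 / 25) * y ^ 22 + (7621567 / 5) * y ^ 23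

theorem sideTwo_left_c7_pos {y : ℝ} (hy : 0 ≤ y) : 0 < sideTwo_left_c7 y := by
  unfold sideTwo_left_c7
  positivity

/-- A coefficient of a positive expansion. -/
noncomputable def sideTwo_left_c8 (y : ℝ) : ℝ :=
  (95457070639 / 625) + (1293361550154 / 625) * y + (8554456528746 / 625) * y ^ 2 +
  (293986846841 / 5) * y ^ 3 + (460305030870459 / 2500) * y ^ 4 + (279472095340336 / 625) * y ^ 5 +
  (1093489798890411 / 1250) * y ^ 6 + (1766932158963409 / 1250) * y ^ 7 +
  (4797890147728019 / 2500) * y ^ 8 + (2769242012959549 / 1250) * y ^ 9 +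
  (1095948262214537 / 500) * y ^ 10 + (4670414180681321 / 2500) * y ^ 11 +
  (3437858026039949 / 2500) * y ^ 12 + (2186126621167083 / 2500) * y ^ 13 +
  (299629872842131 / 625) * y ^ 14 + (563960374342857 / 2500) * y ^ 15 +
  (45216284990099 / 500) * y ^ 16 + (122170245423 / 4) * y ^ 17 +
  (21374365924189 / 2500) * y ^ 18 + (242055746188 / 125) * y ^ 19 + (85508509771 / 250) * y ^ 20 +
  (5543594819 / 125) * y ^ 21 + (471076138 / 125) * y ^ 22 + (791048 / 5) * y ^ 23

theorem sideTwo_left_c8_pos {y : ℝ} (hy : 0 ≤ y) : 0 < sideTwo_left_c8 y := by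
  unfold sideTwo_left_c8
  positivity

/-- A coefficient of a positive expansion. -/
noncomputable def sideTwo_left_c9 (y : ℝ) : ℝ :=
  (265808896 / 25) + (17987584816 / 125) * y + (118857430728 / 125) * y ^ 2 +
  (510177904008 / 125) * y ^ 3 + (1596553971636 / 125) * y ^ 4 + (775059195464 / 25) * y ^ 5 +
  (1515630017102 / 25) * y ^ 6 + (12240910413018 / 125) * y ^ 7 + (3322874047341 / 25) * y ^ 8 +
  (19173900057901 / 125) * y ^ 9 + (18965924785179 / 125) * y ^ 10 +
  (16160853147492 / 125) * y ^ 11 + (11892791652317 / 125) * y ^ 12 +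
  (15120674613437 / 250) * y ^ 13 + (8286752020693 / 250) * y ^ 14 +
  (1948788646778 / 125) * y ^ 15 + (780803237078 / 125) * y ^ 16 + (263528015787 / 125) * y ^ 17 +
  (73707811109 / 125) * y ^ 18 + (16677383094 / 125) * y ^ 19 + (2942128064 / 125) * y ^ 20 +
  (152364067 / 50) * y ^ 21 + (12922659 / 50) * y ^ 22 + (54108 / 5) * y ^ 23

theorem sideTwo_left_c9_pos {y : ℝ} (hy : 0 ≤ y) : 0 < sideTwo_left_c9 y := by
  unfold sideTwo_left_c9
  positivity

/-- A coefficient of a positive expansion. -/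
noncomputable def sideTwo_left_c10 (y : ℝ) : ℝ :=
  (10994752 / 25) + (148626496 / 25) * y + (196205344 / 5) * y ^ 2 + (4206980736 / 25) * y ^ 3 +
  (2630973728 / 5) * y ^ 4 + (31908953216 / 25) * y ^ 5 + (12472296384 / 5) * y ^ 6 +
  (100680200256 / 25) * y ^ 7 + (136588756628 / 25) * y ^ 8 + 6302586436 * y ^ 9 +
  (155793643394 / 25) * y ^ 10 + (132699985688 / 25) * y ^ 11 + (97615298648 / 25) * y ^ 12 +
  (62028570966 / 25) * y ^ 13 + (33978350307 / 25) * y ^ 14 + (15972836576 / 25) * y ^ 15 +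
  (6395745387 / 25) * y ^ 16 + (2157059581 / 25) * y ^ 17 + (602807184 / 25) * y ^ 18 +
  (136255777 / 25) * y ^ 19 + (24008651 / 25) * y ^ 20 + (3103833 / 25) * y ^ 21 +
  (262769 / 25) * y ^ 22 + 439 * y ^ 23

theorem sideTwo_left_c10_pos {y : ℝ} (hy : 0 ≤ y) : 0 < sideTwo_left_c10 y := by
  unfold sideTwo_left_c10
  positivity

/-- A coefficient of a positive expansion. -/
noncomputable def sideTwo_left_c11 (y : ℝ) : ℝ :=
  8192 + 110592 * y + 729088 * y ^ 2 + 3123200 * y ^ 3 + 9756672 * y ^ 4 + 23646208 * y ^ 5 +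
  46178304 * y ^ 6 + 74502144 * y ^ 7 + 101010432 * y ^ 8 + 116453888 * y ^ 9 +
  115080192 * y ^ 10 + 97967872 * y ^ 11 + 72026624 * y ^ 12 + 45742848 * y ^ 13 +
  25042432 * y ^ 14 + 11764608 * y ^ 15 + 4707360 * y ^ 16 + 1586352 * y ^ 17 + 442912 * y ^ 18 +
  100008 * y ^ 19 + 17600 * y ^ 20 + 2272 * y ^ 21 + 192 * y ^ 22 + 8 * y ^ 23

theorem sideTwo_left_c11_pos {y : ℝ} (hy : 0 ≤ y) : 0 < sideTwo_left_c11 y := by
  unfold sideTwo_left_c11
  positivity

set_option maxHeartbeats 4000000 in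
theorem sideTwo_left {x y : ℝ} (hx : 0 ≤ x) (hy : 0 ≤ y) :
    0 < sideNum (x + 5) (pW (x + 5) (y + 1)) (pC4 (x + 5) (y + 1)) (pC3 (x + 5) (y + 1)) (pC2 (x + 5) (y + 1))
      (pB (x + 5) (y + 1)) (pA (x + 5) (y + 1)) (pH (x + 5) (y + 1)) (pGd (x + 5) (y + 1)) 1 (y + 1) := by
  have e : sideNum (x + 5) (pW (x + 5) (y + 1)) (pC4 (x + 5) (y + 1)) (pC3 (x + 5) (y + 1)) (pC2 (x + 5) (y + 1))
      (pB (x + 5) (y + 1)) (pA (x + 5) (y + 1)) (pH (x + 5) (y + 1)) (pGd (x + 5) (y + 1)) 1 (y + 1) =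
      sideTwo_left_c0 y +
      sideTwo_left_c1 y * x ^ 1 +
      sideTwo_left_c2 y * x ^ 2 +
      sideTwo_left_c3 y * x ^ 3 +
      sideTwo_left_c4 y * x ^ 4 +
      sideTwo_left_c5 y * x ^ 5 +
      sideTwo_left_c6 y * x ^ 6 +
      sideTwo_left_c7 y * x ^ 7 +
      sideTwo_left_c8 y * x ^ 8 +
      sideTwo_left_c9 y * x ^ 9 +
      sideTwo_left_c10 y * x ^ 10 +
      sideTwo_left_c11 y * x ^ 11 := by
    simp only [eA, eB, eR, eS, eV, eM, sideNum, pH, pK, pE, pC1, pC2, pC3, pC4, pL1, pL2, pM1,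
      pM2, pm2, pT, pA, pB, pD, pW, pG, pG2, pGd,
      sideTwo_left_c0, sideTwo_left_c1, sideTwo_left_c2, sideTwo_left_c3, sideTwo_left_c4,
      sideTwo_left_c5, sideTwo_left_c6, sideTwo_left_c7, sideTwo_left_c8, sideTwo_left_c9,
      sideTwo_left_c10, sideTwo_left_c11]
    ring
  rw [e]
  have k0 := sideTwo_left_c0_pos hy
  have k1 := mul_nonneg (sideTwo_left_c1_pos hy).le (pow_nonneg hx 1)
  have k2 := mul_nonneg (sideTwo_left_c2_pos hy).le (pow_nonneg hx 2)
  have k3 := mul_nonneg (sideTwo_left_c3_pos hy).le (pow_nonneg hx 3)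
  have k4 := mul_nonneg (sideTwo_left_c4_pos hy).le (pow_nonneg hx 4)
  have k5 := mul_nonneg (sideTwo_left_c5_pos hy).le (pow_nonneg hx 5)
  have k6 := mul_nonneg (sideTwo_left_c6_pos hy).le (pow_nonneg hx 6)
  have k7 := mul_nonneg (sideTwo_left_c7_pos hy).le (pow_nonneg hx 7)
  have k8 := mul_nonneg (sideTwo_left_c8_pos hy).le (pow_nonneg hx 8)
  have k9 := mul_nonneg (sideTwo_left_c9_pos hy).le (pow_nonneg hx 9)
  have k10 := mul_nonneg (sideTwo_left_c10_pos hy).le (pow_nonneg hx 10)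
  have k11 := mul_nonneg (sideTwo_left_c11_pos hy).le (pow_nonneg hx 11)
  linarith

end Vale.Agent.P100.Thin
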