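import Vale.Agent.P100.Assembly
import Vale.Agent.P100.BlockForm
import Vale.Agent.P100.ThinA
import Vale.Agent.P100.ThinPOne
import Vale.Agent.P100.ThinPTwo
import Vale.Agent.P100.ThinMinor
import Vale.Agent.P100.ThinDet
import Vale.Agent.P100.ThinSideOneInf
import Vale.Agent.P100.ThinSideOne
import Vale.Agent.P100.ThinSideTwoInf
import Vale.Agent.P100.ThinSideTwo

/-!
# P100: the Lane–Emden system for `n ≥ 5` and `α + β ≥ n - 2 + 3n / (10 (n + 2))`
-/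

namespace Vale.Agent.P100.Thin

open Filter Topology
open Block (sideVal sideVal_eq sideVal_pos form_nonneg wForm_scaled)

/-- The least value of `α + β`. -/
noncomputable def lowSum (n : ℝ) : ℝ := n - 2 + 3 * n / (10 * (n + 2))

theorem lowSum_eq {n : ℝ} (hn : n + 2 ≠ 0) : lowSum n = pK n / pE n := by
  simp only [lowSum, pK, pE]
  field_simp
  ring

theorem pK_pos {n : ℝ} (hn : 5 ≤ n) : 0 < pK n := by unfold pK; nlinarith

theorem pE_pos {n : ℝ} (hn : 5 ≤ n) : 0 < pE n := by unfold pE; linarith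

theorem pW_pos {n : ℝ} (hn : 5 ≤ n) (r : ℝ) : 0 < pW n r := by
  unfold pW
  have : 0 < n - 2 := by linarith
  positivity

theorem pGd_pos {n r : ℝ} (hn : 5 ≤ n) (hr : r ≠ 0) : 0 < pGd n r := by
  unfold pGd
  positivity

theorem weight_bounds {n r : ℝ} (hn : 5 ≤ n) (hr : 1 ≤ r) :
    (1 - 2 / (n - 2) ≤ pA n r / pW n r ∧ pA n r / pW n r ≤ 1) ∧
      (1 - 2 / (n - 2) ≤ pB n r / pW n r ∧ pB n r / pW n r ≤ 1) := by
  have hW := pW_pos hn r
  have hN : 0 < n - 2 := by linarith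
  have hQ : 0 < 1 + r ^ 2 := by positivity
  have e : (1 - 2 / (n - 2)) * pW n r = pW n r - 2 * (1 + r ^ 2) ^ 2 * (n - 2) := by
    simp only [pW]; field_simp
  have hv : 0 ≤ 1 + r ^ 2 - 11 / 10 * r := by nlinarith [sq_nonneg (r - 11 / 20)]
  have h1 : 0 ≤ (r ^ 2 - r) * (1 + r ^ 2) := mul_nonneg (by nlinarith) hQ.le
  have h2 : (r ^ 2 - r) * (1 + r ^ 2) ≤ r ^ 2 * (1 + r ^ 2) * (n - 2) := by
    nlinarith [mul_nonneg (mul_nonneg (sq_nonneg r) hQ.le) (by linarith : (0 : ℝ) ≤ n - 3),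
      mul_nonneg (by linarith : (0 : ℝ) ≤ r) hQ.le]
  refine ⟨⟨?_, ?_⟩, ⟨?_, ?_⟩⟩
  · rw [le_div_iff₀ hW, e, pA]
    nlinarith [mul_nonneg hQ.le hN.le]
  · rw [div_le_one hW, pA]
    nlinarith [mul_nonneg (mul_nonneg (sq_nonneg r) hQ.le) hN.le]
  · rw [le_div_iff₀ hW, e, pB, pD]
    nlinarith [mul_nonneg (mul_nonneg (sq_nonneg r) hv) hN.le]
  · rw [div_le_one hW, pB]
    have : pD r ≤ 0 := by
      unfold pD
      nlinarith [mul_le_mul_of_nonneg_left (show 1 + r ^ 2 - 11 / 10 * r ≤ 1 + r ^ 2 by linarith)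
        (sq_nonneg r), mul_nonneg hQ.le hQ.le]
    nlinarith [mul_nonpos_of_nonpos_of_nonneg this hN.le]

theorem side_one {n y p : ℝ} (hn : 5 ≤ n) (hy : 0 ≤ y) (hp1 : y + 1 ≤ p)
    (hp2 : p ≤ y + 1 + 2 * (1 + (y + 1)) / lowSum n) :
    0 < sideVal n (pA n (y + 1) / pW n (y + 1)) (pB n (y + 1) / pW n (y + 1))
      (pC1 n (y + 1) / pW n (y + 1)) (pC2 n (y + 1) / pW n (y + 1))
      (pC3 n (y + 1) / pW n (y + 1)) (pG n (y + 1) / pGd n (y + 1)) p := by
  obtain ⟨x, hx, rfl⟩ : ∃ x, 0 ≤ x ∧ n = x + 5 := ⟨n - 5, by linarith, by ring⟩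
  have hn0 : (0 : ℝ) < x + 5 := by linarith
  have hW := (pW_pos hn (y + 1)).ne'
  have hG := (pGd_pos hn (show y + 1 ≠ 0 by linarith)).ne'
  have hK := (pK_pos hn).ne'
  have hE := (pE_pos hn).ne'
  refine sideVal_pos ?_ ?_ hp1 hp2
  · have := sideVal_eq (C₁ := pC1 (x + 5) (y + 1)) (C₂ := pC2 (x + 5) (y + 1))
      (C₃ := pC3 (x + 5) (y + 1)) (PA := pA (x + 5) (y + 1)) (PB := pB (x + 5) (y + 1))
      (G := pG (x + 5) (y + 1)) (Pn := y + 1) (L := 1) hn0.ne' hW hG one_ne_zero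
    rw [div_one] at this
    rw [this]
    have := sideOne_left hx hy
    positivity
  · have e : y + 1 + 2 * (1 + (y + 1)) / lowSum (x + 5) =
        ((y + 1) * pK (x + 5) + 2 * (1 + (y + 1)) * pE (x + 5)) / pK (x + 5) := by
      rw [lowSum_eq (by linarith)]; field_simp
    rw [e, sideVal_eq hn0.ne' hW hG hK]
    have := sideOne_right hx hy
    positivity

theorem gd_sub {n r : ℝ} (hn : 5 ≤ n) (hr : r ≠ 0) :
    2 / n - pG n r / pGd n r = pH n r / pGd n r := by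
  have : n ≠ 0 := by linarith
  have : n + 2 ≠ 0 := by linarith
  have : 1 + r ^ 2 ≠ 0 := by positivity
  rw [pH, sub_div]
  congr 1
  rw [pGd]
  field_simp
  ring

theorem side_two {n y q : ℝ} (hn : 5 ≤ n) (hy : 0 ≤ y) (hq1 : (y + 1)⁻¹ ≤ q)
    (hq2 : q ≤ (y + 1)⁻¹ + 2 * (1 + (y + 1)⁻¹) / lowSum n) :
    0 < sideVal n (pB n (y + 1) / pW n (y + 1)) (pA n (y + 1) / pW n (y + 1))
      (pC4 n (y + 1) / pW n (y + 1)) (pC3 n (y + 1) / pW n (y + 1))
      (pC2 n (y + 1) / pW n (y + 1)) (2 / n - pG n (y + 1) / pGd n (y + 1)) q := by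
  obtain ⟨x, hx, rfl⟩ : ∃ x, 0 ≤ x ∧ n = x + 5 := ⟨n - 5, by linarith, by ring⟩
  have hn0 : (0 : ℝ) < x + 5 := by linarith
  have hr0 : (y + 1) ≠ 0 := by linarith
  have hW := (pW_pos hn (y + 1)).ne'
  have hG := (pGd_pos hn hr0).ne'
  have hK := (pK_pos hn).ne'
  have hE := (pE_pos hn).ne'
  rw [gd_sub hn hr0]
  refine sideVal_pos ?_ ?_ hq1 hq2
  · rw [inv_eq_one_div, sideVal_eq hn0.ne' hW hG hr0]
    have := sideTwo_left hx hy
    positivity
  · have e : (y + 1)⁻¹ + 2 * (1 + (y + 1)⁻¹) / lowSum (x + 5) =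
        (pK (x + 5) + 2 * (1 + (y + 1)) * pE (x + 5)) / (pK (x + 5) * (y + 1)) := by
      rw [lowSum_eq (by linarith)]; field_simp; ring
    rw [e, sideVal_eq hn0.ne' hW hG (mul_ne_zero hK hr0)]
    have := sideTwo_right hx hy
    positivity

theorem wForm_fam {n : ℕ} (hn : 5 ≤ n) (r x y z : ℝ) :
    wForm n (pA n r / pW n r) (pB n r / pW n r) (pC1 n r / pW n r) (pC2 n r / pW n r)
        (pC3 n r / pW n r) (pC4 n r / pW n r) (pT n r / (n * pW n r ^ 2)) x y z *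
        ((n : ℝ) * pW n r ^ 2) =
      eA n r * x ^ 2 + 2 * eR n r * (x * y) + eM n r * y ^ 2 + 2 * eV n r * (x * z) +
        2 * eS n r * (y * z) + eB n r * z ^ 2 := by
  simp only [eA, eB, eV, eM, eR, eS, pC1, pC2, pC3, pC4]
  exact wForm_scaled (by omega) (pW_pos (by exact_mod_cast hn) r).ne' x y z

/-- The certificate. -/
theorem exists_cert {n : ℕ} (hn : 5 ≤ n) {p q r : ℝ} (hr : 1 ≤ r) (hp1 : r ≤ p)
    (hp2 : p ≤ r + 2 * (1 + r) / lowSum n) (hq1 : r⁻¹ ≤ q)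
    (hq2 : q ≤ r⁻¹ + 2 * (1 + r⁻¹) / lowSum n) :
    ∃ (δ : ℝ) (c : Fin 14 → ℝ), 0 < δ ∧
      IsCert n p q (pA n r / pW n r) (pB n r / pW n r) δ c := by
  have hN : (5 : ℝ) ≤ n := by exact_mod_cast hn
  obtain ⟨x, hx, hxN⟩ : ∃ x : ℝ, 0 ≤ x ∧ (n : ℝ) = x + 5 := ⟨n - 5, by linarith, by ring⟩
  obtain ⟨y, hy, rfl⟩ : ∃ y : ℝ, 0 ≤ y ∧ r = y + 1 := ⟨r - 1, by linarith, by ring⟩
  have hn0 : (0 : ℝ) < n := by linarith
  have f1 := side_one hN hy hp1 hp2
  have f2 := side_two hN hy hq1 hq2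
  have hW : 0 < pW n (y + 1) := pW_pos hN _
  set K := (n : ℝ) * pW n (y + 1) ^ 2 with hK
  have hK0 : 0 < K := by positivity
  set a := eA n (y + 1) with ha
  set b := eB n (y + 1) with hb
  set v := eV n (y + 1) with hv
  set M := eM n (y + 1) with hM
  set R := eR n (y + 1) with hR
  set S := eS n (y + 1) with hS
  set g := pG n (y + 1) / pGd n (y + 1)
  set A := pA n (y + 1) / pW n (y + 1) with hA
  set B := pB n (y + 1) / pW n (y + 1) with hB
  set c₁ := pC1 n (y + 1) / pW n (y + 1) with hc1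
  set c₂ := pC2 n (y + 1) / pW n (y + 1)
  set c₃ := pC3 n (y + 1) / pW n (y + 1)
  set c₄ := pC4 n (y + 1) / pW n (y + 1) with hc4
  have ha0 : 0 < a := by have := eA_pos hx hy; rwa [← hxN] at this
  have hab0 : 0 < a * b - v ^ 2 := by have := minor_pos hx hy; rwa [← hxN] at this
  have hd0 : 0 < a * M * b + 2 * R * S * v - a * S ^ 2 - b * R ^ 2 - v ^ 2 * M := by
    have := det_pos hx hy; rwa [← hxN] at this
  have ev : ∀ {f : ℝ → ℝ}, Continuous f → 0 < f 0 → ∀ᶠ ε in 𝓝[>] (0 : ℝ), 0 < f ε :=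
    fun hf h0 => eventually_nhdsWithin_of_eventually_nhds
      ((hf.tendsto 0).eventually (eventually_gt_nhds h0))
  obtain ⟨ε, h1, h2, h3, h4, h5, h6, hε⟩ := ((ev (f := fun ε => a - ε * K) (by fun_prop)
    (by simpa using ha0)).and ((ev (f := fun ε => (a - ε * K) * (b - ε * K) - v ^ 2) (by fun_prop)
    (by simpa using hab0)).and ((ev (f := fun ε => (a - ε * K) * M * (b - ε * K) + 2 * R * S * v -
      (a - ε * K) * S ^ 2 - (b - ε * K) * R ^ 2 - v ^ 2 * M) (by fun_prop)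
    (by simpa using hd0)).and ((ev (f := fun ε => sideVal n A B c₁ c₂ c₃ (g - ε) p)
      (by unfold sideVal; fun_prop) (by simpa using f1)).and
    ((ev (f := fun ε => sideVal n B A c₄ c₃ c₂ (2 / n - g - ε) q) (by unfold sideVal; fun_prop)
      (by simpa using f2)).and
    ((eventually_nhdsWithin_of_eventually_nhds
      (eventually_le_nhds (by positivity : (0 : ℝ) < 1 / n))).and
        (eventually_mem_nhdsWithin (s := Set.Ioi (0 : ℝ))))))))).exists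
  have hε0 : 0 < ε := hε
  have bp : 0 < -((n : ℝ) + 2) * pC1 n (y + 1) - (pA n (y + 1) - 2 * pW n (y + 1)) := by
    have := pOne_pos hx hy; rwa [← hxN] at this
  have bq : 0 < -((n : ℝ) + 2) * pC4 n (y + 1) - (pB n (y + 1) - 2 * pW n (y + 1)) := by
    have := pTwo_pos hx hy; rwa [← hxN] at this
  have hP : 0 < -(1 + 2 / (n : ℝ)) * c₁ - (A - 2) / n := by
    have e : -(1 + 2 / (n : ℝ)) * c₁ - (A - 2) / n =
        (-(n + 2) * pC1 n (y + 1) - (pA n (y + 1) - 2 * pW n (y + 1))) / (n * pW n (y + 1)) := by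
      rw [hA, hc1]; field_simp
    rw [e]
    exact div_pos bp (by positivity)
  have hQ : 0 < -(1 + 2 / (n : ℝ)) * c₄ - (B - 2) / n := by
    have e : -(1 + 2 / (n : ℝ)) * c₄ - (B - 2) / n =
        (-(n + 2) * pC4 n (y + 1) - (pB n (y + 1) - 2 * pW n (y + 1))) / (n * pW n (y + 1)) := by
      rw [hB, hc4]; field_simp
    rw [e]
    exact div_pos bq (by positivity)
  have hτ : 0 ≤ pT n (y + 1) / ((n : ℝ) * pW n (y + 1) ^ 2) := by
    refine div_nonneg ?_ hK0.le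
    unfold pT
    refine mul_nonneg (mul_nonneg (mul_nonneg ?_ hn0.le) (sq_nonneg _)) (sq_nonneg _)
    have h1 : 0 ≤ y * (11 / 20 * (y + 1) * (y + 2)) := by positivity
    have h2 := mul_nonneg h1 (show (0 : ℝ) ≤ n - 2 by linarith)
    have h3 := mul_nonneg (sq_nonneg (1 + (y + 1) ^ 2)) (show (0 : ℝ) ≤ n - 2 - 1 / 4 by linarith)
    linear_combination h2 + h3
  have hWf : ∀ u w z : ℝ, ε * (u ^ 2 + z ^ 2) ≤
      wForm n A B c₁ c₂ c₃ c₄ (pT n (y + 1) / ((n : ℝ) * pW n (y + 1) ^ 2)) u w z := fun u w z => by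
    refine le_of_mul_le_mul_right ?_ hK0
    rw [wForm_fam hn]
    linarith [form_nonneg h1 h2 h3 u w z]
  obtain ⟨δ, hδ, hc⟩ := isCert_of_blocks (n := n) (p := p) (q := q) (A := A) (B := B)
    (c₁ := c₁) (c₂ := c₂) (c₃ := c₃) (c₄ := c₄) (g := g - ε) (h := 2 / n - g - ε)
    (by omega) hε0 hτ hWf
    hP (by have := h4; rw [sideVal] at this; linarith) hQ
    (by have := h5; rw [sideVal] at this; linarith)
    (fun s t hs ht => by
      have := mul_nonneg (sub_nonneg.2 h6) (sq_nonneg (s - t))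
      linear_combination this)
  exact ⟨δ, _, hδ, hc⟩

/-- **Nonexistence for `n ≥ 5` and `α + β ≥ n - 2 + 3n / (10 (n + 2))`.** -/
theorem no_solution {n : ℕ} (hn : 5 ≤ n) {p q : ℝ} (hp : 0 < p) (hq : 0 < q) (hpq : 1 < p * q)
    (hreg : lowSum n * (p * q - 1) ≤ 2 * (p + q + 2)) :
    ¬ ∃ u v : (Fin n → ℝ) → ℝ, IsSol p q u v := by
  wlog hle : q ≤ p generalizing p q
  · rintro ⟨u, v, h⟩
    exact this hq hp (by rwa [mul_comm]) (by rw [mul_comm q p]; linarith) (by linarith)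
      ⟨v, u, h.swap⟩
  have hN : (5 : ℝ) ≤ n := by exact_mod_cast hn
  have hL : (n : ℝ) - 2 < lowSum n := by
    have : (0 : ℝ) < 3 * n / (10 * (n + 2)) := by positivity
    unfold lowSum
    linarith
  set r := (p + 1) / (q + 1) with hr
  have hr1 : 1 ≤ r := (one_le_div (by linarith)).2 (by linarith)
  have hri : r⁻¹ = (q + 1) / (p + 1) := by rw [hr, inv_div]
  have bnd : ∀ {p q : ℝ}, 0 < p → 0 < q → 1 < p * q →
      lowSum n * (p * q - 1) ≤ 2 * (p + q + 2) →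
      (p + 1) / (q + 1) ≤ p ∧
        p ≤ (p + 1) / (q + 1) + 2 * (1 + (p + 1) / (q + 1)) / lowSum n := by
    intro p q hp hq hpq hreg
    refine ⟨(div_le_iff₀ (by linarith)).2 (by linarith), ?_⟩
    rw [← sub_le_iff_le_add', le_div_iff₀ (by linarith : (0 : ℝ) < lowSum n),
      show p - (p + 1) / (q + 1) = (p * q - 1) / (q + 1) by field_simp; ring,
      div_mul_eq_mul_div, div_le_iff₀ (by linarith)]
    have : 2 * (1 + (p + 1) / (q + 1)) * (q + 1) = 2 * (p + q + 2) := by field_simp; ring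
    linarith
  obtain ⟨hp1, hp2⟩ := bnd hp hq hpq hreg
  obtain ⟨hq1, hq2⟩ := bnd hq hp (by rwa [mul_comm]) (by rw [mul_comm q p]; linarith)
  rw [← hri] at hq1 hq2
  obtain ⟨δ, c, hδ, hc⟩ := exists_cert hn hr1 hp1 hp2 hq1 hq2
  obtain ⟨⟨hAl, -⟩, hBl, -⟩ := weight_bounds hN hr1
  set ℓ := 1 - 2 / ((n : ℝ) - 2) with hℓ
  have hN2 : (0 : ℝ) < n - 2 := by linarith
  have hℓn : ℓ * ((n : ℝ) - 2) = n - 4 := by rw [hℓ]; field_simp; ring
  have hℓ0 : 0 < ℓ := pos_of_mul_pos_left (b := (n : ℝ) - 2) (by linarith) hN2.le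
  refine no_solution_of_cert (by omega) hpq
    (add_nonneg (hℓ0.le.trans hAl) (mul_nonneg hq.le (hℓ0.le.trans hBl)))
    (add_nonneg (mul_nonneg hp.le (hℓ0.le.trans hAl)) (hℓ0.le.trans hBl)) ?_ hδ hc
  have key : ((n : ℝ) - 4) / 2 <
      (pA n r / pW n r * (p + 1) + pB n r / pW n r * (q + 1)) / (p * q - 1) := by
    rw [lt_div_iff₀ (by linarith)]
    refine lt_of_lt_of_le ?_ (add_le_add (mul_le_mul_of_nonneg_right hAl (by linarith))
      (mul_le_mul_of_nonneg_right hBl (by linarith)))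
    have := mul_lt_mul_of_pos_left hL hℓ0
    nlinarith [mul_le_mul_of_nonneg_left hreg hℓ0.le,
      mul_lt_mul_of_pos_right this (by linarith : 0 < p * q - 1)]
  linarith

end Vale.Agent.P100.Thin
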