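import Vale.Agent.P100.WideDefs

/-!
# P100: the polynomials of the certificate for `α + β ≥ n - 2 + 3n / (10 (n + 2))`

The perturbations of the block certificate are of order `1 / (n - 2)`.
-/

namespace Vale.Agent.P100.Thin

/-- The common denominator `(1 + r²)² (n - 2)²`. -/
def pW (n r : ℝ) : ℝ := (1 + r ^ 2) ^ 2 * (n - 2) ^ 2

/-- `pW` times the weight exponent on `u`. -/
noncomputable def pA (n r : ℝ) : ℝ :=
  pW n r - 2 * r ^ 2 * (1 + r ^ 2) * (n - 2) + 1 / 4 * (r ^ 2 - r) * (1 + r ^ 2)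

/-- `(1+r²)² (n - 2)` times the exponent on `v` minus one. -/
noncomputable def pD (r : ℝ) : ℝ := 2 * r ^ 2 * (1 + r ^ 2 - 11 / 10 * r) - 2 * (1 + r ^ 2) ^ 2

/-- `pW` times the weight exponent on `v`. -/
noncomputable def pB (n r : ℝ) : ℝ := pW n r + pD r * (n - 2)

/-- The tensor coefficient of `a ⊗ a`, cleared. -/
noncomputable def pL1 (n r : ℝ) : ℝ :=
  -pW n r - (2 * (1 + r ^ 2) - 7 / 4 * r) * (1 + r ^ 2) * (n - 2)

/-- The tensor coefficient of `b ⊗ b`, cleared. -/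
noncomputable def pL2 (n r : ℝ) : ℝ := -pW n r - 11 / 4 * (1 + r ^ 2) * (n - 2)

/-- The tensor coefficient of `a ⊗ b` next to `P`, cleared. -/
noncomputable def pM1 (n r : ℝ) : ℝ :=
  -((2 * r + 11 / 20) * (1 + r ^ 2) * (n - 2) - 5 / 4 * r * (1 + r ^ 2) +
    2 * r ^ 2 * (1 + r ^ 2) * (n - 2) - (2 * (1 + r ^ 2) - 7 / 4 * r) * (1 + r ^ 2) * (n - 2))

/-- The first order part of the tensor coefficient next to `Q`. -/
noncomputable def pm2 (r : ℝ) : ℝ :=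
  11 / 20 * r ^ 2 * (1 + r ^ 2) + 2 * r * (1 + r ^ 2 - 11 / 10 * r) - pD r - 11 / 4 * (1 + r ^ 2)

/-- The tensor coefficient of `a ⊗ b` next to `Q`, cleared. -/
noncomputable def pM2 (n r : ℝ) : ℝ := -pm2 r * (n - 2)

/-- The multiplier of `|a|²|b|² - (a·b)²`, cleared. -/
noncomputable def pT (n r : ℝ) : ℝ :=
  ((r ^ 2 * (1 + r ^ 2) + 11 / 20 * r * (1 + r ^ 2) + (1 + r ^ 2 - 11 / 10 * r)) * (n - 2) -
    1 / 4 * (1 + r ^ 2) ^ 2) * n * (n - 2) ^ 2 * (1 + r ^ 2) ^ 2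

/-- The coefficient of `|a|² a`, cleared. -/
noncomputable def pC1 (n r : ℝ) : ℝ := pL1 n r - (pA n r - 2 * pW n r) / 2

/-- The coefficient of `|a|² b`, cleared. -/
noncomputable def pC2 (n r : ℝ) : ℝ := pM1 n r - pB n r / 2

/-- The coefficient of `|b|² a`, cleared. -/
noncomputable def pC3 (n r : ℝ) : ℝ := pM2 n r - pA n r / 2

/-- The coefficient of `|b|² b`, cleared. -/
noncomputable def pC4 (n r : ℝ) : ℝ := pL2 n r - (pB n r - 2 * pW n r) / 2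

/-- The denominator of the coefficient of `s b`. -/
def pGd (n r : ℝ) : ℝ := 2 * r ^ 2 * (1 + r ^ 2) ^ 2 * n ^ 2 * (n + 2)

/-- The first order part of the coefficient of `s b`. -/
noncomputable def pG2 (r : ℝ) : ℝ :=
  2 * r * (((2 * (1 + r ^ 2) - 7 / 4 * r) * (1 + r ^ 2) - r ^ 2 * (1 + r ^ 2) +
      2 * (1 + r ^ 2) ^ 2) * r ^ 2 + pm2 r - r ^ 2 * (1 + r ^ 2)) +
    (r ^ 2 - 1) * (2 * (1 + r) * (1 + r ^ 2) ^ 2 + pD r - 2 * r ^ 3 * (1 + r ^ 2)) -
    4 * r ^ 2 * (1 + r) * (1 + r ^ 2) ^ 2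

/-- The numerator of the coefficient of `s b`. -/
noncomputable def pG (n r : ℝ) : ℝ :=
  (r ^ 2 - 1) * r * (1 + r ^ 2) ^ 2 * n ^ 2 * (n + 2) - pG2 r * n * (n + 2) +
    1 / 10 * (1 + r ^ 2) ^ 2 * n * (42 * r ^ 3 - 113 * r ^ 2 + 163 * r - 96) -
    17 / 5 * r ^ 3 * (1 + r ^ 2) ^ 2

/-- The numerator of the coefficient of `t a`. -/
noncomputable def pH (n r : ℝ) : ℝ := 4 * r ^ 2 * (1 + r ^ 2) ^ 2 * n * (n + 2) - pG n r

/-- The numerator of the least `α + β`. -/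
def pK (n : ℝ) : ℝ := 10 * (n ^ 2 - 4) + 3 * n

/-- The denominator of the least `α + β`. -/
def pE (n : ℝ) : ℝ := 10 * (n + 2)

/-- An entry of the quartic block. -/
noncomputable def eA (n r : ℝ) : ℝ :=
  n * pC1 n r * (pA n r - 3 * pW n r) - (n - 1) * pL1 n r ^ 2

/-- An entry of the quartic block. -/
noncomputable def eB (n r : ℝ) : ℝ :=
  n * pC4 n r * (pB n r - 3 * pW n r) - (n - 1) * pL2 n r ^ 2

/-- An entry of the quartic block. -/
noncomputable def eR (n r : ℝ) : ℝ :=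
  (n * (pC1 n r * pB n r + pC2 n r * (pA n r - 2 * pW n r)) -
    2 * (n - 1) * pL1 n r * pM1 n r) / 2

/-- An entry of the quartic block. -/
noncomputable def eS (n r : ℝ) : ℝ :=
  (n * (pC3 n r * (pB n r - 2 * pW n r) + pC4 n r * pA n r) -
    2 * (n - 1) * pL2 n r * pM2 n r) / 2

/-- An entry of the quartic block. -/
noncomputable def eV (n r : ℝ) : ℝ :=
  (n * (pC2 n r * (pB n r - pW n r) + pC3 n r * (pA n r - pW n r)) -
    n * (pM1 n r ^ 2 + pM2 n r ^ 2) / 2 - pT n r) / 2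

/-- An entry of the quartic block. -/
noncomputable def eM (n r : ℝ) : ℝ :=
  pT n r - (n - 2) * (pM1 n r ^ 2 + pM2 n r ^ 2) / 2

end Vale.Agent.P100.Thin
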