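import Vale.Agent.P100.Cutoff

/-!
# P100: weak divergence identities for `C¹` fields and `C²` functions

The Bochner field `D²u Dv - Δu Dv` has a weak divergence `D²u : D²v - Δu Δv` for `C²` functions:
both sides come from `∫ ∂ᵢg ∂ⱼh = ∫ ∂ⱼg ∂ᵢh`, which needs only one derivative.
-/

namespace Vale.Agent.P100

open Set Filter Topology MeasureTheory
open Vale.Agent.P252 (pd continuous_pd hasCompactSupport_pd integral_pd_eq_zero)

variable {n : ℕ}

theorem contDiff_mul_ext {Ω : Set (Fin n → ℝ)} (hO : IsOpen Ω) {η Y : (Fin n → ℝ) → ℝ}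
    (hη : ContDiff ℝ 1 η) (hs : tsupport η ⊆ Ω) (hY : ContDiffOn ℝ 1 Y Ω) :
    ContDiff ℝ 1 fun x => η x * Y x :=
  contDiff_iff_contDiffAt.2 fun x => by
    by_cases hx : x ∈ Ω
    · exact hη.contDiffAt.mul (hY.contDiffAt (hO.mem_nhds hx))
    · refine (contDiffAt_const (c := (0 : ℝ))).congr_of_eventuallyEq ?_
      filter_upwards [(notMem_tsupport_iff_eventuallyEq.1 fun h => hx (hs h))] with y hy
      simp [hy]

theorem pd_mul_at {f g : (Fin n → ℝ) → ℝ} {x : Fin n → ℝ} (hf : DifferentiableAt ℝ f x)
    (hg : DifferentiableAt ℝ g x) (i : Fin n) :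
    pd i (fun y => f y * g y) x = pd i f x * g x + f x * pd i g x := by
  simp [pd, fderiv_fun_mul hf hg]
  ring

theorem pd_congr_at {f g : (Fin n → ℝ) → ℝ} {x : Fin n → ℝ} (h : f =ᶠ[𝓝 x] g) (i : Fin n) :
    pd i f x = pd i g x := by
  simp [pd, h.fderiv_eq]

theorem pd_eq_zero_off {η : (Fin n → ℝ) → ℝ} {x : Fin n → ℝ} (h : x ∉ tsupport η) (i : Fin n) :
    pd i η x = 0 := by
  simp [pd, (notMem_tsupport_iff_eventuallyEq.1 h).fderiv_eq]

/-- The weak divergence of a `C¹` field. -/
theorem weak_div {Ω : Set (Fin n → ℝ)} (hO : IsOpen Ω) {η : (Fin n → ℝ) → ℝ}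
    (hη : ContDiff ℝ 1 η) (hc : HasCompactSupport η) (hs : tsupport η ⊆ Ω)
    {Y : Fin n → (Fin n → ℝ) → ℝ} (hY : ∀ i, ContDiffOn ℝ 1 (Y i) Ω) :
    ∫ x, (η x * ∑ i, pd i (Y i) x + ∑ i, pd i η x * Y i x) = 0 := by
  have hC : ∀ i, ContDiff ℝ 1 fun x => η x * Y i x := fun i => contDiff_mul_ext hO hη hs (hY i)
  have hS : ∀ i, HasCompactSupport fun x => η x * Y i x := fun i => hc.mul_right
  have e : ∀ i x, pd i (fun y => η y * Y i y) x = η x * pd i (Y i) x + pd i η x * Y i x := by
    intro i x
    by_cases hx : x ∈ Ω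
    · rw [pd_mul_at ((hη.differentiable one_ne_zero) x)
        (((hY i).contDiffAt (hO.mem_nhds hx)).differentiableAt one_ne_zero)]
      ring
    · have hx' : x ∉ tsupport η := fun h => hx (hs h)
      have h0 : (fun y => η y * Y i y) =ᶠ[𝓝 x] fun _ => 0 := by
        filter_upwards [notMem_tsupport_iff_eventuallyEq.1 hx'] with y hy
        simp [hy]
      rw [pd_congr_at h0, pd_eq_zero_off hx', image_eq_zero_of_notMem_tsupport hx']
      simp [pd]
  have hi : ∀ i, Integrable fun x => pd i (fun y => η y * Y i y) x := fun i =>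
    (continuous_pd (hC i) i).integrable_of_hasCompactSupport (hasCompactSupport_pd (hS i) i)
  calc ∫ x, (η x * ∑ i, pd i (Y i) x + ∑ i, pd i η x * Y i x)
      = ∫ x, ∑ i, pd i (fun y => η y * Y i y) x := by
        refine integral_congr_ae (Eventually.of_forall fun x => ?_)
        simp only [e, Finset.sum_add_distrib, Finset.mul_sum]
    _ = 0 := by
        rw [integral_finsetSum _ fun i _ => hi i]
        exact Finset.sum_eq_zero fun i _ => integral_pd_eq_zero (hC i) (hS i) i

theorem hasDerivAt_shift {f : (Fin n → ℝ) → ℝ} (hf : ContDiff ℝ 1 f) (x e : Fin n → ℝ) (t : ℝ) :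
    HasDerivAt (fun s : ℝ => f (x + s • e)) (fderiv ℝ f (x + t • e) e) t := by
  have h1 : HasDerivAt (fun s : ℝ => x + s • e) e t := by
    simpa using ((hasDerivAt_id t).smul_const e).const_add x
  exact ((hf.differentiable one_ne_zero) _).hasFDerivAt.comp_hasDerivAt t h1

/-- Differentiating `∫ φ(x) f(x + t e)` at `t = 0`. -/
theorem hasDerivAt_integral_shift {φ f : (Fin n → ℝ) → ℝ} (hφ : Continuous φ)
    (hc : HasCompactSupport φ) (hf : ContDiff ℝ 1 f) (e : Fin n → ℝ) :
    HasDerivAt (fun t : ℝ => ∫ x, φ x * f (x + t • e)) (∫ x, φ x * fderiv ℝ f x e) 0 := by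
  have hcf : Continuous fun x => fderiv ℝ f x e :=
    (hf.continuous_fderiv one_ne_zero).clm_apply continuous_const
  obtain ⟨b, hb⟩ := (hc.isCompact.prod (isCompact_Icc (a := (-1 : ℝ)) (b := 1))).exists_bound_of_continuousOn
    (f := fun p : (Fin n → ℝ) × ℝ => φ p.1 * fderiv ℝ f (p.1 + p.2 • e) e)
    ((hφ.comp continuous_fst).mul (hcf.comp (by fun_prop))).continuousOn
  have hint : ∀ t : ℝ, Integrable fun x => φ x * f (x + t • e) := fun t =>
    (hφ.mul (hf.continuous.comp (by fun_prop))).integrable_of_hasCompactSupport hc.mul_right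
  have h := hasDerivAt_integral_of_dominated_loc_of_deriv_le (μ := volume)
    (F := fun (t : ℝ) x => φ x * f (x + t • e))
    (F' := fun (t : ℝ) x => φ x * fderiv ℝ f (x + t • e) e)
    (bound := (tsupport φ).indicator fun _ => b) (x₀ := 0) (s := Icc (-1 : ℝ) 1)
    (Icc_mem_nhds (by norm_num) (by norm_num))
    (Eventually.of_forall fun t => (hint t).aestronglyMeasurable) (hint 0)
    ((hφ.mul (hcf.comp (by fun_prop))).aestronglyMeasurable)
    (Eventually.of_forall fun x t ht => by
      by_cases hx : x ∈ tsupport φ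
      · rw [Set.indicator_of_mem hx]
        exact hb (x, t) ⟨hx, ht⟩
      · simp [Set.indicator_of_notMem hx, image_eq_zero_of_notMem_tsupport hx])
    ((integrableOn_const hc.isCompact.measure_lt_top.ne).integrable_indicator
      hc.isCompact.measurableSet)
    (Eventually.of_forall fun x t _ => (hasDerivAt_shift hf x e t).const_mul (φ x))
  simpa using h.2

/-- Partial derivatives commute weakly on `C¹`. -/
theorem integral_pd_swap {g h : (Fin n → ℝ) → ℝ} (hg : ContDiff ℝ 1 g) (hc : HasCompactSupport g)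
    (hh : ContDiff ℝ 1 h) (i j : Fin n) :
    ∫ x, pd i g x * pd j h x = ∫ x, pd j g x * pd i h x := by
  set e : Fin n → ℝ := Pi.single i 1 with he
  have hgj := continuous_pd hg j
  have hhj := continuous_pd hh j
  have key : ∀ t : ℝ, ∫ x, pd j g x * h (x + t • e) = -∫ x, g (x - t • e) * pd j h x := by
    intro t
    have hsh : ContDiff ℝ 1 fun x => h (x + t • e) := hh.comp (contDiff_id.add contDiff_const)
    have h0 := integral_pd_eq_zero (hg.mul hsh) (hc.mul_right (f' := fun x => h (x + t • e))) j
    have hp : ∀ x, pd j (fun y => g y * h (y + t • e)) x =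
        pd j g x * h (x + t • e) + g x * pd j h (x + t • e) := fun x => by
      rw [pd_mul_at ((hg.differentiable one_ne_zero) x) ((hsh.differentiable one_ne_zero) x)]
      simp [pd, fderiv_comp_add_right]
    simp only [hp] at h0
    have hsc : Continuous fun x : Fin n → ℝ => x + t • e := by fun_prop
    have i1 : Integrable fun x => pd j g x * h (x + t • e) :=
      (hgj.mul (hh.continuous.comp hsc)).integrable_of_hasCompactSupport
        (hasCompactSupport_pd hc j).mul_right
    have i2 : Integrable fun x => g x * pd j h (x + t • e) :=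
      (hg.continuous.mul (hhj.comp hsc)).integrable_of_hasCompactSupport hc.mul_right
    rw [integral_add i1 i2] at h0
    have ht := integral_add_right_eq_self (μ := volume) (fun x => g (x - t • e) * pd j h x) (t • e)
    simp only [add_sub_cancel_right] at ht
    linarith
  have d1 := hasDerivAt_integral_shift hgj (hasCompactSupport_pd hc j) hh e
  obtain ⟨s, hs, hsone⟩ : ∃ s : Set (Fin n → ℝ), IsCompact s ∧
      ∀ t ∈ Icc (-1 : ℝ) 1, ∀ x, g (x - t • e) ≠ 0 → x ∈ s := by
    refine ⟨(fun p : (Fin n → ℝ) × ℝ => p.1 + p.2 • e) '' (tsupport g ×ˢ Icc (-1 : ℝ) 1),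
      (hc.isCompact.prod isCompact_Icc).image (by fun_prop), fun t ht x hx => ?_⟩
    exact ⟨(x - t • e, t), ⟨subset_tsupport g hx, ht⟩, by simp⟩
  -- cut off `pd j h` outside the swept support and differentiate in the other factor
  have d2 : HasDerivAt (fun t : ℝ => ∫ x, g (x - t • e) * pd j h x)
      (-∫ x, pd i g x * pd j h x) 0 := by
    have hcg : Continuous fun x => fderiv ℝ g x e :=
      (hg.continuous_fderiv one_ne_zero).clm_apply continuous_const
    have hint : ∀ t : ℝ, Integrable fun x => g (x - t • e) * pd j h x := fun t => by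
      refine ((hg.continuous.comp (by fun_prop)).mul hhj).integrable_of_hasCompactSupport
        (HasCompactSupport.mul_right ?_)
      simpa [sub_eq_add_neg] using hc.comp_homeomorph (Homeomorph.addRight (-(t • e)))
    obtain ⟨b, hb⟩ := (hs.prod (isCompact_Icc (a := (-1 : ℝ)) (b := 1))).exists_bound_of_continuousOn
      (f := fun p : (Fin n → ℝ) × ℝ => -(fderiv ℝ g (p.1 - p.2 • e) e) * pd j h p.1)
      (((hcg.comp (by fun_prop)).neg).mul (hhj.comp continuous_fst)).continuousOn
    have hd : ∀ (x : Fin n → ℝ) (t : ℝ),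
        HasDerivAt (fun u : ℝ => g (x - u • e) * pd j h x)
          (-(fderiv ℝ g (x - t • e) e) * pd j h x) t := fun x t => by
      have := hasDerivAt_shift hg x (-e) t
      simp only [smul_neg, ← sub_eq_add_neg, map_neg] at this
      exact this.mul_const _
    have h := hasDerivAt_integral_of_dominated_loc_of_deriv_le (μ := volume)
      (F := fun (t : ℝ) x => g (x - t • e) * pd j h x)
      (F' := fun (t : ℝ) x => -(fderiv ℝ g (x - t • e) e) * pd j h x)
      (bound := s.indicator fun _ => b) (x₀ := 0) (s := Ioo (-1 : ℝ) 1)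
      (Ioo_mem_nhds (by norm_num) (by norm_num))
      (Eventually.of_forall fun t => (hint t).aestronglyMeasurable) (hint 0)
      (((hcg.comp (by fun_prop)).neg.mul hhj).aestronglyMeasurable)
      (Eventually.of_forall fun x t ht => by
        by_cases hx : x ∈ s
        · rw [Set.indicator_of_mem hx]
          exact hb (x, t) ⟨hx, Ioo_subset_Icc_self ht⟩
        · rw [Set.indicator_of_notMem hx]
          have : (fun u : ℝ => g (x - u • e) * pd j h x) =ᶠ[𝓝 t] fun _ => 0 := by
            filter_upwards [isOpen_Ioo.mem_nhds ht] with u hu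
            have : g (x - u • e) = 0 := by_contra fun h => hx (hsone u (Ioo_subset_Icc_self hu) x h)
            simp [this]
          rw [((hd x t).congr_of_eventuallyEq this.symm).unique (hasDerivAt_const t (0 : ℝ))]
          simp)
      ((integrableOn_const hs.measure_lt_top.ne).integrable_indicator hs.measurableSet)
      (Eventually.of_forall fun x t _ => hd x t)
    simpa [pd, integral_neg, he] using h.2
  have := d1.unique ((d2.neg).congr_of_eventuallyEq (Eventually.of_forall key))
  simpa [pd, he] using this.symm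

/-- A `C¹` function on the punctured space agrees near a compact set with a global one. -/
theorem exists_ext {K : Set (Fin n → ℝ)} (hK : IsCompact K) (hKΩ : K ⊆ punctured n)
    {h : (Fin n → ℝ) → ℝ} (hh : ContDiffOn ℝ 1 h (punctured n)) :
    ∃ h' : (Fin n → ℝ) → ℝ, ContDiff ℝ 1 h' ∧ ∀ x ∈ K, h' =ᶠ[𝓝 x] h := by
  rcases K.eq_empty_or_nonempty with rfl | hne
  · exact ⟨fun _ => 0, contDiff_const, fun x hx => absurd hx (by simp)⟩
  obtain ⟨a, ha, hmin⟩ := hK.exists_isMinOn hne (contDiff_sqn (n := n)).continuous.continuousOn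
  obtain ⟨c, hc, hmax⟩ := hK.exists_isMaxOn hne (contDiff_sqn (n := n)).continuous.continuousOn
  have hm := sqn_pos (hKΩ ha)
  set ρ := Real.sqrt (sqn a / 4) with hρ
  set R := Real.sqrt (2 * sqn c) with hR
  have hρ2 : ρ ^ 2 = sqn a / 4 := Real.sq_sqrt (by linarith)
  have hR2 : R ^ 2 = 2 * sqn c := Real.sq_sqrt (by linarith [sqn_nonneg c])
  have hρ0 : 0 < ρ := Real.sqrt_pos.2 (by linarith)
  have hR0 : 0 < R := Real.sqrt_pos.2 (by linarith [sqn_pos (hKΩ hc)])
  obtain ⟨hAc, hAΩ, hzK, hz, -⟩ := zcut_props (n := n) hρ0 hR0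
  refine ⟨fun x => zcut ρ R x * h x, contDiff_mul_ext isOpen_punctured hz
    ((closure_minimal (fun x (hx : zcut ρ R x ≠ 0) => by_contra fun h' => hx (hzK x h'))
      hAc.isClosed).trans hAΩ) hh,
    fun x hx => ?_⟩
  have h1 : sqn a ≤ sqn x := hmin hx
  have h2 : sqn x ≤ sqn c := hmax hx
  filter_upwards [(isOpen_lt continuous_const contDiff_sqn.continuous).mem_nhds
      (show sqn a / 2 < sqn x by linarith),
    (isOpen_lt contDiff_sqn.continuous continuous_const).mem_nhds
      (show sqn x < 2 * sqn c by linarith [sqn_pos (hKΩ hc)])] with y hy1 hy2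
  have hy1' : sqn a / 2 < sqn y := hy1
  have hy2' : sqn y < 2 * sqn c := hy2
  have e1 : inner' ρ y = 1 := Real.smoothTransition.one_of_one_le (by
    rw [le_sub_iff_add_le, le_div_iff₀ (by positivity)]; linarith)
  have e2 : outer' R y = 1 := Real.smoothTransition.one_of_one_le (by
    rw [le_sub_iff_add_le, ← le_sub_iff_add_le', div_le_iff₀ (by positivity)]; linarith)
  simp [zcut, e1, e2]

/-- The Laplacian as the sum of the pure second partial derivatives. -/
noncomputable def lap (f : (Fin n → ℝ) → ℝ) (x : Fin n → ℝ) : ℝ := ∑ i, pd i (pd i f) x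

theorem contDiffOn_pd {Ω : Set (Fin n → ℝ)} (hO : IsOpen Ω) {f : (Fin n → ℝ) → ℝ}
    (hf : ContDiffOn ℝ 2 f Ω) (i : Fin n) : ContDiffOn ℝ 1 (pd i f) Ω :=
  (hf.fderiv_of_isOpen hO (by norm_num)).clm_apply contDiffOn_const

theorem pd_pd_comm {Ω : Set (Fin n → ℝ)} (hO : IsOpen Ω) {f : (Fin n → ℝ) → ℝ}
    (hf : ContDiffOn ℝ 2 f Ω) {x : Fin n → ℝ} (hx : x ∈ Ω) (i j : Fin n) :
    pd i (pd j f) x = pd j (pd i f) x := by
  have hd : DifferentiableAt ℝ (fderiv ℝ f) x :=
    ((hf.contDiffAt (hO.mem_nhds hx)).fderiv_right (m := 1) (by norm_num)).differentiableAt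
      one_ne_zero
  have h : IsSymmSndFDerivAt ℝ f x :=
    (hf.contDiffAt (hO.mem_nhds hx)).isSymmSndFDerivAt (by simp)
  simp only [pd]
  rw [show (pd j f) = fun y => fderiv ℝ f y (Pi.single j 1) from rfl,
    show (pd i f) = fun y => fderiv ℝ f y (Pi.single i 1) from rfl,
    fderiv_clm_apply hd (differentiableAt_const _), fderiv_clm_apply hd (differentiableAt_const _)]
  simp [h.eq]

/-- The weak divergence of `D²u Dv - Δu Dv`, for `C²` functions on the punctured space. -/
theorem weak_hessian {η u v : (Fin n → ℝ) → ℝ} (hη : ContDiff ℝ 1 η) (hc : HasCompactSupport η)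
    (hs : tsupport η ⊆ punctured n) (hu : ContDiffOn ℝ 2 u (punctured n))
    (hv : ContDiffOn ℝ 2 v (punctured n)) :
    ∫ x, (η x * ((∑ i, ∑ j, pd i (pd j u) x * pd i (pd j v) x) - lap u x * lap v x) +
      ∑ i, pd i η x * ((∑ j, pd i (pd j u) x * pd j v x) - lap u x * pd i v x)) = 0 := by
  have hO := isOpen_punctured (n := n)
  have hu1 := fun i => contDiffOn_pd hO hu i
  have hv1 := fun i => contDiffOn_pd hO hv i
  have hg : ∀ j, ContDiff ℝ 1 fun x => η x * pd j v x := fun j => contDiff_mul_ext hO hη hs (hv1 j)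
  have hgc : ∀ j, HasCompactSupport fun x => η x * pd j v x := fun j => hc.mul_right
  choose H hH hHe using fun i => exists_ext hc.isCompact hs (hu1 i)
  set T := fun i j x => pd i (fun y => η y * pd j v y) x * pd j (H i) x -
    pd j (fun y => η y * pd j v y) x * pd i (H i) x with hT
  have hTi : ∀ i j, Integrable fun x => T i j x := fun i j => by
    refine Integrable.sub ?_ ?_
    · exact ((continuous_pd (hg j) i).mul (continuous_pd (hH i) j)).integrable_of_hasCompactSupport
        (hasCompactSupport_pd (hgc j) i).mul_right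
    · exact ((continuous_pd (hg j) j).mul (continuous_pd (hH i) i)).integrable_of_hasCompactSupport
        (hasCompactSupport_pd (hgc j) j).mul_right
  have hzero : ∀ i j, ∫ x, T i j x = 0 := fun i j => by
    have i1 : Integrable fun x => pd i (fun y => η y * pd j v y) x * pd j (H i) x :=
      ((continuous_pd (hg j) i).mul (continuous_pd (hH i) j)).integrable_of_hasCompactSupport
        (hasCompactSupport_pd (hgc j) i).mul_right
    have i2 : Integrable fun x => pd j (fun y => η y * pd j v y) x * pd i (H i) x :=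
      ((continuous_pd (hg j) j).mul (continuous_pd (hH i) i)).integrable_of_hasCompactSupport
        (hasCompactSupport_pd (hgc j) j).mul_right
    simp only [hT]
    rw [integral_sub i1 i2, integral_pd_swap (hg j) (hgc j) (hH i) i j, sub_self]
  refine Eq.trans (integral_congr_ae (Eventually.of_forall fun x => ?_))
    (show ∫ x, ∑ i, ∑ j, T i j x = 0 by
      rw [integral_finsetSum _ fun i _ => integrable_finsetSum _ fun j _ => hTi i j]
      exact Finset.sum_eq_zero fun i _ => by
        rw [integral_finsetSum _ fun j _ => hTi i j]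
        exact Finset.sum_eq_zero fun j _ => hzero i j)
  by_cases hx : x ∈ tsupport η
  · have hxΩ := hs hx
    have hdv : ∀ j, DifferentiableAt ℝ (pd j v) x := fun j =>
      ((hv1 j).contDiffAt (hO.mem_nhds hxΩ)).differentiableAt one_ne_zero
    have e1 : ∀ i j, T i j x =
        (pd i η x * pd j v x + η x * pd i (pd j v) x) * pd i (pd j u) x -
          (pd j η x * pd j v x + η x * pd j (pd j v) x) * pd i (pd i u) x := fun i j => by
      simp only [hT]
      rw [pd_mul_at ((hη.differentiable one_ne_zero) x) (hdv j),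
        pd_mul_at ((hη.differentiable one_ne_zero) x) (hdv j),
        pd_congr_at (hHe i x hx) j, pd_congr_at (hHe i x hx) i, pd_pd_comm hO hu hxΩ j i]
    have e2 : ∀ i j, T i j x =
        η x * (pd i (pd j u) x * pd i (pd j v) x) - η x * (pd i (pd i u) x * pd j (pd j v) x) +
          (pd i η x * (pd i (pd j u) x * pd j v x) -
            pd i (pd i u) x * (pd j η x * pd j v x)) := fun i j => by
      rw [e1]; ring
    simp only [e2, Finset.sum_add_distrib, Finset.sum_sub_distrib, ← Finset.mul_sum,
      ← Finset.sum_mul, lap, mul_sub]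
    congr 2
    rw [Finset.mul_sum]
    exact Finset.sum_congr rfl fun j _ => by ring
  · have hz : ∀ i j, T i j x = 0 := fun i j => by
      have h0 : (fun y => η y * pd j v y) =ᶠ[𝓝 x] fun _ => 0 := by
        filter_upwards [notMem_tsupport_iff_eventuallyEq.1 hx] with y hy
        simp [hy]
      simp only [hT, pd_congr_at h0]
      simp [pd]
    simp [hz, pd_eq_zero_off hx, image_eq_zero_of_notMem_tsupport hx]

end Vale.Agent.P100
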